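import Claimed.Agent.R285.F5.TorBase
import Claimed.Agent.R285.TopC

/-!
# ROW 285, post BP-F5-L54, file 4: THE LOWER BOUND OF THE MEAN PHASE = `Flow.tor_phase_lower` ([F](trj:phase-lower))      (architect helper57)

## Route ([F] trajectory.tex l.866-915)
1. `torPhase_ge`: restoring the periodic bonds increases the characteristic coefficient (`lsys_phi_mono` along `C5.t1Ref`): `torPhase b n ≥ (sq n).chr b unif 0`.
2. `chr_unif_face`: uniform profile versus four-face profile: EXACT potential (`fourPot`), bounded energy, `C2.chr_transfer`.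
3. `zface_subexp`: `C2.face_ratio` at `a = 8π` (exponent `2 - a/(4π) = 0`) along `G = L^r`, iterated on residue classes (`subadd_limit`), `r → ∞`.
Leaves `L-TOR-P*`; theorems marked GLUE are proved.
-/

set_option autoImplicit false

namespace Claimed.Agent.R285.L54

open Filter Topology Claims.C0459
open scoped Classical

noncomputable section

/-- L-TOR-P1.  `X'` := a lift of `domFn unif` in `(sq n).law` (`lift_exists`, `C2.rc_proper`).  `chr b unif 0 = phi X'` (`ex_eq_E0'`; `Rc.fl 0 = 0`).  `X' ∘ (C5.t1Ref n b).psi` is a lift of `meanRow n` in the torus law: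
`psi (coord h) = coord (h ∘ cast)` (see `map_mem` of `C5.t1Ref`), `∑_{v ∈ [0,n)²} (n n)⁻¹ 2π h(↑v) = ∑_x n⁻² 2π h x` (bijection `[0,n)² ≃ (ZMod n)²`: `C5.t1_val_cast`, `ZMod.natCast_zmod_val`); so it equals `xM` (`lift_unique`).
`lsys_phi_mono`, `torPhase_eq`. -/
theorem torPhase_ge (b : ℝ) (hb : 0 < b) (n : ℕ) (hn : 1 ≤ n) : (C2.sq n).chr b (C2.sq n).unif 0 ≤ torPhase b n := by
  have : NeZero n := ⟨by omega⟩
  have hn0 : (n : ℝ) ≠ 0 := Nat.cast_ne_zero.2 (NeZero.ne n)
  obtain ⟨X', hX'⟩ := lift_exists (C2.sq n).law (C2.rc_proper (C2.sq n)) b (domFn (D := (C2.sq n).set) (cut := ∅) (C2.sq n).unif)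
  have h1 : (C2.sq n).chr b (C2.sq n).unif 0 = ((C2.sq n).sys b).phi X' := by
    unfold C2.Rc.chr C2.Rc.Ex LSys.phi
    refine ex_eq_E0' (C2.sq n).law (C2.rc_proper _) b _ (fun z => Real.cos (X' z)) fun h hh => ?_
    rw [hX' h hh]
    have hfl : (C2.sq n).fl 0 (fun v => 2 * Real.pi * (h v : ℝ)) = 0 := by
      unfold C2.Rc.fl
      simp
    rw [hfl, add_zero]
    rfl
  have h2 : X'.comp (C5.t1Ref n b).psi = xM n b := by
    refine lift_unique (C5.torLaw n) b (meanRow n) ?_ (xM_lift n b)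
    intro h hh
    have hh' : (fun v : (C2.sq n).G.V => h ((v.1.1 : ZMod n), (v.1.2 : ZMod n))) ∈ (C2.sq n).law.Λ := by
      intro v hv
      have hv' : v.1 = (0, 0) := hv
      show h ((v.1.1 : ZMod n), (v.1.2 : ZMod n)) = 0
      rw [hv']
      simpa using hh ((0 : ZMod n), (0 : ZMod n)) rfl
    have e : (C5.t1Ref n b).psi ⟨(C5.torLaw n).coordA b h, (C5.torLaw n).coordA_mem b hh⟩
        = ⟨(C2.sq n).law.coordA b (fun v : (C2.sq n).G.V => h ((v.1.1 : ZMod n), (v.1.2 : ZMod n))), (C2.sq n).law.coordA_mem b hh'⟩ := by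
      apply Subtype.ext
      refine Prod.ext ?_ ?_
      · funext e
        show h ((torus n).tgt (C5.t1iE n e.1)) - h ((torus n).src (C5.t1iE n e.1))
          = h (((e.1.snd).1 : ZMod n), ((e.1.snd).2 : ZMod n)) - h ((e.1.1.1 : ZMod n), (e.1.1.2 : ZMod n))
        rw [C5.t1_tgt_iE]
        rfl
      · funext o
        exact Empty.elim o
    show X' ((C5.t1Ref n b).psi _) = _
    rw [e]
    refine (hX' _ hh').trans ?_
    have hbij : Function.Bijective (fun x : (C2.sq n).G.V => (((x.1.1 : ZMod n), (x.1.2 : ZMod n)) : ZMod n × ZMod n)) := by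
      constructor
      · intro x y hxy
        obtain ⟨⟨x10, x11⟩, ⟨x20, x21⟩⟩ := C5.t1_mem_sq.1 x.2
        obtain ⟨⟨y10, y11⟩, ⟨y20, y21⟩⟩ := C5.t1_mem_sq.1 y.2
        have a1 : (x.1.1 : ZMod n) = (y.1.1 : ZMod n) := congrArg Prod.fst hxy
        have a2 : (x.1.2 : ZMod n) = (y.1.2 : ZMod n) := congrArg Prod.snd hxy
        apply Subtype.ext
        refine Prod.ext ?_ ?_
        · rw [← C5.t1_val_cast (n := n) x10 x11, ← C5.t1_val_cast (n := n) y10 y11, a1]
        · rw [← C5.t1_val_cast (n := n) x20 x21, ← C5.t1_val_cast (n := n) y20 y21, a2]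
      · rintro ⟨u, v⟩
        refine ⟨⟨((u.val : ℤ), (v.val : ℤ)), C5.t1_lift_mem n (u, v) true⟩, ?_⟩
        simp
    refine Fintype.sum_bijective _ hbij _ _ fun x => ?_
    have hu : domFn (D := (C2.sq n).set) (cut := ∅) (C2.sq n).unif x = meanRow n ((x.1.1 : ZMod n), (x.1.2 : ZMod n)) := by
      show (C2.sq n).unif x.1 = (n : ℝ)⁻¹ ^ 2
      unfold C2.Rc.unif
      rw [if_pos x.2]
      show ((n : ℝ) * n)⁻¹ = _
      field_simp
    rw [hu]
  have h3 := lsys_phi_mono (C5.t1Ref n b) (C2.rc_ok (C2.sq n) b hb) (C5.torLaw_ok n b hb) X'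
  rw [h1, torPhase_eq, ← h2]
  exact h3

/-- the potential of (four faces) - (volume) on the square `[0,n)²`: average of the four one-face potentials of `C2.face_potential` -/
def fourPot (n : ℕ) (v : ℤ × ℤ) : ℝ :=
  ((v.1 : ℝ) * ((v.1 : ℝ) + 1) + ((n : ℝ) - 1 - v.1) * ((n : ℝ) - v.1) + (v.2 : ℝ) * ((v.2 : ℝ) + 1) + ((n : ℝ) - 1 - v.2) * ((n : ℝ) - v.2))
    / (8 * (n : ℝ) ^ 2)

/-- one coordinate of `fourPot_lap` -/
private theorem fourPot_aux (n : ℕ) (hn : 1 ≤ n) (a : ℤ) (h0 : 0 ≤ a) (h1 : a < n) :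
    (if a + 1 < (n : ℤ) then (2 * (n : ℝ) - 4 * a - 4) / (8 * (n : ℝ) ^ 2) else 0)
      + (if 0 ≤ a - 1 then (4 * (a : ℝ) - 2 * n) / (8 * (n : ℝ) ^ 2) else 0)
    = ((if a + 1 = (n : ℤ) then (n : ℝ)⁻¹ else 0) + (if a = 0 then (n : ℝ)⁻¹ else 0)) / 4 - ((n : ℝ) * n)⁻¹ / 2 := by
  have hn' : (n : ℝ) ≠ 0 := by exact_mod_cast (by omega : n ≠ 0)
  by_cases k1 : a + 1 < (n : ℤ)
  · rw [if_pos k1, if_neg (by omega : ¬ (a + 1 = (n : ℤ)))]
    by_cases k2 : 0 ≤ a - 1
    · rw [if_pos k2, if_neg (by omega : ¬ (a = 0))]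
      field_simp
      ring
    · have ha : a = 0 := by omega
      rw [if_neg k2, if_pos ha, ha]
      push_cast
      field_simp
      ring
  · have ha : a + 1 = (n : ℤ) := by omega
    have haR : (a : ℝ) = (n : ℝ) - 1 := by
      have : ((a + 1 : ℤ) : ℝ) = ((n : ℤ) : ℝ) := by rw [ha]
      push_cast at this
      linarith
    rw [if_neg k1, if_pos ha]
    by_cases k2 : 0 ≤ a - 1
    · rw [if_pos k2, if_neg (by omega : ¬ (a = 0)), haR]
      field_simp
      ring
    · have ha0 : a = 0 := by omega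
      have hn1 : (n : ℝ) = 1 := by
        rw [ha0] at haR
        push_cast at haR
        linarith
      rw [if_neg k2, if_pos ha0, hn1]
      norm_num

/-- L-TOR-P2.  `C2.face_potential` for the right face; the other three by the same finite computation (or by the reflections / the exchange of the coordinates); `lap` is linear. -/
theorem fourPot_lap (n : ℕ) (hn : 1 ≤ n) (v : ℤ × ℤ) (hv : v ∈ (C2.sq n).set) :
    (C2.sq n).lap (fourPot n) v = (C2.sq n).faceS v - (C2.sq n).unif v := by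
  obtain ⟨a, b⟩ := v
  obtain ⟨⟨h1, h2⟩, h3, h4⟩ := Free.fr_mem_set.1 hv
  simp only [C2.sq, zero_add] at h1 h2 h3 h4
  have A := fourPot_aux n hn a h1 h2
  have B := fourPot_aux n hn b h3 h4
  rw [Free.lap_eq _ _ _ hv]
  simp only [Free.fr_mem_right hv, Free.fr_mem_left hv, Free.fr_mem_up hv, Free.fr_mem_down hv]
  unfold C2.Rc.faceS C2.Rc.faceR C2.Rc.faceL C2.Rc.faceU C2.Rc.faceD C2.Rc.unif
  simp only [hv, true_and, if_true]
  simp only [C2.sq, zero_add]
  have e1 : fourPot n (a, b) - fourPot n (a + 1, b) = (2 * (n : ℝ) - 4 * a - 4) / (8 * (n : ℝ) ^ 2) := by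
    unfold fourPot
    push_cast
    ring
  have e2 : fourPot n (a, b) - fourPot n (a - 1, b) = (4 * (a : ℝ) - 2 * n) / (8 * (n : ℝ) ^ 2) := by
    unfold fourPot
    push_cast
    ring
  have e3 : fourPot n (a, b) - fourPot n (a, b + 1) = (2 * (n : ℝ) - 4 * b - 4) / (8 * (n : ℝ) ^ 2) := by
    unfold fourPot
    push_cast
    ring
  have e4 : fourPot n (a, b) - fourPot n (a, b - 1) = (4 * (b : ℝ) - 2 * n) / (8 * (n : ℝ) ^ 2) := by
    unfold fourPot
    push_cast
    ring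
  rw [e1, e2, e3, e4]
  have AB := congrArg₂ (fun x y : ℝ => x + y) A B
  beta_reduce at AB
  have r1 : ∀ x y z w : ℝ, x + y + z + w = (x + y) + (z + w) := fun _ _ _ _ => by ring
  have r2 : ∀ x y z w u : ℝ, (x + y) / 4 - u / 2 + ((z + w) / 4 - u / 2) = (x + y + z + w) / 4 - u := fun _ _ _ _ _ => by ring
  rw [r2] at AB
  rw [r1]
  refine Eq.trans ?_ (AB.trans ?_) <;> congr!

/-- L-TOR-P2.  On a bond of the square `|gd (fourPot n) e| ≤ 1/(2n)` (`(x+1) - (n-1-x) = 2x + 2 - n`, divided by `4 n²`); at most `2 n²` bonds. -/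
theorem fourPot_dir (n : ℕ) (hn : 1 ≤ n) : (C2.sq n).dir (fourPot n) ≤ 1 := by
  have hn0 : (0 : ℝ) < n := by exact_mod_cast (by omega : 0 < n)
  unfold C2.Rc.dir C2.Rc.cost
  have hb : ∀ e ∈ (C2.sq n).bd, C2.gd (fourPot n) e ^ 2 ≤ 1 / (16 * (n : ℝ) ^ 2) := by
    intro e he
    obtain ⟨he1, he2⟩ := Free.mem_bd.1 he
    obtain ⟨⟨a, b⟩, d⟩ := e
    obtain ⟨⟨h1, h2⟩, h3, h4⟩ := Free.fr_mem_set.1 he1
    obtain ⟨⟨k1, k2⟩, k3, k4⟩ := Free.fr_mem_set.1 he2
    simp only [C2.sq, zero_add] at h1 h2 h3 h4 k1 k2 k3 k4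
    have key : ∀ c : ℤ, 0 ≤ c → c + 1 < (n : ℤ) →
        ((4 * (c : ℝ) + 4 - 2 * n) / (8 * (n : ℝ) ^ 2)) ^ 2 ≤ 1 / (16 * (n : ℝ) ^ 2) := by
      intro c c0 c1
      have c0' : (0 : ℝ) ≤ c := by exact_mod_cast c0
      have c1' : (c : ℝ) + 1 ≤ n := by exact_mod_cast c1.le
      have hab : |4 * (c : ℝ) + 4 - 2 * n| ≤ 2 * n := by
        rw [abs_le]
        constructor <;> linarith
      have hsq : (4 * (c : ℝ) + 4 - 2 * n) ^ 2 ≤ (2 * (n : ℝ)) ^ 2 := by
        rw [← sq_abs]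
        exact pow_le_pow_left₀ (abs_nonneg _) hab 2
      rw [div_pow, div_le_div_iff₀ (by positivity) (by positivity)]
      have : 0 ≤ (n : ℝ) ^ 2 := by positivity
      nlinarith
    cases d
    · simp only [Bond.snd, Bool.false_eq_true, if_false] at k1 k2 k3 k4
      have e : C2.gd (fourPot n) ((a, b), false) = (4 * (b : ℝ) + 4 - 2 * n) / (8 * (n : ℝ) ^ 2) := by
        simp only [C2.gd, Bond.snd, Bool.false_eq_true, if_false, fourPot]
        push_cast
        ring
      rw [e]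
      exact key b h3 k4
    · simp only [Bond.snd, if_true] at k1 k2 k3 k4
      have e : C2.gd (fourPot n) ((a, b), true) = (4 * (a : ℝ) + 4 - 2 * n) / (8 * (n : ℝ) ^ 2) := by
        simp only [C2.gd, Bond.snd, if_true, fourPot]
        push_cast
        ring
      rw [e]
      exact key a h1 k2
  have hcard : ((C2.sq n).bd.card : ℝ) ≤ 2 * (n : ℝ) ^ 2 := by
    have h1 : (C2.sq n).bd.card ≤ ((C2.sq n).set ×ˢ (Finset.univ : Finset Bool)).card :=
      Finset.card_le_card fun e he => Finset.mem_product.2 ⟨(Free.mem_bd.1 he).1, Finset.mem_univ _⟩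
    have h2 : ((C2.sq n).set ×ˢ (Finset.univ : Finset Bool)).card = n * n * 2 := by
      simp [C2.Rc.set, C2.sq, Finset.card_product]
    rw [h2] at h1
    have : ((C2.sq n).bd.card : ℝ) ≤ ((n * n * 2 : ℕ) : ℝ) := by exact_mod_cast h1
    push_cast at this
    nlinarith
  have h := Finset.sum_le_card_nsmul _ _ _ hb
  rw [nsmul_eq_mul] at h
  refine h.trans ?_
  have h3 : ((C2.sq n).bd.card : ℝ) * (1 / (16 * (n : ℝ) ^ 2)) ≤ 2 * (n : ℝ) ^ 2 * (1 / (16 * (n : ℝ) ^ 2)) :=
    mul_le_mul_of_nonneg_right hcard (by positivity)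
  refine h3.trans ?_
  have : 2 * (n : ℝ) ^ 2 * (1 / (16 * (n : ℝ) ^ 2)) = 1 / 8 := by
    field_simp
    norm_num
  rw [this]
  norm_num

/-- summation by parts in (real) height variables -/
theorem tp_parts (R : C2.Rc) (w : Bond → ℝ) (φ : R.G.V → ℝ) : R.fl w φ = R.vx (R.dv w) φ := by
  have hdv : ∀ x : R.G.V, domFn (D := R.set) (cut := ∅) (R.dv w) x
      = ∑ e : R.G.E, w (domBond (D := R.set) (cut := ∅) e) *
        ((if R.G.tgt e = x then 1 else 0) - (if R.G.src e = x then 1 else 0)) := by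
    intro x
    show R.dv w x.1 = _
    unfold C2.Rc.dv
    rw [← Free.fr_sum_E R fun e => w e * ((if e.snd = x.1 then 1 else 0) - (if e.1 = x.1 then 1 else 0))]
    refine Finset.sum_congr rfl fun e _ => ?_
    have e1 : (R.G.tgt e = x) ↔ (domBond (D := R.set) (cut := ∅) e).snd = x.1 := by
      constructor
      · intro hx; rw [← hx]; rfl
      · intro hx; exact Subtype.ext hx
    have e2 : (R.G.src e = x) ↔ (domBond (D := R.set) (cut := ∅) e).1 = x.1 := by
      constructor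
      · intro hx; rw [← hx]; rfl
      · intro hx; exact Subtype.ext hx
    simp only [e1, e2]
  show ∑ e : R.G.E, w (domBond (D := R.set) (cut := ∅) e) * (φ (R.G.tgt e) - φ (R.G.src e)) =
    ∑ x : R.G.V, domFn (D := R.set) (cut := ∅) (R.dv w) x * φ x
  have hR : ∑ x : R.G.V, domFn (D := R.set) (cut := ∅) (R.dv w) x * φ x =
      ∑ x : R.G.V, ∑ e : R.G.E, w (domBond (D := R.set) (cut := ∅) e) *
        ((if R.G.tgt e = x then 1 else 0) - (if R.G.src e = x then 1 else 0)) * φ x :=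
    Finset.sum_congr rfl fun x _ => by rw [hdv x, Finset.sum_mul]
  rw [hR, Finset.sum_comm]
  refine Finset.sum_congr rfl fun e _ => ?_
  have : ∀ x : R.G.V, w (domBond (D := R.set) (cut := ∅) e) *
        ((if R.G.tgt e = x then 1 else 0) - (if R.G.src e = x then 1 else 0)) * φ x
      = (if R.G.tgt e = x then w (domBond (D := R.set) (cut := ∅) e) * φ x else 0)
        - (if R.G.src e = x then w (domBond (D := R.set) (cut := ∅) e) * φ x else 0) := by
    intro x
    split_ifs <;> ring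
  simp only [this, Finset.sum_sub_distrib, Finset.sum_ite_eq, Finset.mem_univ, if_true]
  ring

/-- L-TOR-P3.  Summation by parts in height variables: `R.fl (gd g) φ = R.vx (R.lap g) φ` (as `Free.fr_gradX_lift`), so `vx unif φ + fl 0 φ = vx faceS φ + fl (0 + (- gd fourPot)) φ` pointwise (`fourPot_lap`; `vx` only sees `R.set`);
`C2.chr_transfer` with `w = 0`, `w' = - gd fourPot`, `cost w' = dir fourPot ≤ 1`. -/
theorem chr_unif_face (b : ℝ) (hb : 0 < b) (n : ℕ) (hn : 1 ≤ n) :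
    Real.sqrt (-Real.log ((C2.sq n).chr b (C2.sq n).unif 0)) ≤ Real.sqrt (-Real.log (C2.zface b n)) + Real.sqrt (2 * Real.pi ^ 2 * b) := by
  have hp : 0 < (C2.sq n).p := hn
  have hq : 0 < (C2.sq n).q := hn
  have key : (C2.sq n).chr b (C2.sq n).unif 0 =
      (C2.sq n).chr b (C2.sq n).faceS (fun e => (0 : Bond → ℝ) e + (-(C2.gd (fourPot n) e))) := by
    have hfun : ∀ φ : (C2.sq n).G.V → ℝ, (C2.sq n).vx (C2.sq n).unif φ + (C2.sq n).fl 0 φ =
        (C2.sq n).vx (C2.sq n).faceS φ + (C2.sq n).fl (fun e => (0 : Bond → ℝ) e + (-(C2.gd (fourPot n) e))) φ := by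
      intro φ
      rw [tp_parts, tp_parts]
      show ∑ x : (C2.sq n).G.V, (C2.sq n).unif x.1 * φ x + ∑ x : (C2.sq n).G.V, (C2.sq n).dv 0 x.1 * φ x =
        ∑ x : (C2.sq n).G.V, (C2.sq n).faceS x.1 * φ x +
          ∑ x : (C2.sq n).G.V, (C2.sq n).dv (fun e => (0 : Bond → ℝ) e + (-(C2.gd (fourPot n) e))) x.1 * φ x
      rw [← Finset.sum_add_distrib, ← Finset.sum_add_distrib]
      refine Finset.sum_congr rfl fun x _ => ?_
      have h1 : (C2.sq n).dv 0 x.1 = 0 := by simp [C2.Rc.dv]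
      have h2 : (C2.sq n).dv (fun e => (0 : Bond → ℝ) e + (-(C2.gd (fourPot n) e))) x.1 = -((C2.sq n).lap (fourPot n) x.1) := by
        unfold C2.Rc.dv C2.Rc.lap
        simp [neg_mul, Finset.sum_neg_distrib]
      have h3 := fourPot_lap n hn x.1 x.2
      rw [h1, h2, h3]
      ring
    unfold C2.Rc.chr
    simp only [hfun]
  have ht := C2.chr_transfer (C2.sq n) hp hq b hb (C2.sq n).faceS 0 (fun e => -(C2.gd (fourPot n) e))
  have hcost : (C2.sq n).cost (fun e => -(C2.gd (fourPot n) e)) ≤ 1 := by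
    have := fourPot_dir n hn
    unfold C2.Rc.dir at this
    unfold C2.Rc.cost at this ⊢
    simpa using this
  rw [key]
  refine ht.trans (add_le_add le_rfl (Real.sqrt_le_sqrt ?_))
  have h0 : 0 ≤ 2 * Real.pi ^ 2 * b := by positivity
  calc 2 * Real.pi ^ 2 * b * (C2.sq n).cost (fun e => -(C2.gd (fourPot n) e)) ≤ 2 * Real.pi ^ 2 * b * 1 :=
        mul_le_mul_of_nonneg_left hcost h0
    _ = _ := mul_one _

/-- L-TOR-P4 (Mathlib only).  Given `δ`, take `r ≥ r₀` with `|K|/r < δ/2`, `J` from `h r`, `B = max_{J ≤ j < J + r} u j`: `u j ≤ B + |K| (j - J)/r` for `j ≥ J` (strong induction in steps of `r`). -/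
theorem subadd_limit (u : ℕ → ℝ) (h0 : ∀ j, 0 ≤ u j) (K : ℝ) (r₀ : ℕ) (h : ∀ r, r₀ ≤ r → ∀ᶠ j in atTop, u (j + r) ≤ u j + K) :
    Tendsto (fun j : ℕ => u j / (j : ℝ)) atTop (𝓝 0) := by
  rw [Metric.tendsto_atTop]
  intro δ hδ
  obtain ⟨r₁, hr₁⟩ := exists_nat_gt (2 * |K| / δ)
  set r := max (max r₀ r₁) 1 with hr
  have hr0 : r₀ ≤ r := (le_max_left _ _).trans (le_max_left _ _)
  have hr1 : r₁ ≤ r := (le_max_right _ _).trans (le_max_left _ _)
  have hrpos : 1 ≤ r := le_max_right _ _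
  obtain ⟨J, hJ⟩ := eventually_atTop.1 (h r hr0)
  set B : ℝ := ∑ i ∈ Finset.range r, u (J + i) with hB
  have hB0 : 0 ≤ B := Finset.sum_nonneg fun i _ => h0 _
  have key : ∀ q i : ℕ, i < r → u (J + i + q * r) ≤ B + |K| * q := by
    intro q
    induction q with
    | zero =>
      intro i hi
      simp only [zero_mul, add_zero, Nat.cast_zero, mul_zero]
      exact Finset.single_le_sum (f := fun i => u (J + i)) (fun i _ => h0 _) (Finset.mem_range.2 hi)
    | succ q ih =>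
      intro i hi
      have h1 := hJ (J + i + q * r) (by rw [add_assoc]; exact Nat.le_add_right _ _)
      have h2 : J + i + (q + 1) * r = J + i + q * r + r := by ring
      rw [h2]
      push_cast
      linarith [ih i hi, le_abs_self K]
  obtain ⟨N₁, hN₁⟩ := exists_nat_gt (2 * B / δ)
  refine ⟨max (J + 1) (N₁ + 1), fun j hj => ?_⟩
  have hjJ : J + 1 ≤ j := (le_max_left _ _).trans hj
  have hjN : N₁ + 1 ≤ j := (le_max_right _ _).trans hj
  have hj0 : (0 : ℝ) < j := by exact_mod_cast (by omega : 0 < j)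
  have hrR : (0 : ℝ) < r := by exact_mod_cast hrpos
  have e : J + (j - J) % r + (j - J) / r * r = j := by
    have := Nat.mod_add_div (j - J) r
    rw [mul_comm] at this
    omega
  have h3 := key ((j - J) / r) ((j - J) % r) (Nat.mod_lt _ hrpos)
  rw [e] at h3
  have h4 : (((j - J) / r : ℕ) : ℝ) * r ≤ j := by
    have : (j - J) / r * r ≤ j := by omega
    exact_mod_cast this
  have h5 : 2 * |K| < δ * r := by
    have : (r₁ : ℝ) ≤ r := by exact_mod_cast hr1
    rw [div_lt_iff₀ hδ] at hr₁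
    nlinarith
  have h6 : 2 * B < δ * j := by
    have : (N₁ : ℝ) ≤ j := by exact_mod_cast (by omega : N₁ ≤ j)
    rw [div_lt_iff₀ hδ] at hN₁
    nlinarith
  rw [Real.dist_eq, sub_zero, abs_of_nonneg (div_nonneg (h0 j) hj0.le), div_lt_iff₀ hj0]
  have h7 : |K| * (((j - J) / r : ℕ) : ℝ) * r ≤ |K| * j := by
    rw [mul_assoc]
    exact mul_le_mul_of_nonneg_left h4 (abs_nonneg K)
  have h8 : 2 * (|K| * (((j - J) / r : ℕ) : ℝ)) * r ≤ δ * j * r := by
    have : 2 * |K| * j ≤ δ * r * j := mul_le_mul_of_nonneg_right h5.le hj0.le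
    nlinarith
  have h9 : 2 * (|K| * (((j - J) / r : ℕ) : ℝ)) ≤ δ * j := le_of_mul_le_mul_right h8 hrR
  linarith

/-- GLUE.  Step 3. -/
theorem zface_subexp (L D0 : ℕ) (hL : 2 ≤ L) (hD : 1 ≤ D0) :
    Tendsto (fun j : ℕ => -Real.log (C2.zface xyCritical (D0 * L ^ j)) / (j : ℝ)) atTop (𝓝 0) := by
  have hb := xy_critical_pos
  obtain ⟨c, G₀, hc, hG⟩ := C2.face_ratio xyCritical
  have hpos : ∀ j, 1 ≤ D0 * L ^ j := fun j => Nat.one_le_iff_ne_zero.2 (by positivity)
  have hn : Tendsto (fun j : ℕ => D0 * L ^ j) atTop atTop := by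
    refine tendsto_atTop_mono (fun j => ?_) (tendsto_pow_atTop_atTop_of_one_lt (by omega : 1 < L))
    exact Nat.le_mul_of_pos_left _ (by omega)
  have hS := C2.scaleCoef_fixed xyCritical hb _ hn
  rw [aLim_critical] at hS
  refine subadd_limit (fun j => -Real.log (C2.zface xyCritical (D0 * L ^ j))) (fun j => ?_) (-Real.log c) G₀ (fun r hr => ?_)
  · have h1 := C2.zface_pos xyCritical hb _ (hpos j)
    have h2 := C2.zface_le_one xyCritical hb (D0 * L ^ j)
    have := Real.log_nonpos h1.le h2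
    linarith
  · have hGr : G₀ ≤ L ^ r := by
      calc G₀ ≤ r := hr
        _ ≤ 2 ^ r := Nat.lt_two_pow_self.le
        _ ≤ L ^ r := Nat.pow_le_pow_left hL r
    have h := hG (L ^ r) hGr (fun _ => xyCritical) (fun j => D0 * L ^ j) (8 * Real.pi) hS (fun _ => le_rfl) (by positivity)
    filter_upwards [h] with j hj
    have e1 : (2 : ℝ) - 8 * Real.pi / (4 * Real.pi) = 0 := by
      have := Real.pi_pos.ne'
      field_simp
      ring
    rw [e1, Real.rpow_zero, mul_one] at hj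
    have e2 : L ^ r * (D0 * L ^ j) = D0 * L ^ (j + r) := by
      rw [pow_add]; ring
    rw [e2] at hj
    have h1 := C2.zface_pos xyCritical hb _ (hpos j)
    have h3 := Real.log_le_log (mul_pos hc h1) hj
    rw [Real.log_mul hc.ne' h1.ne'] at h3
    linarith

/-- GLUE.  **[F](trj:phase-lower) = `Flow.tor_phase_lower`** (verbatim). -/
theorem tor_phase_lower' (L D0 : ℕ) (hL : 2 ≤ L) (hD : 1 ≤ D0) :
    Tendsto (fun j : ℕ => -Real.log (torPhase xyCritical (D0 * L ^ j)) / (j : ℝ)) atTop (𝓝 0) := by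
  have hb := xy_critical_pos
  have hpos : ∀ j, 1 ≤ D0 * L ^ j := fun j => Nat.one_le_iff_ne_zero.2 (by positivity)
  have hz := zface_subexp L D0 hL hD
  set u : ℕ → ℝ := fun j => -Real.log (C2.zface xyCritical (D0 * L ^ j)) with hu
  set C : ℝ := Real.sqrt (2 * Real.pi ^ 2 * xyCritical) with hC
  have hu0 : ∀ j, 0 ≤ u j := by
    intro j
    have h1 := C2.zface_pos xyCritical hb _ (hpos j)
    have h2 := C2.zface_le_one xyCritical hb (D0 * L ^ j)
    have := Real.log_nonpos h1.le h2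
    simp only [hu]
    linarith
  -- upper bound
  have hup : ∀ j, -Real.log (torPhase xyCritical (D0 * L ^ j)) ≤ (Real.sqrt (u j) + C) ^ 2 := by
    intro j
    have h1 := torPhase_ge xyCritical hb _ (hpos j)
    have h2 := C2.chr_pos (C2.sq (D0 * L ^ j)) (hpos j) (hpos j) xyCritical hb (C2.sq (D0 * L ^ j)).unif 0
    have h3 := chr_unif_face xyCritical hb _ (hpos j)
    have h4 := Real.log_le_log h2 h1
    have h5 : -Real.log ((C2.sq (D0 * L ^ j)).chr xyCritical (C2.sq (D0 * L ^ j)).unif 0)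
        ≤ Real.sqrt (-Real.log ((C2.sq (D0 * L ^ j)).chr xyCritical (C2.sq (D0 * L ^ j)).unif 0)) ^ 2 := by
      rcases le_total 0 (-Real.log ((C2.sq (D0 * L ^ j)).chr xyCritical (C2.sq (D0 * L ^ j)).unif 0)) with h | h
      · rw [Real.sq_sqrt h]
      · exact h.trans (sq_nonneg _)
    have h6 := pow_le_pow_left₀ (Real.sqrt_nonneg _) h3 2
    linarith
  have hlow : ∀ j, 0 ≤ -Real.log (torPhase xyCritical (D0 * L ^ j)) := by
    intro j
    have : NeZero (D0 * L ^ j) := ⟨by have := hpos j; omega⟩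
    have hok := C5.torLaw_ok (D0 * L ^ j) xyCritical hb
    have h1 : 0 < torPhase xyCritical (D0 * L ^ j) := by
      rw [torPhase_eq]
      exact lt_of_lt_of_le (Real.exp_pos _) (lsys_phi_lower _ hok _)
    have h2 : torPhase xyCritical (D0 * L ^ j) ≤ 1 := by
      rw [torPhase_eq]
      exact lsys_phi_le_one _ hok _
    have := Real.log_nonpos h1.le h2
    linarith
  -- (sqrt u + C)^2 / j -> 0
  have hs : Tendsto (fun j : ℕ => (Real.sqrt (u j / j) + C / Real.sqrt j) ^ 2) atTop (𝓝 ((Real.sqrt 0 + 0) ^ 2)) := by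
    refine (hz.sqrt.add ?_).pow 2
    refine Tendsto.div_atTop tendsto_const_nhds ?_
    exact Real.tendsto_sqrt_atTop.comp tendsto_natCast_atTop_atTop
  rw [Real.sqrt_zero, add_zero, zero_pow (by norm_num)] at hs
  refine tendsto_of_tendsto_of_tendsto_of_le_of_le' tendsto_const_nhds hs ?_ ?_
  · exact Eventually.of_forall fun j => div_nonneg (hlow j) (Nat.cast_nonneg _)
  · filter_upwards [eventually_gt_atTop 0] with j hj
    have hj0 : (0 : ℝ) < j := by exact_mod_cast hj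
    have e : (Real.sqrt (u j / j) + C / Real.sqrt j) ^ 2 = (Real.sqrt (u j) + C) ^ 2 / j := by
      rw [Real.sqrt_div (hu0 j), ← add_div, div_pow, Real.sq_sqrt hj0.le]
    rw [e]
    exact div_le_div_of_nonneg_right (hup j) hj0.le

end

end Claimed.Agent.R285.L54
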