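import Claimed.Agent.R285.F5.TorMix
import Claimed.Agent.R285.F5.TorPhase
import Claimed.Agent.R285.Base.Flow

/-!
# ROW 285, post BP-F5-L54, file 5: THE EXITS at the critical temperature      (architect helper57)

`Flow.tor_phase_pos`, `Flow.tor_crit_var`, `Flow.tor_crit_mix`, `Flow.tor_phase_lower` (formerly sorried in `Base/Flow.lean`; moved here by the captain's decision of 16:50Z, names and statements verbatim) are at the END of this file.
They use `aLim_critical` (`TopC.lean`), and `Base/Flow.lean` lies below `TopC`.  Consumers import THIS file.  No open leaf in this file.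
-/

set_option autoImplicit false

namespace Claimed.Agent.R285.L54

open Filter Topology Claims.C0459
open scoped Classical

noncomputable section

/-- every sequence of scales carries `8π` at the critical temperature -/
theorem scale_critical (n : ℕ → ℕ) (hn : Tendsto n atTop atTop) : C2.ScaleCoef (fun _ => xyCritical) n (8 * Real.pi) := by
  have h := C2.scaleCoef_fixed xyCritical xy_critical_pos n hn
  rwa [aLim_critical] at h

/-- **= `Flow.tor_crit_var`** -/
theorem tor_crit_var' : Tendsto (fun n => torVar xyCritical n) atTop (𝓝 (1 / Real.pi)) := by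
  have h := torus_limit' (scale_critical id tendsto_id)
  have e : 8 * Real.pi * (1 / (8 * Real.pi ^ 2)) = 1 / Real.pi := by
    have := Real.pi_pos.ne'
    field_simp
  rw [e] at h
  exact h

/-- **= `Flow.tor_crit_mix`** -/
theorem tor_crit_mix' (w : ℝ) : Tendsto (fun m : ℕ => mixDiag xyCritical (2 * m) w) atTop (𝓝 0) := by
  have hn : Tendsto (fun k : ℕ => 2 * id k) atTop atTop :=
    tendsto_atTop_mono (fun m => by simp only [id]; omega) tendsto_id
  have h := tor_mix (m := id) (scale_critical _ hn) w
  refine h.congr' ?_
  filter_upwards [eventually_ge_atTop 1] with m hm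
  rw [mixDiag_eq _ _ (by omega)]
  have e : 8 * Real.pi * (1 / (8 * Real.pi ^ 2)) * w ^ 2 / 2 = w ^ 2 / (2 * Real.pi) := by
    have := Real.pi_pos.ne'
    field_simp
  rw [e]
  rfl

/-- **= `Flow.tor_phase_pos`** -/
theorem tor_phase_pos' (n : ℕ) (hn : 1 ≤ n) (b : ℝ) (hb : 0 < b) : 0 < torPhase b n := (torPhase_mem b hb n hn).1

end

end Claimed.Agent.R285.L54

/-! ## The four physical inputs of the flow interface (names and statements of the former `Base/Flow.lean`) -/

namespace Claimed.Agent.R285.Flow

open Filter Topology Claims.C0459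
open scoped Classical

/-- positive characteristic coefficients ([C] L2.2 (iii)) -/
theorem tor_phase_pos (n : ℕ) (hn : 1 ≤ n) (b : ℝ) (hb : 0 < b) : 0 < torPhase b n := L54.tor_phase_pos' n hn b hb

/-- [F] L5.4: the critical torus has the Gaussian first-cosine variance `a 𝔤 = 1/π` -/
theorem tor_crit_var : Tendsto (fun n => torVar xyCritical n) atTop (𝓝 (1 / Real.pi)) := L54.tor_crit_var'

/-- **[F] L5.4, second assertion** (factorisation of the mean phase), even tori, one real source -/
theorem tor_crit_mix (w : ℝ) : Tendsto (fun m : ℕ => torMix xyCritical (2 * m) w) atTop (𝓝 0) := L54.tor_crit_mix' w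

/-- **[F] (trj:phase-lower)**: [C] (2.15) at `a = 8π`, (2.2), L2.2 (iii) -/
theorem tor_phase_lower (L D0 : ℕ) (hL : 2 ≤ L) (hD : 1 ≤ D0) :
    Tendsto (fun j : ℕ => -Real.log (torPhase xyCritical (D0 * L ^ j)) / (j : ℝ)) atTop (𝓝 0) := L54.tor_phase_lower' L D0 hL hD

end Claimed.Agent.R285.Flow
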