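import Claimed.Agent.R285.Base.Flow
import Claimed.Agent.R285.Flow.CauchyGen
import Claimed.Agent.R285.Flow.Schwarz

/-!
# ROW 285, [F] L5.2: the SLICE toolkit (iterated Schwarz lemmas).  Paper-free.  ALL PROVED.      (helper94)

Engine: Mathlib's Schwarz lemma of order `n` for maps between normed spaces.  No derivative of a map of several variables occurs.
* `sl_schwarz`  : `f 0 = 0`, `‖f‖ ≤ M` on `ball 0 R`                     ⟹ `‖f z‖ ≤ M (‖z‖ / R)`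
* `sl_even`     : moreover `f` even                                        ⟹ `‖f z‖ ≤ M (‖z‖ / R)²`
* `sl_bi11`     : `K 0 b = 0`, `K a 0 = 0`                                 ⟹ `‖K a b‖ ≤ M (‖a‖ / R1) (‖b‖ / R2)`
* `sl_bi12`     : moreover `K a (-b) = K a b`                              ⟹ `‖K a b‖ ≤ M (‖a‖ / R1) (‖b‖ / R2)²`
* `sl_odd3`     : `f : ℂ → F` odd and `O(|z|²)`                            ⟹ `‖f z‖ ≤ 16 M (‖z‖ / R)³`
* `sl_d1, sl_d2, sl_d11, sl_d12` : the same for first and mixed second DIFFERENCES `f (φ a b) - f (φ a 0) - f (φ 0 b) + f (φ 0 0)` of a bounded holomorphic `f` along a holomorphic parametrisation `φ`.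
-/

set_option autoImplicit false
set_option linter.unusedSectionVars false

namespace Claimed.Agent.R285.F5

open Filter Topology Metric Set

section

variable {E E1 E2 F : Type*} [NormedAddCommGroup E] [NormedSpace ℂ E] [NormedAddCommGroup E1] [NormedSpace ℂ E1]
  [NormedAddCommGroup E2] [NormedSpace ℂ E2] [NormedAddCommGroup F] [NormedSpace ℂ F]

theorem sl_schwarz {f : E → F} {R M : ℝ} (hd : DifferentiableOn ℂ f (ball 0 R))
    (hM : ∀ z ∈ ball (0 : E) R, ‖f z‖ ≤ M) (h0 : f 0 = 0) {z : E} (hz : z ∈ ball (0 : E) R) :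
    ‖f z‖ ≤ M * (‖z‖ / R) := by
  have hmaps : MapsTo f (ball 0 R) (closedBall (f 0) M) := by
    intro w hw
    rw [h0, mem_closedBall_zero_iff]
    exact hM w hw
  have h := Complex.dist_le_div_mul_dist_of_mapsTo_ball hd hmaps hz
  rw [h0, dist_zero_right, dist_zero_right] at h
  calc ‖f z‖ ≤ M / R * ‖z‖ := h
    _ = M * (‖z‖ / R) := by ring

theorem sl_fderiv_even {f : E → F} {R : ℝ} (hR : 0 < R) (hd : DifferentiableOn ℂ f (ball 0 R))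
    (hev : ∀ z ∈ ball (0 : E) R, f (-z) = f z) : HasFDerivAt f (0 : E →L[ℂ] F) 0 := by
  have hnh : ball (0 : E) R ∈ 𝓝 (0 : E) := ball_mem_nhds 0 hR
  have h1 : HasFDerivAt f (fderiv ℂ f 0) 0 := (hd.differentiableAt hnh).hasFDerivAt
  have hneg : HasFDerivAt (fun z : E => -z) (-(ContinuousLinearMap.id ℂ E)) 0 := (hasFDerivAt_id (0 : E)).neg
  have h1' : HasFDerivAt f (fderiv ℂ f 0) (-(0 : E)) := by rw [neg_zero]; exact h1
  have h2 : HasFDerivAt (fun z : E => f (-z)) ((fderiv ℂ f 0).comp (-(ContinuousLinearMap.id ℂ E))) 0 :=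
    h1'.comp (0 : E) hneg
  have h3 : HasFDerivAt f ((fderiv ℂ f 0).comp (-(ContinuousLinearMap.id ℂ E))) 0 := by
    refine h2.congr_of_eventuallyEq ?_
    filter_upwards [hnh] with z hz
    exact (hev z hz).symm
  have h4 := h1.unique h3
  have h5 : fderiv ℂ f 0 = 0 := by
    ext v
    have h6 : fderiv ℂ f 0 v = (fderiv ℂ f 0).comp (-(ContinuousLinearMap.id ℂ E)) v := by rw [← h4]
    simp only [ContinuousLinearMap.comp_apply, neg_apply, ContinuousLinearMap.id_apply, map_neg] at h6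
    have h7 : (2 : ℂ) • fderiv ℂ f 0 v = 0 := by
      rw [two_smul]
      nth_rewrite 1 [h6]
      simp
    simpa using h7
  rw [h5] at h1
  exact h1

theorem sl_even {f : E → F} {R M : ℝ} (hd : DifferentiableOn ℂ f (ball 0 R))
    (hM : ∀ z ∈ ball (0 : E) R, ‖f z‖ ≤ M) (h0 : f 0 = 0) (hev : ∀ z ∈ ball (0 : E) R, f (-z) = f z)
    {z : E} (hz : z ∈ ball (0 : E) R) : ‖f z‖ ≤ M * (‖z‖ / R) ^ 2 := by
  have hR : 0 < R := nonempty_ball.mp ⟨_, hz⟩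
  have hmaps : MapsTo f (ball 0 R) (closedBall (f 0) M) := by
    intro w hw
    rw [h0, mem_closedBall_zero_iff]
    exact hM w hw
  have hfd := sl_fderiv_even hR hd hev
  have hlo : (f · - f 0) =o[𝓝 (0 : E)] (fun w => ‖w - 0‖ ^ 1) := by
    have h1 := hfd.isLittleO
    simp only [zero_apply, sub_zero] at h1
    simp only [pow_one, sub_zero]
    exact h1.norm_right
  have h := Complex.dist_le_mul_div_pow_of_mapsTo_ball_of_isLittleO (n := 1) hd hmaps hlo hz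
  rw [h0, dist_zero_right, dist_zero_right] at h
  exact h

theorem sl_bi11 {K : E1 → E2 → F} {R1 R2 M : ℝ}
    (h1 : ∀ b ∈ ball (0 : E2) R2, DifferentiableOn ℂ (fun a => K a b) (ball 0 R1))
    (h2 : ∀ a ∈ ball (0 : E1) R1, DifferentiableOn ℂ (fun b => K a b) (ball 0 R2))
    (hM : ∀ a ∈ ball (0 : E1) R1, ∀ b ∈ ball (0 : E2) R2, ‖K a b‖ ≤ M)
    (h01 : ∀ b ∈ ball (0 : E2) R2, K 0 b = 0) (h02 : ∀ a ∈ ball (0 : E1) R1, K a 0 = 0)
    {a : E1} {b : E2} (ha : a ∈ ball (0 : E1) R1) (hb : b ∈ ball (0 : E2) R2) :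
    ‖K a b‖ ≤ M * (‖a‖ / R1) * (‖b‖ / R2) := by
  have hstep : ∀ a' ∈ ball (0 : E1) R1, ‖K a' b‖ ≤ M * (‖b‖ / R2) := fun a' ha' =>
    sl_schwarz (h2 a' ha') (hM a' ha') (h02 a' ha') hb
  have := sl_schwarz (h1 b hb) hstep (h01 b hb) ha
  calc ‖K a b‖ ≤ M * (‖b‖ / R2) * (‖a‖ / R1) := this
    _ = _ := by ring

theorem sl_bi12 {K : E1 → E2 → F} {R1 R2 M : ℝ}
    (h1 : ∀ b ∈ ball (0 : E2) R2, DifferentiableOn ℂ (fun a => K a b) (ball 0 R1))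
    (h2 : ∀ a ∈ ball (0 : E1) R1, DifferentiableOn ℂ (fun b => K a b) (ball 0 R2))
    (hM : ∀ a ∈ ball (0 : E1) R1, ∀ b ∈ ball (0 : E2) R2, ‖K a b‖ ≤ M)
    (h01 : ∀ b ∈ ball (0 : E2) R2, K 0 b = 0) (h02 : ∀ a ∈ ball (0 : E1) R1, K a 0 = 0)
    (hev : ∀ a ∈ ball (0 : E1) R1, ∀ b ∈ ball (0 : E2) R2, K a (-b) = K a b)
    {a : E1} {b : E2} (ha : a ∈ ball (0 : E1) R1) (hb : b ∈ ball (0 : E2) R2) :
    ‖K a b‖ ≤ M * (‖a‖ / R1) * (‖b‖ / R2) ^ 2 := by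
  have hstep : ∀ a' ∈ ball (0 : E1) R1, ‖K a' b‖ ≤ M * (‖b‖ / R2) ^ 2 := fun a' ha' =>
    sl_even (h2 a' ha') (hM a' ha') (h02 a' ha') (hev a' ha') hb
  have := sl_schwarz (h1 b hb) hstep (h01 b hb) ha
  calc ‖K a b‖ ≤ M * (‖b‖ / R2) ^ 2 * (‖a‖ / R1) := this
    _ = _ := by ring

theorem sl_deriv_zero {f : ℂ → F} {R K : ℝ} (hR : 0 < R) (hd : DifferentiableOn ℂ f (ball 0 R))
    (hq : ∀ z ∈ ball (0 : ℂ) R, ‖f z‖ ≤ K * ‖z‖ ^ 2) : deriv f 0 = 0 := by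
  have hK : 0 ≤ K := by
    have h := hq ((R / 2 : ℝ) : ℂ) (by
      rw [mem_ball_zero_iff, Complex.norm_real, Real.norm_eq_abs, abs_of_pos (by positivity)]
      linarith)
    have h1 : 0 ≤ K * ‖((R / 2 : ℝ) : ℂ)‖ ^ 2 := le_trans (norm_nonneg _) h
    have h2 : 0 < ‖((R / 2 : ℝ) : ℂ)‖ ^ 2 := by
      rw [Complex.norm_real, Real.norm_eq_abs, abs_of_pos (by positivity)]
      positivity
    by_contra hneg
    rw [not_le] at hneg
    have := mul_neg_of_neg_of_pos hneg h2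
    linarith
  have key : ∀ r : ℝ, 0 < r → r ≤ R → ‖deriv f 0‖ ≤ K * r := by
    intro r hr hrR
    have h := Flow.cau_par_deriv (g := f) (c := 0) (R := r) (M := K * r ^ 2) hr (hd.mono (ball_subset_ball hrR))
      (fun b hb => by
        refine (hq b (ball_subset_ball hrR hb)).trans ?_
        have hb' : ‖b‖ ≤ r := (mem_ball_zero_iff.1 hb).le
        gcongr)
    calc ‖deriv f 0‖ ≤ K * r ^ 2 / r := h
      _ = K * r := by field_simp
  have hle : ‖deriv f 0‖ ≤ 0 := by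
    by_contra hpos
    rw [not_le] at hpos
    set d := ‖deriv f 0‖ with hdd
    have hr : 0 < min R (d / (2 * (K + 1))) := lt_min hR (by positivity)
    have h := key _ hr (min_le_left _ _)
    have h2 : K * min R (d / (2 * (K + 1))) ≤ K * (d / (2 * (K + 1))) := mul_le_mul_of_nonneg_left (min_le_right _ _) hK
    have h3 : K * (d / (2 * (K + 1))) ≤ d / 2 := by
      rw [mul_div_assoc']
      rw [div_le_div_iff₀ (by positivity) (by norm_num)]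
      nlinarith
    linarith
  exact norm_le_zero_iff.1 hle

theorem sl_odd3 [CompleteSpace F] {f : ℂ → F} {R M K : ℝ} (hR : 0 < R) (hd : DifferentiableOn ℂ f (ball 0 R))
    (hM : ∀ z ∈ ball (0 : ℂ) R, ‖f z‖ ≤ M) (hodd : ∀ z ∈ ball (0 : ℂ) R, f (-z) = -f z)
    (hq : ∀ z ∈ ball (0 : ℂ) R, ‖f z‖ ≤ K * ‖z‖ ^ 2) {z : ℂ} (hz : z ∈ ball (0 : ℂ) R) :
    ‖f z‖ ≤ 16 * M * (‖z‖ / R) ^ 3 := by
  have hz' : -z ∈ ball (0 : ℂ) R := by simpa using hz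
  have h1 := B10.sw_taylor3 hR hd hM z hz
  have h2 := B10.sw_taylor3 hR hd hM (-z) hz'
  rw [sl_deriv_zero hR hd hq] at h1 h2
  rw [hodd z hz, norm_neg] at h2
  simp only [smul_zero, sub_zero, neg_sq] at h1 h2
  set a := f 0 with ha
  set c := (z ^ 2 / 2) • iteratedDeriv 2 f 0 with hc
  have e : (2 : ℂ) • f z = (f z - a - c) - (-f z - a - c) := by
    rw [two_smul]; abel
  have h3 : ‖(2 : ℂ) • f z‖ ≤ 16 * M * (‖z‖ / R) ^ 3 + 16 * M * (‖z‖ / R) ^ 3 := by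
    rw [e]
    exact (norm_sub_le _ _).trans (add_le_add h1 h2)
  rw [norm_smul] at h3
  have : ‖(2 : ℂ)‖ = 2 := by simp
  rw [this] at h3
  linarith

/-! ### difference forms: `f` holomorphic and bounded on a ball, `φ` a holomorphic (affine) parametrisation -/

section diff

variable {X : Type*} [NormedAddCommGroup X] [NormedSpace ℂ X]

theorem sl_d1 {f : X → F} {ρ M R : ℝ} (hd : DifferentiableOn ℂ f (ball 0 ρ)) (hM : ∀ Y ∈ ball (0 : X) ρ, ‖f Y‖ ≤ M)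
    {φ : E → X} (hφ : Differentiable ℂ φ) (hmap : ∀ b ∈ ball (0 : E) R, φ b ∈ ball (0 : X) ρ)
    {b : E} (hb : ‖b‖ < R) : ‖f (φ b) - f (φ 0)‖ ≤ 2 * M * (‖b‖ / R) := by
  have hR : 0 < R := lt_of_le_of_lt (norm_nonneg _) hb
  have h0 : (0 : E) ∈ ball (0 : E) R := mem_ball_self hR
  refine sl_schwarz (f := fun b => f (φ b) - f (φ 0)) ((hd.comp hφ.differentiableOn hmap).sub (differentiableOn_const _))
    ?_ (by simp) (mem_ball_zero_iff.2 hb)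
  intro z hz
  calc _ ≤ ‖f (φ z)‖ + ‖f (φ 0)‖ := norm_sub_le _ _
    _ ≤ M + M := add_le_add (hM _ (hmap z hz)) (hM _ (hmap 0 h0))
    _ = 2 * M := by ring

theorem sl_d2 {f : X → F} {ρ M R : ℝ} (hd : DifferentiableOn ℂ f (ball 0 ρ)) (hM : ∀ Y ∈ ball (0 : X) ρ, ‖f Y‖ ≤ M)
    {φ : E → X} (hφ : Differentiable ℂ φ) (hmap : ∀ b ∈ ball (0 : E) R, φ b ∈ ball (0 : X) ρ)
    (hev : ∀ b ∈ ball (0 : E) R, f (φ (-b)) = f (φ b))
    {b : E} (hb : ‖b‖ < R) : ‖f (φ b) - f (φ 0)‖ ≤ 2 * M * (‖b‖ / R) ^ 2 := by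
  have hR : 0 < R := lt_of_le_of_lt (norm_nonneg _) hb
  have h0 : (0 : E) ∈ ball (0 : E) R := mem_ball_self hR
  refine sl_even (f := fun b => f (φ b) - f (φ 0)) ((hd.comp hφ.differentiableOn hmap).sub (differentiableOn_const _))
    ?_ (by simp) ?_ (mem_ball_zero_iff.2 hb)
  · intro z hz
    calc _ ≤ ‖f (φ z)‖ + ‖f (φ 0)‖ := norm_sub_le _ _
      _ ≤ M + M := add_le_add (hM _ (hmap z hz)) (hM _ (hmap 0 h0))
      _ = 2 * M := by ring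
  · intro z hz
    rw [hev z hz]

theorem sl_bd4 {a b c d : F} {M : ℝ} (ha : ‖a‖ ≤ M) (hb : ‖b‖ ≤ M) (hc : ‖c‖ ≤ M) (hd : ‖d‖ ≤ M) :
    ‖a - b - c + d‖ ≤ 4 * M := by
  calc _ ≤ ‖a - b - c‖ + ‖d‖ := norm_add_le _ _
    _ ≤ (‖a - b‖ + ‖c‖) + ‖d‖ := by gcongr; exact norm_sub_le _ _
    _ ≤ ((‖a‖ + ‖b‖) + ‖c‖) + ‖d‖ := by gcongr; exact norm_sub_le _ _
    _ ≤ 4 * M := by linarith

theorem sl_d11 {f : X → F} {ρ M R1 R2 : ℝ} (hd : DifferentiableOn ℂ f (ball 0 ρ)) (hM : ∀ Y ∈ ball (0 : X) ρ, ‖f Y‖ ≤ M)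
    {φ : E1 → E2 → X} (hφ : Differentiable ℂ (fun p : E1 × E2 => φ p.1 p.2))
    (hmap : ∀ a ∈ ball (0 : E1) R1, ∀ b ∈ ball (0 : E2) R2, φ a b ∈ ball (0 : X) ρ)
    {a : E1} {b : E2} (ha : ‖a‖ < R1) (hb : ‖b‖ < R2) :
    ‖f (φ a b) - f (φ a 0) - f (φ 0 b) + f (φ 0 0)‖ ≤ 4 * M * (‖a‖ / R1) * (‖b‖ / R2) := by
  have hR1 : 0 < R1 := lt_of_le_of_lt (norm_nonneg _) ha
  have hR2 : 0 < R2 := lt_of_le_of_lt (norm_nonneg _) hb
  have h01 : (0 : E1) ∈ ball (0 : E1) R1 := mem_ball_self hR1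
  have h02 : (0 : E2) ∈ ball (0 : E2) R2 := mem_ball_self hR2
  have dA : ∀ b' : E2, Differentiable ℂ (fun a' : E1 => φ a' b') := fun b' =>
    hφ.comp (by fun_prop : Differentiable ℂ (fun a' : E1 => ((a', b') : E1 × E2)))
  have dB : ∀ a' : E1, Differentiable ℂ (fun b' : E2 => φ a' b') := fun a' =>
    hφ.comp (by fun_prop : Differentiable ℂ (fun b' : E2 => ((a', b') : E1 × E2)))
  refine sl_bi11 (K := fun a' b' => f (φ a' b') - f (φ a' 0) - f (φ 0 b') + f (φ 0 0)) ?_ ?_ ?_ ?_ ?_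
    (mem_ball_zero_iff.2 ha) (mem_ball_zero_iff.2 hb)
  · intro b' hb'
    exact (((hd.comp (dA b').differentiableOn (fun a' ha' => hmap a' ha' b' hb')).sub
      (hd.comp (dA 0).differentiableOn (fun a' ha' => hmap a' ha' 0 h02))).sub (differentiableOn_const _)).add
      (differentiableOn_const _)
  · intro a' ha'
    exact (((hd.comp (dB a').differentiableOn (fun b' hb' => hmap a' ha' b' hb')).sub (differentiableOn_const _)).sub
      (hd.comp (dB 0).differentiableOn (fun b' hb' => hmap 0 h01 b' hb'))).add (differentiableOn_const _)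
  · intro a' ha' b' hb'
    exact sl_bd4 (hM _ (hmap a' ha' b' hb')) (hM _ (hmap a' ha' 0 h02)) (hM _ (hmap 0 h01 b' hb')) (hM _ (hmap 0 h01 0 h02))
  · intro b' _; simp
  · intro a' _; simp

theorem sl_d12 {f : X → F} {ρ M R1 R2 : ℝ} (hd : DifferentiableOn ℂ f (ball 0 ρ)) (hM : ∀ Y ∈ ball (0 : X) ρ, ‖f Y‖ ≤ M)
    {φ : E1 → E2 → X} (hφ : Differentiable ℂ (fun p : E1 × E2 => φ p.1 p.2))
    (hmap : ∀ a ∈ ball (0 : E1) R1, ∀ b ∈ ball (0 : E2) R2, φ a b ∈ ball (0 : X) ρ)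
    (hev : ∀ a ∈ ball (0 : E1) R1, ∀ b ∈ ball (0 : E2) R2, f (φ a (-b)) = f (φ a b))
    {a : E1} {b : E2} (ha : ‖a‖ < R1) (hb : ‖b‖ < R2) :
    ‖f (φ a b) - f (φ a 0) - f (φ 0 b) + f (φ 0 0)‖ ≤ 4 * M * (‖a‖ / R1) * (‖b‖ / R2) ^ 2 := by
  have hR1 : 0 < R1 := lt_of_le_of_lt (norm_nonneg _) ha
  have hR2 : 0 < R2 := lt_of_le_of_lt (norm_nonneg _) hb
  have h01 : (0 : E1) ∈ ball (0 : E1) R1 := mem_ball_self hR1
  have h02 : (0 : E2) ∈ ball (0 : E2) R2 := mem_ball_self hR2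
  have dA : ∀ b' : E2, Differentiable ℂ (fun a' : E1 => φ a' b') := fun b' =>
    hφ.comp (by fun_prop : Differentiable ℂ (fun a' : E1 => ((a', b') : E1 × E2)))
  have dB : ∀ a' : E1, Differentiable ℂ (fun b' : E2 => φ a' b') := fun a' =>
    hφ.comp (by fun_prop : Differentiable ℂ (fun b' : E2 => ((a', b') : E1 × E2)))
  refine sl_bi12 (K := fun a' b' => f (φ a' b') - f (φ a' 0) - f (φ 0 b') + f (φ 0 0)) ?_ ?_ ?_ ?_ ?_ ?_
    (mem_ball_zero_iff.2 ha) (mem_ball_zero_iff.2 hb)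
  · intro b' hb'
    exact (((hd.comp (dA b').differentiableOn (fun a' ha' => hmap a' ha' b' hb')).sub
      (hd.comp (dA 0).differentiableOn (fun a' ha' => hmap a' ha' 0 h02))).sub (differentiableOn_const _)).add
      (differentiableOn_const _)
  · intro a' ha'
    exact (((hd.comp (dB a').differentiableOn (fun b' hb' => hmap a' ha' b' hb')).sub (differentiableOn_const _)).sub
      (hd.comp (dB 0).differentiableOn (fun b' hb' => hmap 0 h01 b' hb'))).add (differentiableOn_const _)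
  · intro a' ha' b' hb'
    exact sl_bd4 (hM _ (hmap a' ha' b' hb')) (hM _ (hmap a' ha' 0 h02)) (hM _ (hmap 0 h01 b' hb')) (hM _ (hmap 0 h01 0 h02))
  · intro b' _; simp
  · intro a' _; simp
  · intro a' ha' b' hb'
    rw [hev a' ha' b' hb', hev 0 h01 b' hb']

end diff

end

end Claimed.Agent.R285.F5

/-!
# ROW 285, [F] L5.2 (analytic parity interface) for ONE abstract step of the plane map.  ALL PROVED.     (helper94)

`PStep` = the fields of `Flow.MapOK` about `N j` at one index (`ε2 = 1 / j²`).  Output: the four rows `PStep.fine_u`, `fine_z`, `fine_e`, `fine_o`, and `fine_of_coarse : MapOK κ H → Fine C r ((1 + κ.θ) / 2) H`.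
Method: write `Q = A + B` (even + odd part), decompose the row into differences which vanish on coordinate subspaces, and apply the iterated Schwarz lemmas of `F5/Slice.lean`.
-/

set_option autoImplicit false
set_option linter.unusedSectionVars false
set_option linter.unusedVariables false

namespace Claimed.Agent.R285.F5

open Filter Topology Metric Set
open Claimed.Agent.R285.Flow

/-- an isometric linear involution -/
structure Invol {Q : Type} [NormedAddCommGroup Q] [NormedSpace ℂ Q] (σ : Q →L[ℂ] Q) : Prop where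
  inv : ∀ q, σ (σ q) = q
  iso : ∀ q, ‖σ q‖ = ‖q‖

/-- one step of the plane map -/
structure PStep (ρ θ C ε2 : ℝ) {Q Q' : Type} [NormedAddCommGroup Q] [NormedSpace ℂ Q] [NormedAddCommGroup Q'] [NormedSpace ℂ Q']
    (σ : Q →L[ℂ] Q) (σ' : Q' →L[ℂ] Q') (N : ℂ × ℂ × Q → ℂ × ℂ × Q') : Prop where
  an : DifferentiableOn ℂ N (ball 0 ρ)
  N_x : ∀ Y ∈ ball (0 : ℂ × ℂ × Q) ρ,
    ‖(N Y).1 - (Y.1 - Y.2.1 ^ 2)‖ ≤ C * (wn Y ^ 2 * ε2 + wn Y ^ 3 + (wn Y + ‖Y.2.2‖) * ‖Y.2.2‖)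
  N_y : ∀ Y ∈ ball (0 : ℂ × ℂ × Q) ρ,
    ‖(N Y).2.1 - (Y.2.1 - Y.1 * Y.2.1)‖ ≤ C * (wn Y ^ 2 * ε2 + wn Y ^ 3 + (wn Y + ‖Y.2.2‖) * ‖Y.2.2‖)
  N_q : ∀ Y ∈ ball (0 : ℂ × ℂ × Q) ρ, ‖(N Y).2.2‖ ≤ θ * ‖Y.2.2‖ + C * wn Y ^ 2
  N_g : ∀ u : ℂ, ‖u‖ < ρ → N (u, 0, 0) = (u, 0, 0)
  hσ : Invol σ
  hσ' : Invol σ'
  par : ∀ Y ∈ ball (0 : ℂ × ℂ × Q) ρ, N (parY σ Y) = parY σ' (N Y)

section invol

variable {Q : Type} [NormedAddCommGroup Q] [NormedSpace ℂ Q] {σ : Q →L[ℂ] Q}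

theorem ev_add_od (q : Q) : ev σ q + od σ q = q := by
  unfold ev od
  rw [← smul_add]
  have : q + σ q + (q - σ q) = (2 : ℂ) • q := by rw [two_smul]; abel
  rw [this, smul_smul]
  norm_num

theorem Invol.σ_ev (h : Invol σ) (q : Q) : σ (ev σ q) = ev σ q := by
  unfold ev
  rw [map_smul, map_add, h.inv, add_comm]

theorem Invol.σ_od (h : Invol σ) (q : Q) : σ (od σ q) = -od σ q := by
  unfold od
  rw [map_smul, map_sub, h.inv, ← smul_neg, neg_sub]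

theorem Invol.norm_ev (h : Invol σ) (q : Q) : ‖ev σ q‖ ≤ ‖q‖ := by
  unfold ev
  rw [norm_smul]
  have h1 : ‖q + σ q‖ ≤ ‖q‖ + ‖q‖ := (norm_add_le _ _).trans (by rw [h.iso])
  have h2 : ‖(1 / 2 : ℂ)‖ = 1 / 2 := by simp
  rw [h2]
  linarith

theorem Invol.norm_od (h : Invol σ) (q : Q) : ‖od σ q‖ ≤ ‖q‖ := by
  unfold od
  rw [norm_smul]
  have h1 : ‖q - σ q‖ ≤ ‖q‖ + ‖q‖ := (norm_sub_le _ _).trans (by rw [h.iso])
  have h2 : ‖(1 / 2 : ℂ)‖ = 1 / 2 := by simp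
  rw [h2]
  linarith

theorem Invol.ev_ev (h : Invol σ) (q : Q) : ev σ (ev σ q) = ev σ q := by
  have h1 : ev σ (ev σ q) = (1 / 2 : ℂ) • (ev σ q + σ (ev σ q)) := rfl
  rw [h1, h.σ_ev, ← two_smul ℂ, smul_smul]
  norm_num

theorem Invol.od_od (h : Invol σ) (q : Q) : od σ (od σ q) = od σ q := by
  have h1 : od σ (od σ q) = (1 / 2 : ℂ) • (od σ q - σ (od σ q)) := rfl
  rw [h1, h.σ_od, sub_neg_eq_add, ← two_smul ℂ, smul_smul]
  norm_num

theorem ev_zero : ev σ (0 : Q) = 0 := by simp [ev]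
theorem od_zero : od σ (0 : Q) = 0 := by simp [od]
theorem ev_neg (q : Q) : ev σ (-q) = -ev σ q := by
  unfold ev; rw [map_neg, ← neg_add, smul_neg]
theorem od_neg (q : Q) : od σ (-q) = -od σ q := by
  unfold od; rw [map_neg, ← smul_neg]; congr 1; abel

theorem differentiable_ev : Differentiable ℂ (fun q : Q => ev σ q) := by
  unfold ev; fun_prop
theorem differentiable_od : Differentiable ℂ (fun q : Q => od σ q) := by
  unfold od; fun_prop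

/-- the half-period action in the coordinates `(x, y, A, B)` -/
theorem Invol.parY_eo (h : Invol σ) (x y : ℂ) (a b : Q) :
    parY σ (x, y, ev σ a + od σ b) = (x, -y, ev σ a + od σ (-b)) := by
  unfold parY
  simp only [map_add, h.σ_ev, h.σ_od, od_neg]

theorem mem3 {ρ : ℝ} {x y : ℂ} {q : Q} (hx : ‖x‖ < ρ) (hy : ‖y‖ < ρ) (hq : ‖q‖ < ρ) :
    ((x, y, q) : ℂ × ℂ × Q) ∈ ball (0 : ℂ × ℂ × Q) ρ := by
  rw [mem_ball_zero_iff, Prod.norm_def, Prod.norm_def]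
  exact max_lt hx (max_lt hy hq)

theorem Invol.norm_eo (h : Invol σ) {R : ℝ} {a b : Q} (ha : ‖a‖ < R) (hb : ‖b‖ < R) : ‖ev σ a + od σ b‖ < 2 * R := by
  have := norm_add_le (ev σ a) (od σ b)
  have := h.norm_ev a
  have := h.norm_od b
  linarith

end invol

section rows

variable {Q G : Type} [NormedAddCommGroup Q] [NormedSpace ℂ Q] [NormedAddCommGroup G] [NormedSpace ℂ G] {σ : Q →L[ℂ] Q}

theorem eq_zero_of_eq_neg {a : G} (h : a = -a) : a = 0 := by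
  have h2 : (2 : ℂ) • a = 0 := by
    rw [two_smul]
    nth_rewrite 1 [h]
    simp
  simpa using h2

theorem Invol.mem4 (hσ : Invol σ) {R : ℝ} {x y : ℂ} {a b : Q} (h1 : ‖x‖ < R) (h2 : ‖y‖ < R) (h3 : ‖a‖ < R) (h4 : ‖b‖ < R) :
    ((x, y, ev σ a + od σ b) : ℂ × ℂ × Q) ∈ ball (0 : ℂ × ℂ × Q) (2 * R) := by
  have hR : 0 < R := lt_of_le_of_lt (norm_nonneg _) h1
  exact mem3 (by linarith) (by linarith) (hσ.norm_eo h3 h4)

/-- **EVEN rows.**  `f` even under the half-period action, `f (x, 0, 0) = 0`. -/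
theorem sl_even_row (hσ : Invol σ) {f : ℂ × ℂ × Q → G} {R M : ℝ}
    (hd : DifferentiableOn ℂ f (ball 0 (2 * R))) (hM : ∀ Y ∈ ball (0 : ℂ × ℂ × Q) (2 * R), ‖f Y‖ ≤ M)
    (hpar : ∀ Y ∈ ball (0 : ℂ × ℂ × Q) (2 * R), f (parY σ Y) = f Y) (hg : ∀ x : ℂ, ‖x‖ < R → f (x, 0, 0) = 0)
    {x y : ℂ} {q : Q} (hx : ‖x‖ < R) (hy : ‖y‖ < R) (hq : ‖q‖ < R) :
    ‖f (x, y, q) - f (0, y, 0) - f (0, 0, ev σ q)‖
      ≤ 4 * M / R ^ 3 * ((‖x‖ + ‖ev σ q‖) * (‖y‖ ^ 2 + R * ‖ev σ q‖) + R * ‖od σ q‖ * (‖y‖ + ‖od σ q‖)) := by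
  have hR : 0 < R := lt_of_le_of_lt (norm_nonneg _) hx
  set A := ev σ q with hA
  set B := od σ q with hB
  have hAn : ‖A‖ < R := lt_of_le_of_lt (hσ.norm_ev q) hq
  have hBn : ‖B‖ < R := lt_of_le_of_lt (hσ.norm_od q) hq
  have hM0 : 0 ≤ M := le_trans (norm_nonneg _) (hM 0 (by simp; linarith))
  have z0 : ‖(0 : ℂ)‖ < R := by simpa using hR
  have zq : ‖(0 : Q)‖ < R := by simpa using hR
  have dev := differentiable_ev (σ := σ)
  have dod := differentiable_od (σ := σ)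
  have eA : ev σ A = A := hσ.ev_ev q
  have eB : od σ B = B := hσ.od_od q
  have eq : A + B = q := ev_add_od q
  -- P1
  have P1 := sl_d11 (E1 := ℂ) (E2 := Q) hd hM (φ := fun y' b' => (x, y', ev σ A + od σ b')) (R1 := R) (R2 := R) (by fun_prop)
    (fun a ha b hb => hσ.mem4 hx (mem_ball_zero_iff.1 ha) hAn (mem_ball_zero_iff.1 hb)) hy hBn
  -- P2
  have P2 := sl_d2 (E := Q) hd hM (φ := fun b' => (x, 0, ev σ A + od σ b')) (R := R) (by fun_prop)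
    (fun b hb => hσ.mem4 hx z0 hAn (mem_ball_zero_iff.1 hb))
    (fun b hb => by
      have := hpar _ (hσ.mem4 hx z0 hAn (mem_ball_zero_iff.1 hb))
      rw [hσ.parY_eo, neg_zero] at this
      exact this) hBn
  -- P3
  have P3 := sl_d12 (E1 := ℂ × Q) (E2 := ℂ) hd hM (φ := fun p y' => (p.1, y', ev σ p.2 + od σ 0)) (R1 := R) (R2 := R) (by fun_prop)
    (fun a ha b hb => by
      have ha' := mem_ball_zero_iff.1 ha
      rw [Prod.norm_def] at ha'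
      exact hσ.mem4 (lt_of_le_of_lt (le_max_left _ _) ha') (mem_ball_zero_iff.1 hb) (lt_of_le_of_lt (le_max_right _ _) ha') zq)
    (fun a ha b hb => by
      have ha' := mem_ball_zero_iff.1 ha
      rw [Prod.norm_def] at ha'
      have := hpar _ (hσ.mem4 (lt_of_le_of_lt (le_max_left _ _) ha') (mem_ball_zero_iff.1 hb) (lt_of_le_of_lt (le_max_right _ _) ha') zq)
      rw [hσ.parY_eo, neg_zero] at this
      exact this) (a := (x, A)) (b := y) (by rw [Prod.norm_def]; exact max_lt hx hAn) hy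
  -- P5
  have P5 := sl_d11 (E1 := ℂ) (E2 := Q) hd hM (φ := fun x' a' => (x', 0, ev σ a' + od σ 0)) (R1 := R) (R2 := R) (by fun_prop)
    (fun a ha b hb => hσ.mem4 (mem_ball_zero_iff.1 ha) z0 (mem_ball_zero_iff.1 hb) zq) hx hAn
  simp only [eA, eB, od_zero, ev_zero, add_zero, eq, Prod.fst_zero, Prod.snd_zero] at P1 P2 P3 P5
  rw [hg x hx, hg 0 z0] at P5
  rw [hg 0 z0] at P3
  have hmax : ‖((x, A) : ℂ × Q)‖ ≤ ‖x‖ + ‖A‖ := by
    rw [Prod.norm_def]; exact max_le (by linarith [norm_nonneg A]) (by linarith [norm_nonneg x])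
  have e : f (x, y, q) - f (0, y, 0) - f (0, 0, A)
      = (f (x, y, q) - f (x, y, A) - f (x, 0, q) + f (x, 0, A)) + (f (x, 0, q) - f (x, 0, A))
        + (f (x, y, A) - f (x, 0, A) - f (0, y, 0) + 0) + (f (x, 0, A) - 0 - f (0, 0, A) + 0) := by abel
  rw [e]
  have hx0 := norm_nonneg x
  have hy0 := norm_nonneg y
  have hA0 := norm_nonneg A
  have hB0 := norm_nonneg B
  have P3' : ‖f (x, y, A) - f (x, 0, A) - f (0, y, 0) + 0‖ ≤ 4 * M * ((‖x‖ + ‖A‖) / R) * (‖y‖ / R) ^ 2 := by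
    refine P3.trans ?_
    gcongr
  calc _ ≤ 4 * M * (‖y‖ / R) * (‖B‖ / R) + 2 * M * (‖B‖ / R) ^ 2 + 4 * M * ((‖x‖ + ‖A‖) / R) * (‖y‖ / R) ^ 2
        + 4 * M * (‖x‖ / R) * (‖A‖ / R) := by
        refine (norm_add_le _ _).trans (add_le_add ((norm_add_le _ _).trans (add_le_add ((norm_add_le _ _).trans (add_le_add P1 P2)) P3')) P5)
    _ ≤ _ := by
        have e1 : 4 * M * (‖y‖ / R) * (‖B‖ / R) + 2 * M * (‖B‖ / R) ^ 2 + 4 * M * ((‖x‖ + ‖A‖) / R) * (‖y‖ / R) ^ 2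
            + 4 * M * (‖x‖ / R) * (‖A‖ / R)
            = 4 * M / R ^ 3 * ((‖x‖ + ‖A‖) * ‖y‖ ^ 2 + R * ‖x‖ * ‖A‖ + R * ‖B‖ * ‖y‖ + R * ‖B‖ ^ 2 / 2) := by
          field_simp
          ring
        rw [e1]
        apply mul_le_mul_of_nonneg_left _ (by positivity)
        nlinarith [mul_nonneg hR.le (mul_nonneg hA0 hA0), mul_nonneg hR.le (mul_nonneg hB0 hB0)]

/-- odd functions vanish on the even subspace -/
theorem sl_odd_zero (hσ : Invol σ) {f : ℂ × ℂ × Q → G} {R : ℝ}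
    (hpar : ∀ Y ∈ ball (0 : ℂ × ℂ × Q) (2 * R), f (parY σ Y) = -f Y) {x : ℂ} {a : Q} (hx : ‖x‖ < R) (ha : ‖a‖ < R) :
    f (x, 0, ev σ a) = 0 := by
  have hR : 0 < R := lt_of_le_of_lt (norm_nonneg _) hx
  have z0 : ‖(0 : ℂ)‖ < R := by simpa using hR
  have zq : ‖(0 : Q)‖ < R := by simpa using hR
  have := hpar _ (hσ.mem4 hx z0 ha zq)
  rw [hσ.parY_eo, neg_zero, neg_zero, od_zero, add_zero] at this
  exact eq_zero_of_eq_neg this

/-- **ODD rows**, the part without the odd remainder: `f` odd under the half-period action. -/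
theorem sl_odd_row (hσ : Invol σ) {f : ℂ × ℂ × Q → G} {R M : ℝ}
    (hd : DifferentiableOn ℂ f (ball 0 (2 * R))) (hM : ∀ Y ∈ ball (0 : ℂ × ℂ × Q) (2 * R), ‖f Y‖ ≤ M)
    (hpar : ∀ Y ∈ ball (0 : ℂ × ℂ × Q) (2 * R), f (parY σ Y) = -f Y)
    {x y : ℂ} {a : Q} (hx : ‖x‖ < R) (hy : ‖y‖ < R) (ha : ‖a‖ < R) :
    ‖f (x, y, ev σ a) - f (0, y, 0)‖ ≤ 4 * M * ((‖x‖ + ‖a‖) / R) * (‖y‖ / R) ∧
    ‖f (x, y, ev σ a) - f (x, y, 0)‖ ≤ 4 * M * (‖a‖ / R) * (‖y‖ / R) := by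
  have hR : 0 < R := lt_of_le_of_lt (norm_nonneg _) hx
  have hM0 : 0 ≤ M := le_trans (norm_nonneg _) (hM 0 (by simp; linarith))
  have z0 : ‖(0 : ℂ)‖ < R := by simpa using hR
  have zq : ‖(0 : Q)‖ < R := by simpa using hR
  have dev := differentiable_ev (σ := σ)
  have P3 := sl_d11 (E1 := ℂ × Q) (E2 := ℂ) hd hM (φ := fun p y' => (p.1, y', ev σ p.2 + od σ 0)) (R1 := R) (R2 := R) (by fun_prop)
    (fun a ha b hb => by
      have ha' := mem_ball_zero_iff.1 ha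
      rw [Prod.norm_def] at ha'
      exact hσ.mem4 (lt_of_le_of_lt (le_max_left _ _) ha') (mem_ball_zero_iff.1 hb) (lt_of_le_of_lt (le_max_right _ _) ha') zq)
    (a := (x, a)) (b := y) (by rw [Prod.norm_def]; exact max_lt hx ha) hy
  have P4 := sl_d11 (E1 := Q) (E2 := ℂ) hd hM (φ := fun a' y' => (x, y', ev σ a' + od σ 0)) (R1 := R) (R2 := R) (by fun_prop)
    (fun a ha b hb => hσ.mem4 hx (mem_ball_zero_iff.1 hb) (mem_ball_zero_iff.1 ha) zq) ha hy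
  have h1 := sl_odd_zero hσ hpar hx ha
  have h2 := sl_odd_zero hσ hpar z0 zq
  have h3 := sl_odd_zero hσ hpar hx zq
  simp only [od_zero, ev_zero, add_zero, Prod.fst_zero, Prod.snd_zero] at P3 P4 h2 h3
  rw [h1, h2, sub_zero, add_zero] at P3
  rw [h1, h3, add_zero] at P4
  have hmax : ‖((x, a) : ℂ × Q)‖ ≤ ‖x‖ + ‖a‖ := by
    rw [Prod.norm_def]; exact max_le (by linarith [norm_nonneg a]) (by linarith [norm_nonneg x])
  constructor
  · refine P3.trans ?_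
    gcongr
  · have e : f (x, y, ev σ a) - f (x, y, 0) = f (x, y, ev σ a) - 0 - f (x, y, 0) := by abel
    rw [e]; exact P4

end rows

section pstep

variable {Q Q' : Type} [NormedAddCommGroup Q] [NormedSpace ℂ Q] [NormedAddCommGroup Q'] [NormedSpace ℂ Q']
  {σ : Q →L[ℂ] Q} {σ' : Q' →L[ℂ] Q'} {N : ℂ × ℂ × Q → ℂ × ℂ × Q'} {ρ θ C ε2 : ℝ}

/-- the working radius: `2 R = min ρ 1` -/
noncomputable def fR (ρ : ℝ) : ℝ := min ρ 1 / 2

theorem fR_pos (hρ : 0 < ρ) : 0 < fR ρ := by unfold fR; positivity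
theorem fR_le (ρ : ℝ) : 2 * fR ρ ≤ ρ := by unfold fR; linarith [min_le_left ρ 1]
theorem fR_le_one (ρ : ℝ) : 2 * fR ρ ≤ 1 := by unfold fR; linarith [min_le_right ρ 1]

theorem wn_le_norm' (Y : ℂ × ℂ × Q) : wn Y ≤ ‖Y‖ := by
  unfold wn; rw [Prod.norm_def, Prod.norm_def]
  exact max_le (le_max_left _ _) ((le_max_left _ _).trans (le_max_right _ _))
theorem q_le_norm' (Y : ℂ × ℂ × Q) : ‖Y.2.2‖ ≤ ‖Y‖ := by
  rw [Prod.norm_def, Prod.norm_def]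
  exact (le_max_right _ _).trans (le_max_right _ _)
theorem wn_nonneg' (Y : ℂ × ℂ × Q) : 0 ≤ wn Y := le_max_of_le_left (norm_nonneg _)

/-- the crude bound of the error order on the unit ball -/
theorem eord_le4 (hC : 0 ≤ C) (h0 : 0 ≤ ε2) (h1 : ε2 ≤ 1) {Y : ℂ × ℂ × Q} (hY : ‖Y‖ ≤ 1) :
    C * (wn Y ^ 2 * ε2 + wn Y ^ 3 + (wn Y + ‖Y.2.2‖) * ‖Y.2.2‖) ≤ 4 * C * ‖Y‖ ^ 2 := by
  have hw := wn_le_norm' Y
  have hq := q_le_norm' Y
  have hw0 := wn_nonneg' Y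
  have hq0 := norm_nonneg Y.2.2
  have hn0 := norm_nonneg Y
  have a1 : wn Y ^ 2 * ε2 ≤ ‖Y‖ ^ 2 := by
    calc wn Y ^ 2 * ε2 ≤ wn Y ^ 2 * 1 := by gcongr
      _ ≤ ‖Y‖ ^ 2 := by rw [mul_one]; gcongr
  have a2 : wn Y ^ 3 ≤ ‖Y‖ ^ 2 := by
    calc wn Y ^ 3 = wn Y ^ 2 * wn Y := by ring
      _ ≤ ‖Y‖ ^ 2 * 1 := by gcongr; exact hw.trans hY
      _ = ‖Y‖ ^ 2 := by ring
  have a3 : (wn Y + ‖Y.2.2‖) * ‖Y.2.2‖ ≤ 2 * ‖Y‖ ^ 2 := by
    calc (wn Y + ‖Y.2.2‖) * ‖Y.2.2‖ ≤ (‖Y‖ + ‖Y‖) * ‖Y‖ := by gcongr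
      _ = 2 * ‖Y‖ ^ 2 := by ring
  calc _ ≤ C * (‖Y‖ ^ 2 + ‖Y‖ ^ 2 + 2 * ‖Y‖ ^ 2) := by gcongr
    _ = _ := by ring

/-- the error of the `x`-row -/
def fX (N : ℂ × ℂ × Q → ℂ × ℂ × Q') (Y : ℂ × ℂ × Q) : ℂ := (N Y).1 - (Y.1 - Y.2.1 ^ 2)
/-- the error of the `y`-row -/
def fY (N : ℂ × ℂ × Q → ℂ × ℂ × Q') (Y : ℂ × ℂ × Q) : ℂ := (N Y).2.1 - (Y.2.1 - Y.1 * Y.2.1)

theorem PStep.fX_an (h : PStep ρ θ C ε2 σ σ' N) : DifferentiableOn ℂ (fX N) (ball 0 (2 * fR ρ)) := by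
  unfold fX
  refine ((h.an.mono (ball_subset_ball (fR_le ρ))).fst).sub ?_
  exact Differentiable.differentiableOn (by fun_prop)

theorem PStep.fY_an (h : PStep ρ θ C ε2 σ σ' N) : DifferentiableOn ℂ (fY N) (ball 0 (2 * fR ρ)) := by
  unfold fY
  refine ((h.an.mono (ball_subset_ball (fR_le ρ))).snd.fst).sub ?_
  exact Differentiable.differentiableOn (by fun_prop)

theorem PStep.fX_bd (h : PStep ρ θ C ε2 σ σ' N) (hC : 0 ≤ C) (h0 : 0 ≤ ε2) (h1 : ε2 ≤ 1) :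
    ∀ Y ∈ ball (0 : ℂ × ℂ × Q) (2 * fR ρ), ‖fX N Y‖ ≤ 4 * C * ‖Y‖ ^ 2 := by
  intro Y hY
  have hn : ‖Y‖ ≤ 1 := (mem_ball_zero_iff.1 hY).le.trans (fR_le_one ρ)
  exact (h.N_x Y (ball_subset_ball (fR_le ρ) hY)).trans (eord_le4 hC h0 h1 hn)

theorem PStep.fY_bd (h : PStep ρ θ C ε2 σ σ' N) (hC : 0 ≤ C) (h0 : 0 ≤ ε2) (h1 : ε2 ≤ 1) :
    ∀ Y ∈ ball (0 : ℂ × ℂ × Q) (2 * fR ρ), ‖fY N Y‖ ≤ 4 * C * ‖Y‖ ^ 2 := by
  intro Y hY
  have hn : ‖Y‖ ≤ 1 := (mem_ball_zero_iff.1 hY).le.trans (fR_le_one ρ)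
  exact (h.N_y Y (ball_subset_ball (fR_le ρ) hY)).trans (eord_le4 hC h0 h1 hn)

theorem sq_le_of_unit {C t : ℝ} (hC : 0 ≤ C) (h0 : 0 ≤ t) (h1 : t ≤ 1) : 4 * C * t ^ 2 ≤ 4 * C := by
  have : t ^ 2 ≤ 1 := by nlinarith
  nlinarith

theorem PStep.fX_par (h : PStep ρ θ C ε2 σ σ' N) : ∀ Y ∈ ball (0 : ℂ × ℂ × Q) (2 * fR ρ), fX N (parY σ Y) = fX N Y := by
  intro Y hY
  unfold fX
  rw [h.par Y (ball_subset_ball (fR_le ρ) hY)]
  simp [parY]

theorem PStep.fY_par (h : PStep ρ θ C ε2 σ σ' N) : ∀ Y ∈ ball (0 : ℂ × ℂ × Q) (2 * fR ρ), fY N (parY σ Y) = -fY N Y := by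
  intro Y hY
  unfold fY
  rw [h.par Y (ball_subset_ball (fR_le ρ) hY)]
  simp only [parY]
  ring

/-- **the `u`-row** -/
theorem PStep.fine_u (h : PStep ρ θ C ε2 σ σ' N) (hρ : 0 < ρ) (hC : 0 ≤ C) (h0 : 0 ≤ ε2) (h1 : ε2 ≤ 1)
    {Y : ℂ × ℂ × Q} (hY : ‖Y‖ < fR ρ) :
    ‖(N Y).1 - (Y.1 - Y.2.1 ^ 2)‖ ≤ (16 * C / fR ρ ^ 3 + 2 * C) * (‖Y.2.1‖ ^ 2 * ε2
      + (‖Y.1‖ + ‖Y.2.1‖ + ‖ev σ Y.2.2‖) * (‖Y.2.1‖ ^ 2 + ‖ev σ Y.2.2‖) + ‖od σ Y.2.2‖ * (‖Y.2.1‖ + ‖od σ Y.2.2‖)) := by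
  obtain ⟨x, y, q⟩ := Y
  simp only
  set R := fR ρ with hRdef
  have hR : 0 < R := fR_pos hρ
  have hR1 : R ≤ 1 := by have := fR_le_one ρ; linarith
  rw [Prod.norm_def, Prod.norm_def] at hY
  have hx : ‖x‖ < R := lt_of_le_of_lt (le_max_left _ _) hY
  have hy : ‖y‖ < R := lt_of_le_of_lt ((le_max_left _ _).trans (le_max_right _ _)) hY
  have hq : ‖q‖ < R := lt_of_le_of_lt ((le_max_right _ _).trans (le_max_right _ _)) hY
  have hM : ∀ Y ∈ ball (0 : ℂ × ℂ × Q) (2 * R), ‖fX N Y‖ ≤ 4 * C := fun Y hY =>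
    (h.fX_bd hC h0 h1 Y hY).trans (sq_le_of_unit hC (norm_nonneg _) ((mem_ball_zero_iff.1 hY).le.trans (fR_le_one ρ)))
  have hg : ∀ x : ℂ, ‖x‖ < R → fX N (x, 0, 0) = 0 := by
    intro x hx
    unfold fX
    rw [h.N_g x (by have := fR_le ρ; linarith)]
    simp
  have key := sl_even_row h.hσ h.fX_an hM h.fX_par hg hx hy hq
  set A := ev σ q with hA
  set B := od σ q with hB
  have hAn : ‖A‖ < R := lt_of_le_of_lt (h.hσ.norm_ev q) hq
  have z0 : ‖(0 : ℂ)‖ < R := by simpa using hR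
  have zq : ‖(0 : Q)‖ < R := by simpa using hR
  have b1 : ‖fX N (0, y, 0)‖ ≤ C * (‖y‖ ^ 2 * ε2 + ‖y‖ ^ 3) := by
    have := h.N_x (0, y, 0) (ball_subset_ball (fR_le ρ) (mem3 (by linarith) (by linarith) (by linarith)))
    simpa [wn, fX] using this
  have b2 : ‖fX N (0, 0, A)‖ ≤ C * ‖A‖ ^ 2 := by
    have := h.N_x (0, 0, A) (ball_subset_ball (fR_le ρ) (mem3 (by linarith) (by linarith) (by linarith)))
    simp only [wn, norm_zero, max_self] at this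
    have e : C * ((0 : ℝ) ^ 2 * ε2 + 0 ^ 3 + (0 + ‖A‖) * ‖A‖) = C * ‖A‖ ^ 2 := by ring
    rw [e] at this
    exact this
  have hx0 := norm_nonneg x
  have hy0 := norm_nonneg y
  have hA0 := norm_nonneg A
  have hB0 := norm_nonneg B
  set S0 := ‖y‖ ^ 2 * ε2 with hS0
  set S1 := (‖x‖ + ‖y‖ + ‖A‖) * (‖y‖ ^ 2 + ‖A‖) with hS1
  set S2 := ‖B‖ * (‖y‖ + ‖B‖) with hS2
  have hS00 : 0 ≤ S0 := by positivity
  have hS10 : 0 ≤ S1 := by positivity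
  have hS20 : 0 ≤ S2 := by positivity
  have c1 : (‖x‖ + ‖A‖) * (‖y‖ ^ 2 + R * ‖A‖) + R * ‖B‖ * (‖y‖ + ‖B‖) ≤ S1 + S2 := by
    have d1 : (‖x‖ + ‖A‖) * (‖y‖ ^ 2 + R * ‖A‖) ≤ S1 := by
      apply mul_le_mul (by linarith) _ (by positivity) (by positivity)
      nlinarith
    have d2 : R * ‖B‖ * (‖y‖ + ‖B‖) ≤ S2 := by
      rw [mul_assoc]
      calc R * (‖B‖ * (‖y‖ + ‖B‖)) ≤ 1 * (‖B‖ * (‖y‖ + ‖B‖)) := by gcongr
        _ = S2 := by rw [one_mul]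
    linarith
  have c2 : ‖y‖ ^ 3 ≤ S1 := by
    have : ‖y‖ ^ 3 = ‖y‖ * ‖y‖ ^ 2 := by ring
    rw [this]
    apply mul_le_mul (by linarith) (by linarith) (by positivity) (by positivity)
  have c3 : ‖A‖ ^ 2 ≤ S1 := by
    have : ‖A‖ ^ 2 = ‖A‖ * ‖A‖ := by ring
    rw [this]
    apply mul_le_mul (by linarith) (by nlinarith) (by positivity) (by positivity)
  have hK : 0 ≤ 4 * (4 * C) / R ^ 3 := by positivity
  have e : (N (x, y, q)).1 - (x - y ^ 2) = (fX N (x, y, q) - fX N (0, y, 0) - fX N (0, 0, A)) + fX N (0, y, 0) + fX N (0, 0, A) := by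
    simp only [fX]; ring
  rw [e]
  calc _ ≤ ‖fX N (x, y, q) - fX N (0, y, 0) - fX N (0, 0, A)‖ + ‖fX N (0, y, 0)‖ + ‖fX N (0, 0, A)‖ :=
        (norm_add_le _ _).trans (add_le_add (norm_add_le _ _) le_rfl)
    _ ≤ 4 * (4 * C) / R ^ 3 * (S1 + S2) + C * (S0 + S1) + C * S1 := by
        refine add_le_add (add_le_add (key.trans (mul_le_mul_of_nonneg_left c1 hK)) (b1.trans ?_)) (b2.trans ?_)
        · gcongr
        · gcongr
    _ ≤ (16 * C / R ^ 3 + 2 * C) * (S0 + S1 + S2) := by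
        have e2 : 4 * (4 * C) / R ^ 3 = 16 * C / R ^ 3 := by ring
        rw [e2]
        have hK' : 0 ≤ 16 * C / R ^ 3 := by positivity
        nlinarith [mul_nonneg hK' hS00, mul_nonneg hC hS20, mul_nonneg hC hS00]

theorem fz_arith1 {x y A : ℝ} (hx : 0 ≤ x) (hy : 0 ≤ y) (hA : 0 ≤ A) : (x + y) * x ≤ 2 * (x ^ 2 + y ^ 2 + A) := by
  nlinarith [sq_nonneg (x - y)]

theorem fz_arith2 {C K2 K3 T0 T1 T2 : ℝ} (hC : 0 ≤ C) (hK2 : 0 ≤ K2) (hK3 : 0 ≤ K3) (h0 : 0 ≤ T0) (h1 : 0 ≤ T1) (h2 : 0 ≤ T2) :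
    32 * C * T2 + K2 * T1 + (4 * C * T0 + 16 * C * T1) + K3 * T1 ≤ (48 * C + K2 + K3) * (T0 + T1 + T2) := by
  nlinarith [mul_nonneg hK2 h0, mul_nonneg hK2 h2, mul_nonneg hK3 h0, mul_nonneg hK3 h2, mul_nonneg hC h0,
    mul_nonneg hC h1, mul_nonneg hC h2]

set_option maxHeartbeats 1000000 in
/-- **the `z`-row** -/
theorem PStep.fine_z (h : PStep ρ θ C ε2 σ σ' N) (hρ : 0 < ρ) (hC : 0 ≤ C) (h0 : 0 ≤ ε2) (h1 : ε2 ≤ 1)
    {Y : ℂ × ℂ × Q} (hY : ‖Y‖ < fR ρ / 2) :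
    ‖(N Y).2.1 - (Y.2.1 - Y.1 * Y.2.1)‖ ≤ (48 * C + 16 * C / fR ρ ^ 2 + 64 * C / fR ρ ^ 3) * (‖Y.1‖ * ‖Y.2.1‖ * ε2
      + (‖Y.1‖ ^ 2 + ‖Y.2.1‖ ^ 2 + ‖ev σ Y.2.2‖) * ‖Y.2.1‖
      + (‖Y.1‖ + ‖Y.2.1‖ + ‖ev σ Y.2.2‖ + ‖od σ Y.2.2‖) * ‖od σ Y.2.2‖) := by
  obtain ⟨x, y, q⟩ := Y
  simp only
  set R := fR ρ with hRdef
  have hR : 0 < R := fR_pos hρ
  have hR1 : R ≤ 1 := by have := fR_le_one ρ; linarith
  rw [Prod.norm_def, Prod.norm_def] at hY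
  have hx2 : ‖x‖ < R / 2 := lt_of_le_of_lt (le_max_left _ _) hY
  have hy2 : ‖y‖ < R / 2 := lt_of_le_of_lt ((le_max_left _ _).trans (le_max_right _ _)) hY
  have hq2 : ‖q‖ < R / 2 := lt_of_le_of_lt ((le_max_right _ _).trans (le_max_right _ _)) hY
  have hx : ‖x‖ < R := by linarith
  have hy : ‖y‖ < R := by linarith
  have hq : ‖q‖ < R := by linarith
  have hM : ∀ Y ∈ ball (0 : ℂ × ℂ × Q) (2 * R), ‖fY N Y‖ ≤ 4 * C := fun Y hY =>
    (h.fY_bd hC h0 h1 Y hY).trans (sq_le_of_unit hC (norm_nonneg _) ((mem_ball_zero_iff.1 hY).le.trans (fR_le_one ρ)))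
  set A := ev σ q with hA
  set B := od σ q with hB
  have hAn2 : ‖A‖ < R / 2 := lt_of_le_of_lt (h.hσ.norm_ev q) hq2
  have hBn2 : ‖B‖ < R / 2 := lt_of_le_of_lt (h.hσ.norm_od q) hq2
  have hAn : ‖A‖ < R := by linarith
  have z0 : ‖(0 : ℂ)‖ < R := by simpa using hR
  have zq : ‖(0 : Q)‖ < R := by simpa using hR
  have eA : ev σ A = A := h.hσ.ev_ev q
  have eq : A + B = q := ev_add_od q
  have hx0 := norm_nonneg x
  have hy0 := norm_nonneg y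
  have hA0 := norm_nonneg A
  have hB0 := norm_nonneg B
  -- S1
  have S1 : ‖fY N (x, y, q) - fY N (x, y, A)‖ ≤ 32 * C * ((‖x‖ + ‖y‖ + ‖A‖ + ‖B‖) * ‖B‖) := by
    have hp : ‖((x, y, A) : ℂ × ℂ × Q)‖ < R / 2 := by
      rw [Prod.norm_def, Prod.norm_def]; exact max_lt hx2 (max_lt hy2 hAn2)
    have hp' : ‖((x, y, A) : ℂ × ℂ × Q)‖ ≤ ‖x‖ + ‖y‖ + ‖A‖ := by
      rw [Prod.norm_def, Prod.norm_def]
      exact max_le (by linarith) (max_le (by linarith) (by linarith))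
    have hv : ‖((0, 0, B) : ℂ × ℂ × Q)‖ = ‖B‖ := by
      rw [Prod.norm_def, Prod.norm_def]; simp
    have := B10.sw_diff (h := fY N) (R := 2 * R) (K0 := 4 * C) h.fY_an (h.fY_bd hC h0 h1)
      (p := (x, y, A)) (v := (0, 0, B)) (by rw [hv]; linarith)
    have e : ((x, y, A) : ℂ × ℂ × Q) + (0, 0, B) = (x, y, q) := by
      simp [eq]
    rw [e, hv] at this
    refine this.trans ?_
    have : 8 * (4 * C) * (‖((x, y, A) : ℂ × ℂ × Q)‖ + ‖B‖) * ‖B‖ = 32 * C * ((‖((x, y, A) : ℂ × ℂ × Q)‖ + ‖B‖) * ‖B‖) := by ring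
    rw [this]
    gcongr
  -- S2
  have S2 : ‖fY N (x, y, A) - fY N (x, y, 0)‖ ≤ 4 * (4 * C) * (‖A‖ / R) * (‖y‖ / R) := by
    have := (sl_odd_row h.hσ h.fY_an hM h.fY_par hx hy hAn).2
    rwa [eA] at this
  -- S4
  have S4 : ‖fY N (0, y, 0)‖ ≤ 16 * (4 * C) * (‖y‖ / R) ^ 3 := by
    refine sl_odd3 (f := fun y' : ℂ => fY N (0, y', 0)) (K := 4 * C) hR ?_ ?_ ?_ ?_ (mem_ball_zero_iff.2 hy)
    · exact h.fY_an.comp (Differentiable.differentiableOn (by fun_prop))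
        (fun e he => mem3 (by linarith) (by have := mem_ball_zero_iff.1 he; linarith) (by linarith))
    · intro z hz
      exact hM _ (mem3 (by linarith) (by have := mem_ball_zero_iff.1 hz; linarith) (by linarith))
    · intro z hz
      have := h.fY_par (0, z, 0) (mem3 (by linarith) (by have := mem_ball_zero_iff.1 hz; linarith) (by linarith))
      simpa [parY] using this
    · intro z hz
      have := h.fY_bd hC h0 h1 (0, z, 0) (mem3 (by linarith) (by have := mem_ball_zero_iff.1 hz; linarith) (by linarith))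
      have e : ‖((0, z, 0) : ℂ × ℂ × Q)‖ = ‖z‖ := by
        rw [Prod.norm_def, Prod.norm_def]; simp
      rwa [e] at this
  -- S3
  have S3 : ‖fY N (x, y, 0) - fY N (0, y, 0)‖ ≤ C * (4 * ε2 + 8 * (‖x‖ + ‖y‖)) * (‖x‖ * ‖y‖) := by
    set w := max ‖x‖ ‖y‖ with hw
    have hw0 : 0 ≤ w := le_max_of_le_left hx0
    have hzero : ∀ x' : ℂ, ‖x'‖ < R → fY N (x', 0, 0) = 0 := by
      intro x' hx'
      have := sl_odd_zero h.hσ h.fY_par hx' zq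
      rwa [ev_zero] at this
    rcases eq_or_lt_of_le hw0 with hw1 | hw1
    · have hx' : x = 0 := by
        have : ‖x‖ ≤ 0 := by rw [hw1]; exact le_max_left _ _
        exact norm_le_zero_iff.1 this
      subst hx'
      simp
    · have hwR : 2 * w < 2 * R := by
        have : w < R := max_lt hx hy
        linarith
      have hd' : DifferentiableOn ℂ (fun p : ℂ × ℂ => fY N (p.1, p.2, 0)) (ball 0 (2 * w)) := by
        refine h.fY_an.comp (Differentiable.differentiableOn (by fun_prop)) ?_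
        intro p hp
        have hp' := mem_ball_zero_iff.1 hp
        rw [Prod.norm_def] at hp'
        exact mem3 (lt_of_le_of_lt (le_max_left _ _) (hp'.trans hwR)) (lt_of_le_of_lt (le_max_right _ _) (hp'.trans hwR)) (by linarith)
      have hM' : ∀ p ∈ ball (0 : ℂ × ℂ) (2 * w), ‖fY N (p.1, p.2, 0)‖ ≤ C * (4 * w ^ 2 * ε2 + 8 * w ^ 3) := by
        intro p hp
        have hp' := mem_ball_zero_iff.1 hp
        rw [Prod.norm_def] at hp'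
        have := h.N_y (p.1, p.2, 0) (ball_subset_ball (fR_le ρ)
          (mem3 (lt_of_le_of_lt (le_max_left _ _) (hp'.trans hwR)) (lt_of_le_of_lt (le_max_right _ _) (hp'.trans hwR)) (by linarith)))
        simp only [wn, norm_zero, add_zero, mul_zero] at this
        refine this.trans ?_
        have hm0 : 0 ≤ max ‖p.1‖ ‖p.2‖ := le_max_of_le_left (norm_nonneg _)
        have a1 : max ‖p.1‖ ‖p.2‖ ^ 2 ≤ 4 * w ^ 2 := by nlinarith
        have a2 : max ‖p.1‖ ‖p.2‖ ^ 3 ≤ 8 * w ^ 3 := by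
          have : max ‖p.1‖ ‖p.2‖ ^ 3 ≤ (2 * w) ^ 3 := by gcongr
          calc _ ≤ (2 * w) ^ 3 := this
            _ = 8 * w ^ 3 := by ring
        have a3 : max ‖p.1‖ ‖p.2‖ ^ 2 * ε2 ≤ 4 * w ^ 2 * ε2 := mul_le_mul_of_nonneg_right a1 h0
        gcongr
      have key := sl_d11 (E1 := ℂ) (E2 := ℂ) (X := ℂ × ℂ) hd' hM' (φ := fun x' y' => (x', y')) (R1 := 2 * w) (R2 := 2 * w)
        (by fun_prop) (fun a ha b hb => by
          rw [mem_ball_zero_iff, Prod.norm_def]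
          exact max_lt (mem_ball_zero_iff.1 ha) (mem_ball_zero_iff.1 hb))
        (a := x) (b := y) (by have : ‖x‖ ≤ w := le_max_left _ _; linarith) (by have : ‖y‖ ≤ w := le_max_right _ _; linarith)
      simp only at key
      rw [hzero x hx, hzero 0 z0, sub_zero, add_zero] at key
      refine key.trans ?_
      have e : 4 * (C * (4 * w ^ 2 * ε2 + 8 * w ^ 3)) * (‖x‖ / (2 * w)) * (‖y‖ / (2 * w)) = C * (4 * ε2 + 8 * w) * (‖x‖ * ‖y‖) := by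
        field_simp
        ring
      rw [e]
      have : w ≤ ‖x‖ + ‖y‖ := max_le (by linarith) (by linarith)
      gcongr
  set T0 := ‖x‖ * ‖y‖ * ε2 with hT0
  set T1 := (‖x‖ ^ 2 + ‖y‖ ^ 2 + ‖A‖) * ‖y‖ with hT1
  set T2 := (‖x‖ + ‖y‖ + ‖A‖ + ‖B‖) * ‖B‖ with hT2
  have hT00 : 0 ≤ T0 := by positivity
  have hT10 : 0 ≤ T1 := by positivity
  have hT20 : 0 ≤ T2 := by positivity
  have c2 : 4 * (4 * C) * (‖A‖ / R) * (‖y‖ / R) ≤ 16 * C / R ^ 2 * T1 := by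
    have e : 4 * (4 * C) * (‖A‖ / R) * (‖y‖ / R) = 16 * C / R ^ 2 * (‖A‖ * ‖y‖) := by field_simp; ring
    rw [e]
    apply mul_le_mul_of_nonneg_left _ (by positivity)
    apply mul_le_mul_of_nonneg_right _ hy0
    nlinarith
  have c3 : C * (4 * ε2 + 8 * (‖x‖ + ‖y‖)) * (‖x‖ * ‖y‖) ≤ 4 * C * T0 + 16 * C * T1 := by
    have a : (‖x‖ + ‖y‖) * ‖x‖ ≤ 2 * (‖x‖ ^ 2 + ‖y‖ ^ 2 + ‖A‖) := fz_arith1 hx0 hy0 hA0
    have b : (‖x‖ + ‖y‖) * ‖x‖ * ‖y‖ ≤ 2 * T1 := by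
      calc _ ≤ 2 * (‖x‖ ^ 2 + ‖y‖ ^ 2 + ‖A‖) * ‖y‖ := mul_le_mul_of_nonneg_right a hy0
        _ = 2 * T1 := by ring
    have e : C * (4 * ε2 + 8 * (‖x‖ + ‖y‖)) * (‖x‖ * ‖y‖) = 4 * C * T0 + 8 * C * ((‖x‖ + ‖y‖) * ‖x‖ * ‖y‖) := by ring
    rw [e]
    have := mul_le_mul_of_nonneg_left b (by positivity : 0 ≤ 8 * C)
    linarith
  have c4 : 16 * (4 * C) * (‖y‖ / R) ^ 3 ≤ 64 * C / R ^ 3 * T1 := by
    have e : 16 * (4 * C) * (‖y‖ / R) ^ 3 = 64 * C / R ^ 3 * (‖y‖ ^ 2 * ‖y‖) := by field_simp; ring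
    rw [e]
    apply mul_le_mul_of_nonneg_left _ (by positivity)
    apply mul_le_mul_of_nonneg_right _ hy0
    nlinarith
  have e : (N (x, y, q)).2.1 - (y - x * y) = (fY N (x, y, q) - fY N (x, y, A)) + (fY N (x, y, A) - fY N (x, y, 0))
      + (fY N (x, y, 0) - fY N (0, y, 0)) + fY N (0, y, 0) := by
    simp only [fY]; ring
  rw [e]
  have hK2 : 0 ≤ 16 * C / R ^ 2 := by positivity
  have hK3 : 0 ≤ 64 * C / R ^ 3 := by positivity
  calc _ ≤ ‖fY N (x, y, q) - fY N (x, y, A)‖ + ‖fY N (x, y, A) - fY N (x, y, 0)‖ + ‖fY N (x, y, 0) - fY N (0, y, 0)‖ + ‖fY N (0, y, 0)‖ :=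
        (norm_add_le _ _).trans (add_le_add ((norm_add_le _ _).trans (add_le_add (norm_add_le _ _) le_rfl)) le_rfl)
    _ ≤ 32 * C * T2 + 16 * C / R ^ 2 * T1 + (4 * C * T0 + 16 * C * T1) + 64 * C / R ^ 3 * T1 :=
        add_le_add (add_le_add (add_le_add S1 (S2.trans c2)) (S3.trans c3)) (S4.trans c4)
    _ ≤ (48 * C + 16 * C / R ^ 2 + 64 * C / R ^ 3) * (T0 + T1 + T2) := fz_arith2 hC hK2 hK3 hT00 hT10 hT20

/-- the final radius of the fine rows -/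
noncomputable def fr (ρ θ C : ℝ) : ℝ := min (fR ρ / 2) (fR ρ * (1 - θ) / (8 * (C + 1)))

theorem fr_pos (hρ : 0 < ρ) (hθ : θ < 1) (hC : 0 ≤ C) : 0 < fr ρ θ C := by
  have := fR_pos hρ
  have h1 : 0 < 1 - θ := by linarith
  unfold fr
  exact lt_min (by positivity) (by positivity)

theorem fr_le (ρ θ C : ℝ) : fr ρ θ C ≤ fR ρ / 2 := min_le_left _ _

theorem fr_small (hρ : 0 < ρ) (hC : 0 ≤ C) : 2 * (C + 1) * fr ρ θ C ≤ fR ρ * ((1 - θ) / 4) := by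
  have h1 : fr ρ θ C ≤ fR ρ * (1 - θ) / (8 * (C + 1)) := min_le_right _ _
  have h2 : 0 < 8 * (C + 1) := by positivity
  rw [le_div_iff₀ h2] at h1
  linarith

theorem Invol.ev_σ {σ : Q →L[ℂ] Q} (h : Invol σ) (q : Q) : ev σ (σ q) = ev σ q := by
  unfold ev; rw [h.inv, add_comm]
theorem Invol.od_σ {σ : Q →L[ℂ] Q} (h : Invol σ) (q : Q) : od σ (σ q) = -od σ q := by
  unfold od; rw [h.inv, ← smul_neg, neg_sub]

theorem PStep.n_bd (h : PStep ρ θ C ε2 σ σ' N) (hC : 0 ≤ C) (hθ0 : 0 ≤ θ) (hθ : θ < 1) :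
    ∀ Y ∈ ball (0 : ℂ × ℂ × Q) (2 * fR ρ), ‖(N Y).2.2‖ ≤ 1 + C := by
  intro Y hY
  have hn : ‖Y‖ ≤ 1 := (mem_ball_zero_iff.1 hY).le.trans (fR_le_one ρ)
  refine (h.N_q Y (ball_subset_ball (fR_le ρ) hY)).trans ?_
  have hw := (wn_le_norm' Y).trans hn
  have hq := (q_le_norm' Y).trans hn
  have hw0 := wn_nonneg' Y
  have hq0 := norm_nonneg Y.2.2
  have a1 : θ * ‖Y.2.2‖ ≤ 1 * 1 := mul_le_mul hθ.le hq hq0 zero_le_one
  have a2 : C * wn Y ^ 2 ≤ C * 1 := by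
    apply mul_le_mul_of_nonneg_left _ hC
    nlinarith
  linarith

/-- **the even row** -/
theorem PStep.fine_e (h : PStep ρ θ C ε2 σ σ' N) (hρ : 0 < ρ) (hC : 0 ≤ C) (hθ0 : 0 ≤ θ) (hθ : θ < 1)
    {Y : ℂ × ℂ × Q} (hY : ‖Y‖ < fr ρ θ C) :
    ‖ev σ' (N Y).2.2‖ ≤ (1 + θ) / 2 * ‖ev σ Y.2.2‖ + 2 * (1 + C) / fR ρ ^ 2 * (‖Y.2.1‖ + ‖od σ Y.2.2‖) ^ 2 := by
  obtain ⟨x, y, q⟩ := Y
  simp only
  set R := fR ρ with hRdef
  have hR : 0 < R := fR_pos hρ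
  have hR1 : R ≤ 1 := by have := fR_le_one ρ; linarith
  have hrR : fr ρ θ C ≤ R / 2 := fr_le ρ θ C
  rw [Prod.norm_def, Prod.norm_def] at hY
  have hxr : ‖x‖ < fr ρ θ C := lt_of_le_of_lt (le_max_left _ _) hY
  have hx : ‖x‖ < R := by linarith
  have hy : ‖y‖ < R := by have := lt_of_le_of_lt ((le_max_left _ _).trans (le_max_right _ _)) hY; linarith
  have hq : ‖q‖ < R := by have := lt_of_le_of_lt ((le_max_right _ _).trans (le_max_right _ _)) hY; linarith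
  set A := ev σ q with hA
  set B := od σ q with hB
  have hAn : ‖A‖ < R := lt_of_le_of_lt (h.hσ.norm_ev q) hq
  have hBn : ‖B‖ < R := lt_of_le_of_lt (h.hσ.norm_od q) hq
  have z0 : ‖(0 : ℂ)‖ < R := by simpa using hR
  have zq : ‖(0 : Q)‖ < R := by simpa using hR
  have eA : ev σ A = A := h.hσ.ev_ev q
  have eB : od σ B = B := h.hσ.od_od q
  have eq : A + B = q := ev_add_od q
  have hx0 := norm_nonneg x
  have hy0 := norm_nonneg y
  have hA0 := norm_nonneg A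
  have hB0 := norm_nonneg B
  have dod := differentiable_od (σ := σ)
  have han : DifferentiableOn ℂ (fun Y => (N Y).2.2) (ball 0 (2 * R)) := (h.an.mono (ball_subset_ball (fR_le ρ))).snd.snd
  have hd : DifferentiableOn ℂ (fun Y => ev σ' (N Y).2.2) (ball 0 (2 * R)) :=
    (differentiable_ev (σ := σ')).comp_differentiableOn han
  have hM : ∀ Y ∈ ball (0 : ℂ × ℂ × Q) (2 * R), ‖ev σ' (N Y).2.2‖ ≤ 1 + C := fun Y hY =>
    (h.hσ'.norm_ev _).trans (h.n_bd hC hθ0 hθ Y hY)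
  have hpar : ∀ Y ∈ ball (0 : ℂ × ℂ × Q) (2 * R), ev σ' (N (parY σ Y)).2.2 = ev σ' (N Y).2.2 := by
    intro Y hY
    rw [h.par Y (ball_subset_ball (fR_le ρ) hY)]
    simp only [parY]
    exact h.hσ'.ev_σ _
  have V := sl_d2 (E := ℂ × Q) hd hM (φ := fun v => (x, v.1, ev σ A + od σ v.2)) (R := R) (by fun_prop)
    (fun b hb => by
      have hb' := mem_ball_zero_iff.1 hb
      rw [Prod.norm_def] at hb'
      exact h.hσ.mem4 hx (lt_of_le_of_lt (le_max_left _ _) hb') hAn (lt_of_le_of_lt (le_max_right _ _) hb'))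
    (fun b hb => by
      have hb' := mem_ball_zero_iff.1 hb
      rw [Prod.norm_def] at hb'
      have := hpar _ (h.hσ.mem4 hx (lt_of_le_of_lt (le_max_left _ _) hb') hAn (lt_of_le_of_lt (le_max_right _ _) hb'))
      rw [h.hσ.parY_eo] at this
      exact this) (b := (y, B)) (by rw [Prod.norm_def]; exact max_lt hy hBn)
  simp only [eA, eB, eq, Prod.fst_zero, Prod.snd_zero, od_zero, add_zero] at V
  have W : ‖(N (x, 0, A)).2.2‖ ≤ (θ * R + C * ‖x‖ ^ 2) * (‖A‖ / R) := by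
    refine sl_schwarz (f := fun a' : Q => (N (x, 0, a')).2.2) ?_ ?_ ?_ (mem_ball_zero_iff.2 hAn)
    · exact han.comp (Differentiable.differentiableOn (by fun_prop))
        (fun e he => mem3 (by linarith) (by linarith) (by have := mem_ball_zero_iff.1 he; linarith))
    · intro z hz
      have hz' := mem_ball_zero_iff.1 hz
      have := h.N_q (x, 0, z) (ball_subset_ball (fR_le ρ) (mem3 (by linarith) (by linarith) (by linarith)))
      simp only [wn, norm_zero] at this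
      rw [max_eq_left hx0] at this
      refine this.trans ?_
      gcongr
    · show (N (x, 0, 0)).2.2 = 0
      rw [h.N_g x (by have := fR_le ρ; linarith)]
  have W2 : (θ * R + C * ‖x‖ ^ 2) * (‖A‖ / R) ≤ (1 + θ) / 2 * ‖A‖ := by
    have hs := fr_small (θ := θ) hρ hC
    have a1 : C * ‖x‖ ^ 2 ≤ R * ((1 - θ) / 2) := by
      have b1 : ‖x‖ ^ 2 ≤ fr ρ θ C := by nlinarith
      have b2 : C * ‖x‖ ^ 2 ≤ C * fr ρ θ C := mul_le_mul_of_nonneg_left b1 hC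
      have b3 : 0 ≤ fr ρ θ C := hx0.trans hxr.le
      have b4 : 0 ≤ R * ((1 - θ) / 4) := by
        have : 0 ≤ 1 - θ := by linarith
        positivity
      nlinarith
    have e : (θ * R + C * ‖x‖ ^ 2) * (‖A‖ / R) = (θ * R + C * ‖x‖ ^ 2) / R * ‖A‖ := by ring
    rw [e]
    apply mul_le_mul_of_nonneg_right _ hA0
    rw [div_le_iff₀ hR]
    linarith
  have hmax : ‖((y, B) : ℂ × Q)‖ ≤ ‖y‖ + ‖B‖ := by
    rw [Prod.norm_def]; exact max_le (by linarith) (by linarith)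
  have V2 : 2 * (1 + C) * (‖((y, B) : ℂ × Q)‖ / R) ^ 2 ≤ 2 * (1 + C) / R ^ 2 * (‖y‖ + ‖B‖) ^ 2 := by
    have e : 2 * (1 + C) / R ^ 2 * (‖y‖ + ‖B‖) ^ 2 = 2 * (1 + C) * ((‖y‖ + ‖B‖) / R) ^ 2 := by field_simp
    rw [e]
    gcongr
  have e : ev σ' (N (x, y, q)).2.2 = ev σ' (N (x, 0, A)).2.2 + (ev σ' (N (x, y, q)).2.2 - ev σ' (N (x, 0, A)).2.2) := by abel
  rw [e]
  exact (norm_add_le _ _).trans (add_le_add (((h.hσ'.norm_ev _).trans W).trans W2) (V.trans V2))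

/-- **the odd row** -/
theorem PStep.fine_o (h : PStep ρ θ C ε2 σ σ' N) (hρ : 0 < ρ) (hC : 0 ≤ C) (hθ0 : 0 ≤ θ) (hθ : θ < 1)
    {Y : ℂ × ℂ × Q} (hY : ‖Y‖ < fr ρ θ C) :
    ‖od σ' (N Y).2.2‖ ≤ (1 + θ) / 2 * ‖od σ Y.2.2‖
      + (4 * (1 + C) / fR ρ ^ 2 + C) * ((‖Y.1‖ + ‖Y.2.1‖ + ‖ev σ Y.2.2‖) * ‖Y.2.1‖) := by
  obtain ⟨x, y, q⟩ := Y
  simp only
  set R := fR ρ with hRdef
  have hR : 0 < R := fR_pos hρ
  have hR1 : R ≤ 1 := by have := fR_le_one ρ; linarith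
  have hrR : fr ρ θ C ≤ R / 2 := fr_le ρ θ C
  rw [Prod.norm_def, Prod.norm_def] at hY
  have hxr : ‖x‖ < fr ρ θ C := lt_of_le_of_lt (le_max_left _ _) hY
  have hyr : ‖y‖ < fr ρ θ C := lt_of_le_of_lt ((le_max_left _ _).trans (le_max_right _ _)) hY
  have hqr : ‖q‖ < fr ρ θ C := lt_of_le_of_lt ((le_max_right _ _).trans (le_max_right _ _)) hY
  have hx : ‖x‖ < R := by linarith
  have hy : ‖y‖ < R := by linarith
  have hq : ‖q‖ < R := by linarith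
  set A := ev σ q with hA
  set B := od σ q with hB
  have hAr : ‖A‖ < fr ρ θ C := lt_of_le_of_lt (h.hσ.norm_ev q) hqr
  have hAn : ‖A‖ < R := lt_of_le_of_lt (h.hσ.norm_ev q) hq
  have hBn : ‖B‖ < R := lt_of_le_of_lt (h.hσ.norm_od q) hq
  have z0 : ‖(0 : ℂ)‖ < R := by simpa using hR
  have zq : ‖(0 : Q)‖ < R := by simpa using hR
  have eA : ev σ A = A := h.hσ.ev_ev q
  have eq : A + B = q := ev_add_od q
  have hx0 := norm_nonneg x
  have hy0 := norm_nonneg y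
  have hA0 := norm_nonneg A
  have hB0 := norm_nonneg B
  have han : DifferentiableOn ℂ (fun Y => (N Y).2.2) (ball 0 (2 * R)) := (h.an.mono (ball_subset_ball (fR_le ρ))).snd.snd
  have hd : DifferentiableOn ℂ (fun Y => od σ' (N Y).2.2) (ball 0 (2 * R)) :=
    (differentiable_od (σ := σ')).comp_differentiableOn han
  have hM : ∀ Y ∈ ball (0 : ℂ × ℂ × Q) (2 * R), ‖od σ' (N Y).2.2‖ ≤ 1 + C := fun Y hY =>
    (h.hσ'.norm_od _).trans (h.n_bd hC hθ0 hθ Y hY)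
  have hpar : ∀ Y ∈ ball (0 : ℂ × ℂ × Q) (2 * R), od σ' (N (parY σ Y)).2.2 = -od σ' (N Y).2.2 := by
    intro Y hY
    rw [h.par Y (ball_subset_ball (fR_le ρ) hY)]
    simp only [parY]
    exact h.hσ'.od_σ _
  set w := max ‖x‖ ‖y‖ with hw
  have hw0 : 0 ≤ w := le_max_of_le_left hx0
  have hwr : w < fr ρ θ C := max_lt hxr hyr
  -- U1
  have U1 : ‖od σ' (N (x, y, q)).2.2 - od σ' (N (x, y, A)).2.2‖ ≤ (θ * R + 2 * θ * ‖A‖ + 2 * C * w ^ 2) * (‖B‖ / R) := by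
    have := sl_schwarz (f := fun b' : Q => od σ' (N (x, y, A + b')).2.2 - od σ' (N (x, y, A)).2.2)
      (R := R) (M := θ * R + 2 * θ * ‖A‖ + 2 * C * w ^ 2) ?_ ?_ (by simp) (mem_ball_zero_iff.2 hBn)
    · simpa only [eq] using this
    · refine (hd.comp (Differentiable.differentiableOn (by fun_prop)) ?_).sub (differentiableOn_const _)
      intro e he
      have he' := mem_ball_zero_iff.1 he
      exact mem3 (by linarith) (by linarith) (by have := norm_add_le A e; linarith)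
    · intro z hz
      have hz' := mem_ball_zero_iff.1 hz
      have a1 := h.N_q (x, y, A + z) (ball_subset_ball (fR_le ρ) (mem3 (by linarith) (by linarith) (by have := norm_add_le A z; linarith)))
      have a2 := h.N_q (x, y, A) (ball_subset_ball (fR_le ρ) (mem3 (by linarith) (by linarith) (by linarith)))
      simp only [wn] at a1 a2
      have a3 : θ * ‖A + z‖ ≤ θ * (‖A‖ + R) := by
        apply mul_le_mul_of_nonneg_left _ hθ0
        have := norm_add_le A z; linarith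
      calc _ ≤ ‖od σ' (N (x, y, A + z)).2.2‖ + ‖od σ' (N (x, y, A)).2.2‖ := norm_sub_le _ _
        _ ≤ ‖(N (x, y, A + z)).2.2‖ + ‖(N (x, y, A)).2.2‖ := add_le_add (h.hσ'.norm_od _) (h.hσ'.norm_od _)
        _ ≤ (θ * (‖A‖ + R) + C * w ^ 2) + (θ * ‖A‖ + C * w ^ 2) := add_le_add (a1.trans (by linarith)) a2
        _ = _ := by ring
  have U1' : (θ * R + 2 * θ * ‖A‖ + 2 * C * w ^ 2) * (‖B‖ / R) ≤ (1 + θ) / 2 * ‖B‖ := by
    have hs := fr_small (θ := θ) hρ hC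
    have b3 : 0 ≤ fr ρ θ C := hx0.trans hxr.le
    have a1 : 2 * θ * ‖A‖ + 2 * C * w ^ 2 ≤ R * ((1 - θ) / 2) := by
      have b1 : w ^ 2 ≤ fr ρ θ C := by nlinarith
      have b2 : 2 * C * w ^ 2 ≤ 2 * C * fr ρ θ C := mul_le_mul_of_nonneg_left b1 (by positivity)
      have b5 : 2 * θ * ‖A‖ ≤ 2 * 1 * fr ρ θ C := by
        apply mul_le_mul _ hAr.le hA0 (by norm_num)
        linarith
      have b4 : 0 ≤ R * ((1 - θ) / 4) := by
        have : 0 ≤ 1 - θ := by linarith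
        positivity
      nlinarith
    have e : (θ * R + 2 * θ * ‖A‖ + 2 * C * w ^ 2) * (‖B‖ / R) = (θ * R + 2 * θ * ‖A‖ + 2 * C * w ^ 2) / R * ‖B‖ := by ring
    rw [e]
    apply mul_le_mul_of_nonneg_right _ hB0
    rw [div_le_iff₀ hR]
    linarith
  -- U2
  have U2 : ‖od σ' (N (x, y, A)).2.2 - od σ' (N (0, y, 0)).2.2‖ ≤ 4 * (1 + C) * ((‖x‖ + ‖A‖) / R) * (‖y‖ / R) := by
    have := (sl_odd_row h.hσ hd hM hpar hx hy hAn).1
    rwa [eA] at this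
  -- U3
  have U3 : ‖od σ' (N (0, y, 0)).2.2‖ ≤ C * ‖y‖ ^ 2 := by
    refine (h.hσ'.norm_od _).trans ?_
    have := h.N_q (0, y, 0) (ball_subset_ball (fR_le ρ) (mem3 (by linarith) (by linarith) (by linarith)))
    simpa [wn] using this
  have c2 : 4 * (1 + C) * ((‖x‖ + ‖A‖) / R) * (‖y‖ / R) + C * ‖y‖ ^ 2 ≤ (4 * (1 + C) / R ^ 2 + C) * ((‖x‖ + ‖y‖ + ‖A‖) * ‖y‖) := by
    have e : 4 * (1 + C) * ((‖x‖ + ‖A‖) / R) * (‖y‖ / R) = 4 * (1 + C) / R ^ 2 * ((‖x‖ + ‖A‖) * ‖y‖) := by field_simp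
    rw [e, add_mul (4 * (1 + C) / R ^ 2) C]
    apply add_le_add
    · apply mul_le_mul_of_nonneg_left _ (by positivity)
      apply mul_le_mul_of_nonneg_right _ hy0
      linarith
    · apply mul_le_mul_of_nonneg_left _ hC
      nlinarith
  have e : od σ' (N (x, y, q)).2.2 = (od σ' (N (x, y, q)).2.2 - od σ' (N (x, y, A)).2.2)
      + ((od σ' (N (x, y, A)).2.2 - od σ' (N (0, y, 0)).2.2) + od σ' (N (0, y, 0)).2.2) := by abel
  rw [e]
  exact (norm_add_le _ _).trans (add_le_add (U1.trans U1') (((norm_add_le _ _).trans (add_le_add U2 U3)).trans c2))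

end pstep

/-! ## The rows for the histories of `Base/Flow.lean` -/

section hist

/-- [F] (trj:u-map)-(trj:odd-map) on the tube of radius `r` (slightly weaker rows, see `F5/WinDefs.lean`) -/
structure Fine (C r θ : ℝ) (H : Hist) : Prop where
  u_map : ∀ j, H.j0 ≤ j → ∀ Y ∈ Metric.ball (0 : ℂ × ℂ × H.Q j) r,
    ‖(H.N j Y).1 - (Y.1 - Y.2.1 ^ 2)‖ ≤ C * (‖Y.2.1‖ ^ 2 / (j : ℝ) ^ 2
      + (‖Y.1‖ + ‖Y.2.1‖ + ‖ev (H.σQ j) Y.2.2‖) * (‖Y.2.1‖ ^ 2 + ‖ev (H.σQ j) Y.2.2‖)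
      + ‖od (H.σQ j) Y.2.2‖ * (‖Y.2.1‖ + ‖od (H.σQ j) Y.2.2‖))
  z_map : ∀ j, H.j0 ≤ j → ∀ Y ∈ Metric.ball (0 : ℂ × ℂ × H.Q j) r,
    ‖(H.N j Y).2.1 - (Y.2.1 - Y.1 * Y.2.1)‖ ≤ C * (‖Y.1‖ * ‖Y.2.1‖ / (j : ℝ) ^ 2
      + (‖Y.1‖ ^ 2 + ‖Y.2.1‖ ^ 2 + ‖ev (H.σQ j) Y.2.2‖) * ‖Y.2.1‖
      + (‖Y.1‖ + ‖Y.2.1‖ + ‖ev (H.σQ j) Y.2.2‖ + ‖od (H.σQ j) Y.2.2‖) * ‖od (H.σQ j) Y.2.2‖)
  e_map : ∀ j, H.j0 ≤ j → ∀ Y ∈ Metric.ball (0 : ℂ × ℂ × H.Q j) r,
    ‖ev (H.σQ (j + 1)) (H.N j Y).2.2‖ ≤ θ * ‖ev (H.σQ j) Y.2.2‖ + C * (‖Y.2.1‖ + ‖od (H.σQ j) Y.2.2‖) ^ 2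
  o_map : ∀ j, H.j0 ≤ j → ∀ Y ∈ Metric.ball (0 : ℂ × ℂ × H.Q j) r,
    ‖od (H.σQ (j + 1)) (H.N j Y).2.2‖ ≤ θ * ‖od (H.σQ j) Y.2.2‖
      + C * ((‖Y.1‖ + ‖Y.2.1‖ + ‖ev (H.σQ j) Y.2.2‖) * ‖Y.2.1‖)

theorem inv_sq_le_one (j : ℕ) : 1 / (j : ℝ) ^ 2 ≤ 1 := by
  rcases Nat.eq_zero_or_pos j with h | h
  · subst h; simp
  · have h1 : (1 : ℝ) ≤ j := by exact_mod_cast h
    rw [div_le_one (by positivity)]
    nlinarith

/-- one index of `MapOK` is a `PStep` -/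
theorem pstep_of_map {κ : MapC} {H : Hist} (hM : Flow.MapOK κ H) (j : ℕ) (hj : H.j0 ≤ j) :
    PStep κ.ρ κ.θ κ.C (1 / (j : ℝ) ^ 2) (H.σQ j) (H.σQ (j + 1)) (H.N j) where
  an := hM.N_an j hj
  N_x := fun Y hY => by
    have := hM.N_x j hj Y hY
    unfold eord at this
    rwa [div_eq_mul_one_div] at this
  N_y := fun Y hY => by
    have := hM.N_y j hj Y hY
    unfold eord at this
    rwa [div_eq_mul_one_div] at this
  N_q := hM.N_q j hj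
  N_g := hM.N_g j hj
  hσ := ⟨hM.σQ_inv j, hM.σQ_iso j⟩
  hσ' := ⟨hM.σQ_inv (j + 1), hM.σQ_iso (j + 1)⟩
  par := hM.N_par j hj

/-- **[F] L5.2** from the coarse bounds of `MapOK`, parity, the fixed Gaussian curve and Schwarz lemmas.  Constants depend on `κ` only. -/
theorem fine_of_coarse (κ : MapC) : ∃ C r : ℝ, 1 ≤ C ∧ 0 < r ∧ r ≤ κ.ρ ∧ ∀ H : Hist, Flow.MapOK κ H → Fine C r ((1 + κ.θ) / 2) H := by
  have hC0 : 0 ≤ κ.C := zero_le_one.trans κ.hC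
  have hR := fR_pos κ.hρ
  set R := fR κ.ρ with hRd
  set C1 := 16 * κ.C / R ^ 3 + 2 * κ.C with hC1
  set C2 := 48 * κ.C + 16 * κ.C / R ^ 2 + 64 * κ.C / R ^ 3 with hC2
  set C3 := 2 * (1 + κ.C) / R ^ 2 with hC3
  set C4 := 4 * (1 + κ.C) / R ^ 2 + κ.C with hC4
  have p1 : 0 ≤ C1 := by positivity
  have p2 : 0 ≤ C2 := by positivity
  have p3 : 0 ≤ C3 := by positivity
  have p4 : 0 ≤ C4 := by positivity
  have hr := fr_pos κ.hρ κ.hθ hC0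
  have hrR : fr κ.ρ κ.θ κ.C ≤ R / 2 := fr_le _ _ _
  refine ⟨1 + C1 + C2 + C3 + C4, fr κ.ρ κ.θ κ.C, by linarith, hr, ?_, ?_⟩
  · have := fR_le κ.ρ; linarith
  intro H hM
  refine ⟨?_, ?_, ?_, ?_⟩
  · intro j hj Y hY
    have hY' := mem_ball_zero_iff.1 hY
    have := (pstep_of_map hM j hj).fine_u κ.hρ hC0 (by positivity) (inv_sq_le_one j) (Y := Y) (by linarith)
    rw [← div_eq_mul_one_div] at this
    refine this.trans (mul_le_mul_of_nonneg_right (by linarith) (by positivity))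
  · intro j hj Y hY
    have hY' := mem_ball_zero_iff.1 hY
    have := (pstep_of_map hM j hj).fine_z κ.hρ hC0 (by positivity) (inv_sq_le_one j) (Y := Y) (by linarith)
    rw [← div_eq_mul_one_div] at this
    refine this.trans (mul_le_mul_of_nonneg_right (by linarith) (by positivity))
  · intro j hj Y hY
    have hY' := mem_ball_zero_iff.1 hY
    have := (pstep_of_map hM j hj).fine_e κ.hρ hC0 κ.hθ0.le κ.hθ (Y := Y) hY'
    refine this.trans (add_le_add le_rfl (mul_le_mul_of_nonneg_right (by linarith) (by positivity)))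
  · intro j hj Y hY
    have hY' := mem_ball_zero_iff.1 hY
    have := (pstep_of_map hM j hj).fine_o κ.hρ hC0 κ.hθ0.le κ.hθ (Y := Y) hY'
    refine this.trans (add_le_add le_rfl (mul_le_mul_of_nonneg_right (by linarith) (by positivity)))

end hist

end Claimed.Agent.R285.F5
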