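import Mathlib

/-!
# ROW 285, [F] L5.5 in scalar form, leaves EX-1, EX-2: first exit and decay on a window, FINITE horizon.  Paper-free, abstract.     (contract helper94)

Variant of helper21's `B10.first_exit`, `B10.window_decay` (`R285/Flow/Exit.lean`) adapted to the NORMAL coordinates of `Base/Flow.lean`: `a i = max (|x_i|, |y_i|)`, `q i = ‖Q_i‖`,
`τ h i` = torus remainder at stage `i` behind the stop `h` (stage indices, `0` = entry).  Differences: finite horizon `M`; no linear `q` in the `a`-row; `q` enters the torus forcing and (linearly) the diagnostic,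
because `(t, z) = sc (x, y, Q)`.
`exit_fin`.  Early stages `i ≤ E`: all sizes `≤ ε 2^i ≤ c1 ρ` (each row is `≤ m (1 + C m) ≤ 2 m`, `m` = max of the sizes).  Then induction with `β = c1 ρ + C ρ² / (1 - θ) ≤ ρ`: `q, τ ≤ β` (`θ β + C ρ² ≤ β`),
`a (i+1) ≤ a i + C ρ² < 2 ρ < ρd`, so the diagnostic applies at `i + 1`: `a (i+1) ≤ C (δ + 2 β + 4 ρ²) < ρ`  (`3 C c1 ≤ 1/4`, `C (2 C / (1 - θ) + 4) ρ0 ≤ 1/4`).
`decay_fin`.  If all sizes are `≤ s ≤ ρ` on `[m, i1]` then on `[m + n, i1]`: `q, τ ≤ θ^n s + C s² / (1 - θ)`, `a ≤ C (δ + 2 θ^n s + 2 C s² / (1 - θ) + s²)`, all `≤ s / 4 + 2 C (δ + θ^n ρ)`; iterate (`K = 3 C`).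
-/

set_option autoImplicit false

namespace Claimed.Agent.R285.F5

theorem exit_sq2 {x y m : ℝ} (hx0 : 0 ≤ x) (hx : x ≤ m) (hy : y ≤ m) : max x y ^ 2 ≤ m ^ 2 :=
  pow_le_pow_left₀ (le_max_of_le_left hx0) (max_le hx hy) 2

theorem exit_sq3 {x y z m : ℝ} (hx0 : 0 ≤ x) (hx : x ≤ m) (hy : y ≤ m) (hz : z ≤ m) :
    max (max x y) z ^ 2 ≤ m ^ 2 :=
  pow_le_pow_left₀ (le_max_of_le_left (le_max_of_le_left hx0)) (max_le (max_le hx hy) hz) 2

theorem exit_fin (θ C ρd : ℝ) (hθ0 : 0 ≤ θ) (hθ : θ < 1) (hC : 1 ≤ C) (hρd : 0 < ρd) :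
    ∃ ρ0 c1 : ℝ, 0 < ρ0 ∧ 0 < c1 ∧
    ∀ (ρ ε δ : ℝ) (E M : ℕ) (a q : ℕ → ℝ) (τ : ℕ → ℕ → ℝ),
      0 < ρ → ρ ≤ ρ0 → 0 ≤ ε → 0 ≤ δ → ε * 2 ^ E ≤ c1 * ρ → δ ≤ c1 * ρ →
      (∀ i, 0 ≤ a i ∧ 0 ≤ q i) → (∀ h i, 0 ≤ τ h i) →
      a 0 ≤ ε → q 0 ≤ ε → (∀ h, h ≤ M → τ h 0 ≤ ε) →
      (∀ i, i < M → a i < ρd → q i < ρd →
        a (i + 1) ≤ a i + C * max (a i) (q i) ^ 2 ∧ q (i + 1) ≤ θ * q i + C * a i ^ 2) →
      (∀ h i, h ≤ M → i < h → a i < ρd → q i < ρd → τ h i < ρd →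
        τ h (i + 1) ≤ θ * τ h i + C * max (max (a i) (q i)) (τ h i) ^ 2) →
      (∀ i, E ≤ i → i ≤ M → (∀ i' ≤ i, a i' < ρd ∧ q i' < ρd ∧ τ i i' < ρd) →
        a i ≤ C * (δ + τ i i + q i + max (max (a i) (q i)) (τ i i) ^ 2)) →
      ∀ i, i ≤ M → a i < ρ ∧ q i < ρ ∧ ∀ h, i ≤ h → h ≤ M → τ h i < ρ := by
  have h1θ : 0 < 1 - θ := by linarith
  have hC0 : 0 < C := by linarith
  obtain ⟨T, hT⟩ : ∃ T : ℝ, T = 1 / (1 - θ) := ⟨_, rfl⟩
  have hTe : T * (1 - θ) = 1 := by rw [hT]; field_simp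
  have hT0 : 0 < T := by rw [hT]; positivity
  obtain ⟨κ, hκ⟩ : ∃ κ : ℝ, κ = C * (2 * C * T + 4) := ⟨_, rfl⟩
  have hκ0 : 0 < κ := by rw [hκ]; positivity
  refine ⟨min (ρd / 2) (1 / (4 * κ)), 1 / (12 * C), by positivity, by positivity, ?_⟩
  intro ρ ε δ E M a q τ hρ hρ0 hε hδ hεE hδρ hnn hτnn ha0 hq0 hτ0 R1 R2 R3
  obtain ⟨c1, hc1⟩ : ∃ c1 : ℝ, c1 = 1 / (12 * C) := ⟨_, rfl⟩
  rw [← hc1] at hεE hδρ
  have hc1e : 12 * C * c1 = 1 := by rw [hc1]; field_simp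
  have hc10 : 0 < c1 := by rw [hc1]; positivity
  have hρd2 : 2 * ρ ≤ ρd := by
    have := hρ0.trans (min_le_left _ _)
    linarith
  have hκρ : κ * ρ ≤ 1 / 4 := by
    have h1 := hρ0.trans (min_le_right _ _)
    rw [le_div_iff₀ (by positivity)] at h1
    linarith
  obtain ⟨β, hβ⟩ : ∃ β : ℝ, β = c1 * ρ + C * T * ρ ^ 2 := ⟨_, rfl⟩
  have hc112 : c1 ≤ 1 / 12 := by
    have := mul_le_mul_of_nonneg_right hC hc10.le
    linarith
  have F4 : C * ρ ≤ 1 / 16 := by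
    have : 4 * C * ρ ≤ κ * ρ := by
      refine mul_le_mul_of_nonneg_right ?_ hρ.le
      rw [hκ]
      have : 0 ≤ 2 * C * C * T := by positivity
      linarith
    linarith
  have hρ16 : ρ ≤ 1 / 16 := by
    have := mul_le_mul_of_nonneg_right hC hρ.le
    linarith
  have F1 : θ * β + C * ρ ^ 2 ≤ β := by
    have h1 : (1 - θ) * β = (1 - θ) * c1 * ρ + C * ρ ^ 2 := by
      rw [hβ]; linear_combination (C * ρ ^ 2) * hTe
    have h2 : 0 ≤ (1 - θ) * c1 * ρ := by positivity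
    linarith
  have hCT : C * T * ρ ≤ 1 / 8 := by
    have h1 : 2 * (C * T) * ρ ≤ κ * ρ := by
      refine mul_le_mul_of_nonneg_right ?_ hρ.le
      rw [hκ]
      have := mul_nonneg (sub_nonneg.2 hC) (mul_pos hC0 hT0).le
      linarith
    linarith
  have F2 : β ≤ ρ / 2 := by
    have h1 : C * T * ρ ^ 2 ≤ 1 / 8 * ρ := by
      have := mul_le_mul_of_nonneg_right hCT hρ.le
      calc C * T * ρ ^ 2 = C * T * ρ * ρ := by ring
        _ ≤ 1 / 8 * ρ := this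
    have h2 : c1 * ρ ≤ 1 / 12 * ρ := mul_le_mul_of_nonneg_right hc112 hρ.le
    rw [hβ]
    linarith
  have F3 : C * (c1 * ρ + 2 * β + 4 * ρ ^ 2) ≤ ρ / 2 := by
    have h1 : C * (c1 * ρ + 2 * β + 4 * ρ ^ 2) = (12 * C * c1) * ρ / 4 + κ * ρ * ρ := by
      rw [hβ, hκ]; ring
    have h2 : κ * ρ * ρ ≤ 1 / 4 * ρ := mul_le_mul_of_nonneg_right hκρ hρ.le
    rw [h1, hc1e]
    linarith
  have hcβ : c1 * ρ ≤ β := by
    rw [hβ]
    have : 0 ≤ C * T * ρ ^ 2 := by positivity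
    linarith
  have hcρ : c1 * ρ < ρ := by
    have := mul_le_mul_of_nonneg_right hc112 hρ.le
    linarith
  have hβρ : β < ρ := by linarith
  have hβd : β < ρd := by linarith
  have hρρd : ρ < ρd := by linarith
  have main : ∀ i, i ≤ M →
      ((i ≤ E → a i ≤ ε * 2 ^ i ∧ q i ≤ ε * 2 ^ i ∧ ∀ h, i ≤ h → h ≤ M → τ h i ≤ ε * 2 ^ i) ∧
       (a i < ρ ∧ q i ≤ β ∧ ∀ h, i ≤ h → h ≤ M → τ h i ≤ β)) := by
    intro i
    induction i using Nat.strong_induction_on with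
    | _ i IH =>
      intro hiM
      rcases Nat.eq_zero_or_pos i with rfl | hipos
      · have hε1 : ε ≤ c1 * ρ := by
          have : ε * 1 ≤ ε * 2 ^ E := mul_le_mul_of_nonneg_left (one_le_pow₀ (by norm_num)) hε
          linarith
        refine ⟨fun _ => ⟨by simpa using ha0, by simpa using hq0, fun h _ hh => by
          simpa using hτ0 h hh⟩, by linarith, by linarith, fun h _ hh => ?_⟩
        have := hτ0 h hh
        linarith
      · obtain ⟨j, rfl⟩ : ∃ j, i = j + 1 := ⟨i - 1, by omega⟩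
        obtain ⟨IH1, IHa, IHq, IHτ⟩ := IH j (by omega) (by omega)
        obtain ⟨haj0, hqj0⟩ := hnn j
        obtain ⟨r1, r2⟩ := R1 j (by omega) (by linarith) (by linarith)
        by_cases hE : j + 1 ≤ E
        · -- early stage
          obtain ⟨ea, eq, eτ⟩ := IH1 (by omega)
          obtain ⟨m, hm⟩ : ∃ m : ℝ, m = ε * 2 ^ j := ⟨_, rfl⟩
          rw [← hm] at ea eq eτ
          have hm0 : 0 ≤ m := by rw [hm]; positivity
          have hm2 : ε * 2 ^ (j + 1) = 2 * m := by rw [hm, pow_succ]; ring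
          have hm2c : 2 * m ≤ c1 * ρ := by
            rw [← hm2]
            refine le_trans (mul_le_mul_of_nonneg_left ?_ hε) hεE
            exact pow_le_pow_right₀ (by norm_num) hE
          have hCm : C * m ^ 2 ≤ m := by
            have h1 : C * m ≤ 1 := by
              have h2 := mul_le_mul_of_nonneg_left hm2c hC0.le
              have h3 : C * (c1 * ρ) = 12 * C * c1 * ρ / 12 := by ring
              rw [h3, hc1e] at h2
              linarith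
            calc C * m ^ 2 = C * m * m := by ring
              _ ≤ 1 * m := mul_le_mul_of_nonneg_right h1 hm0
              _ = m := one_mul m
          have hθm : ∀ x, 0 ≤ x → x ≤ m → θ * x ≤ m := fun x hx0 hx =>
            (mul_le_of_le_one_left hx0 hθ.le).trans hx
          have A1 : a (j + 1) ≤ 2 * m := by
            have := mul_le_mul_of_nonneg_left (exit_sq2 haj0 ea eq) hC0.le
            linarith
          have Q1 : q (j + 1) ≤ 2 * m := by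
            have h1 := mul_le_mul_of_nonneg_left (pow_le_pow_left₀ haj0 ea 2) hC0.le
            have h2 := hθm _ hqj0 eq
            linarith
          have T1 : ∀ h, j + 1 ≤ h → h ≤ M → τ h (j + 1) ≤ 2 * m := by
            intro h hh1 hh2
            have hτj := eτ h (by omega) hh2
            have h0 := R2 h j hh2 (by omega) (by linarith) (by linarith)
              (by have := IHτ h (by omega) hh2; linarith)
            have h1 := mul_le_mul_of_nonneg_left (exit_sq3 haj0 ea eq hτj) hC0.le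
            have h2 := hθm _ (hτnn h j) hτj
            linarith
          rw [hm2]
          refine ⟨fun _ => ⟨A1, Q1, T1⟩, by linarith, by linarith, fun h hh1 hh2 => ?_⟩
          have := T1 h hh1 hh2
          linarith
        · -- late stage
          have hEj : E ≤ j := by omega
          have Q1 : q (j + 1) ≤ β := by
            have h1 := mul_le_mul_of_nonneg_left (pow_le_pow_left₀ haj0 IHa.le 2) hC0.le
            have h2 := mul_le_mul_of_nonneg_left IHq hθ0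
            linarith
          have T1 : ∀ h, j + 1 ≤ h → h ≤ M → τ h (j + 1) ≤ β := by
            intro h hh1 hh2
            have hτj := IHτ h (by omega) hh2
            have h0 := R2 h j hh2 (by omega) (by linarith) (by linarith) (by linarith)
            have h1 := mul_le_mul_of_nonneg_left
              (exit_sq3 haj0 IHa.le (IHq.trans hβρ.le) (hτj.trans hβρ.le)) hC0.le
            have h2 := mul_le_mul_of_nonneg_left hτj hθ0
            linarith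
          have A0 : a (j + 1) < 2 * ρ := by
            have h1 := mul_le_mul_of_nonneg_left (exit_sq2 haj0 IHa.le (IHq.trans hβρ.le)) hC0.le
            have h2 : C * ρ ^ 2 ≤ ρ := by
              calc C * ρ ^ 2 = C * ρ * ρ := by ring
                _ ≤ 1 * ρ := mul_le_mul_of_nonneg_right (by linarith) hρ.le
                _ = ρ := one_mul ρ
            linarith
          have hτjj := T1 (j + 1) le_rfl hiM
          have h3 := R3 (j + 1) (by omega) hiM (by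
            intro i' hi'
            rcases Nat.lt_or_ge i' (j + 1) with hlt | hge
            · obtain ⟨-, b1, b2, b3⟩ := IH i' hlt (by omega)
              have := b3 (j + 1) (by omega) hiM
              exact ⟨by linarith, by linarith, by linarith⟩
            · have : i' = j + 1 := by omega
              subst this
              exact ⟨by linarith, by linarith, by linarith⟩)
          have A1 : a (j + 1) < ρ := by
            have h4 : max (max (a (j + 1)) (q (j + 1))) (τ (j + 1) (j + 1)) ^ 2 ≤ (2 * ρ) ^ 2 :=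
              exit_sq3 (hnn (j + 1)).1 A0.le (by linarith) (by linarith)
            have h5 : δ + τ (j + 1) (j + 1) + q (j + 1) +
                max (max (a (j + 1)) (q (j + 1))) (τ (j + 1) (j + 1)) ^ 2 ≤
                c1 * ρ + 2 * β + 4 * ρ ^ 2 := by
              have : (2 * ρ) ^ 2 = 4 * ρ ^ 2 := by ring
              linarith
            have h6 := mul_le_mul_of_nonneg_left h5 hC0.le
            linarith
          exact ⟨fun h => absurd h hE, A1, Q1, T1⟩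
  intro i hi
  obtain ⟨-, b1, b2, b3⟩ := main i hi
  exact ⟨b1, by linarith, fun h hh1 hh2 => by have := b3 h hh1 hh2; linarith⟩

theorem decay_iter (θ c s T : ℝ) (hθ0 : 0 ≤ θ) (hTe : T * (1 - θ) = 1) (hc : 0 ≤ c) (hT0 : 0 ≤ T)
    (x : ℕ → ℝ) (j0 n : ℕ) (h0 : x j0 ≤ s)
    (hstep : ∀ l, l < n → x (j0 + l + 1) ≤ θ * x (j0 + l) + c) :
    x (j0 + n) ≤ θ ^ n * s + c * T := by
  induction n with
  | zero =>
    have : 0 ≤ c * T := mul_nonneg hc hT0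
    simp only [add_zero, pow_zero, one_mul]
    linarith
  | succ n ih =>
    have h1 := ih (fun l hl => hstep l (by omega))
    have h2 := hstep n (by omega)
    have h3 := mul_le_mul_of_nonneg_left h1 hθ0
    have h4 : θ * (θ ^ n * s + c * T) + c = θ ^ (n + 1) * s + c * T := by
      rw [pow_succ]; linear_combination (-c) * hTe
    rw [← add_assoc]
    linarith

theorem decay_fin (θ C : ℝ) (hθ0 : 0 ≤ θ) (hθ : θ < 1) (hC : 1 ≤ C) :
    ∃ ρ0 K : ℝ, 0 < ρ0 ∧ 1 ≤ K ∧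
    ∀ (ρ δ : ℝ) (n i0 i1 M : ℕ) (a q : ℕ → ℝ) (τ : ℕ → ℕ → ℝ),
      0 < ρ → ρ ≤ ρ0 → 0 ≤ δ → i1 ≤ M →
      (∀ i, 0 ≤ a i ∧ 0 ≤ q i) → (∀ h i, 0 ≤ τ h i) →
      (∀ i, i0 ≤ i → i ≤ i1 → a i ≤ ρ ∧ q i ≤ ρ ∧ ∀ h, i ≤ h → h ≤ M → τ h i ≤ ρ) →
      (∀ i, i0 ≤ i → i < i1 → q (i + 1) ≤ θ * q i + C * a i ^ 2) →
      (∀ h i, i0 ≤ i → i < i1 → i < h → h ≤ M →
        τ h (i + 1) ≤ θ * τ h i + C * max (max (a i) (q i)) (τ h i) ^ 2) →
      (∀ i, i0 ≤ i → i ≤ i1 → a i ≤ C * (δ + τ i i + q i + max (max (a i) (q i)) (τ i i) ^ 2)) →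
      ∀ k i, i0 + k * n ≤ i → i ≤ i1 →
        a i ≤ ρ / 4 ^ k + K * (δ + θ ^ n * ρ) ∧ q i ≤ ρ / 4 ^ k + K * (δ + θ ^ n * ρ) ∧
          ∀ h, i ≤ h → h ≤ M → τ h i ≤ ρ / 4 ^ k + K * (δ + θ ^ n * ρ) := by
  have h1θ : 0 < 1 - θ := by linarith
  have hC0 : 0 < C := by linarith
  obtain ⟨T, hT⟩ : ∃ T : ℝ, T = 1 / (1 - θ) := ⟨_, rfl⟩
  have hTe : T * (1 - θ) = 1 := by rw [hT]; field_simp
  have hT0 : 0 < T := by rw [hT]; positivity
  obtain ⟨L, hL⟩ : ∃ L : ℝ, L = 2 * C ^ 2 * T + C := ⟨_, rfl⟩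
  have hL0 : 0 < L := by rw [hL]; positivity
  refine ⟨1 / (4 * L), 3 * C, by positivity, by linarith, ?_⟩
  intro ρ δ n i0 i1 M a q τ hρ hρ0 hδ hi1M hnn hτnn hsz Rq Rτ Rd
  have hLρ : L * ρ ≤ 1 / 4 := by
    rw [le_div_iff₀ (by positivity)] at hρ0
    linarith
  have hCTL : C * T ≤ L := by
    rw [hL]
    have := mul_nonneg (sub_nonneg.2 hC) (mul_pos hC0 hT0).le
    nlinarith
  obtain ⟨η, hη⟩ : ∃ η : ℝ, η = δ + θ ^ n * ρ := ⟨_, rfl⟩
  rw [← hη]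
  have hθn : 0 ≤ θ ^ n := pow_nonneg hθ0 n
  have hη0 : 0 ≤ η := by rw [hη]; positivity
  have hCη : 0 ≤ C * η := by positivity
  intro k
  induction k with
  | zero =>
    intro i h1 h2
    obtain ⟨b1, b2, b3⟩ := hsz i (by omega) h2
    simp only [pow_zero, div_one]
    exact ⟨by linarith, by linarith, fun h hh1 hh2 => by have := b3 h hh1 hh2; linarith⟩
  | succ k ih =>
    intro i h1 h2
    obtain ⟨sk, hsk⟩ : ∃ sk : ℝ, sk = ρ / 4 ^ k + 3 * C * η := ⟨_, rfl⟩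
    rw [← hsk] at ih
    obtain ⟨s, hs⟩ : ∃ s : ℝ, s = min sk ρ := ⟨_, rfl⟩
    have hsk0 : 0 < sk := by rw [hsk]; positivity
    have hs0 : 0 < s := by rw [hs]; exact lt_min hsk0 hρ
    have hsρ : s ≤ ρ := by rw [hs]; exact min_le_right _ _
    have hssk : s ≤ sk := by rw [hs]; exact min_le_left _ _
    have hall : ∀ j, i0 + k * n ≤ j → j ≤ i1 →
        a j ≤ s ∧ q j ≤ s ∧ ∀ h, j ≤ h → h ≤ M → τ h j ≤ s := by
      intro j hj1 hj2
      obtain ⟨b1, b2, b3⟩ := hsz j (by omega) hj2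
      obtain ⟨c1, c2, c3⟩ := ih j hj1 hj2
      rw [hs]
      exact ⟨le_min c1 b1, le_min c2 b2, fun h hh1 hh2 => le_min (c3 h hh1 hh2) (b3 h hh1 hh2)⟩
    have hkn : (k + 1) * n = k * n + n := by ring
    obtain ⟨j0, hj0⟩ : ∃ j0, i = j0 + n := ⟨i - n, by omega⟩
    have hj0m : i0 + k * n ≤ j0 := by omega
    have hcs : 0 ≤ C * s ^ 2 := by positivity
    obtain ⟨g, hg⟩ : ∃ g : ℝ, g = θ ^ n * s + C * s ^ 2 * T := ⟨_, rfl⟩
    have Q : q i ≤ g := by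
      rw [hj0, hg]
      refine decay_iter θ (C * s ^ 2) s T hθ0 hTe hcs hT0.le q j0 n (hall j0 hj0m (by omega)).2.1
        fun l hl => ?_
      have e1 := Rq (j0 + l) (by omega) (by omega)
      have e2 := (hall (j0 + l) (by omega) (by omega)).1
      have e3 := mul_le_mul_of_nonneg_left (pow_le_pow_left₀ (hnn (j0 + l)).1 e2 2) hC0.le
      linarith
    have Tt : ∀ h, i ≤ h → h ≤ M → τ h i ≤ g := by
      intro h hh1 hh2
      rw [hj0, hg]
      refine decay_iter θ (C * s ^ 2) s T hθ0 hTe hcs hT0.le (τ h) j0 n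
        ((hall j0 hj0m (by omega)).2.2 h (by omega) hh2) fun l hl => ?_
      have e1 := Rτ h (j0 + l) (by omega) (by omega) (by omega) hh2
      obtain ⟨e2, e3, e4⟩ := hall (j0 + l) (by omega) (by omega)
      have e5 := mul_le_mul_of_nonneg_left
        (exit_sq3 (hnn (j0 + l)).1 e2 e3 (e4 h (by omega) hh2)) hC0.le
      linarith
    obtain ⟨f1, f2, f3⟩ := hall i (by omega) h2
    have A : a i ≤ C * (δ + 2 * g + s ^ 2) := by
      have e1 := Rd i (by omega) h2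
      have e2 := exit_sq3 (hnn i).1 f1 f2 (f3 i le_rfl (by omega))
      have e3 := Tt i le_rfl (by omega)
      refine e1.trans (mul_le_mul_of_nonneg_left ?_ hC0.le)
      linarith
    -- numerical bounds
    have n1 : θ ^ n * s ≤ θ ^ n * ρ := mul_le_mul_of_nonneg_left hsρ hθn
    have n2 : L * s * s ≤ 1 / 4 * s := by
      refine mul_le_mul_of_nonneg_right ?_ hs0.le
      exact (mul_le_mul_of_nonneg_left hsρ hL0.le).trans hLρ
    have n3 : C * T * s * s ≤ L * s * s := by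
      refine mul_le_mul_of_nonneg_right (mul_le_mul_of_nonneg_right hCTL hs0.le) hs0.le
    have n4 : θ ^ n * ρ ≤ η := by rw [hη]; linarith
    have n5 : η ≤ C * η := le_mul_of_one_le_left hη0 hC
    have G1 : g ≤ s / 4 + 2 * (C * η) := by
      have : g = θ ^ n * s + C * T * s * s := by rw [hg]; ring
      rw [this]
      linarith
    have G2 : C * (δ + 2 * g + s ^ 2) ≤ s / 4 + 2 * (C * η) := by
      have e1 : C * (δ + 2 * g + s ^ 2) = C * δ + 2 * (C * (θ ^ n * s)) + L * s * s := by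
        rw [hg, hL]; ring
      have e2 : C * (θ ^ n * s) ≤ C * (θ ^ n * ρ) := mul_le_mul_of_nonneg_left n1 hC0.le
      have e3 : C * η = C * δ + C * (θ ^ n * ρ) := by rw [hη]; ring
      have e4 : 0 ≤ C * δ := by positivity
      rw [e1]
      linarith
    have fin : s / 4 + 2 * (C * η) ≤ ρ / 4 ^ (k + 1) + 3 * C * η := by
      have e1 : ρ / 4 ^ (k + 1) = ρ / 4 ^ k / 4 := by rw [pow_succ, div_mul_eq_div_div]
      rw [e1]
      rw [hsk] at hssk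
      linarith
    exact ⟨(A.trans G2).trans fin, (Q.trans G1).trans fin,
      fun h hh1 hh2 => ((Tt h hh1 hh2).trans G1).trans fin⟩

end Claimed.Agent.R285.F5

/-!
# ROW 285, [F] s5.3 in SCALAR form: the inequalities of ONE history on a window of absolute indices.  DEFINITIONS.  Paper-free.     (owner helper94)

`x j, y j` : the real normal scalars; `e j, o j` : norms of the even / odd transverse plane remainder; `E h j` : even torus remainder behind the stop `h` MINUS the pure Gaussian remainder at the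
moving parameter `x j`; `O h j` : odd torus remainder; `P h` : the cutoff mean phase at the stop `h`.  Stages `a ≤ j ≤ b`, stops `j ≤ h ≤ hm`.  `δ` : size of the tube on the window.
The rows are slightly WEAKER than [F] (trj:u-map)-(trj:odd-map) (`|y|` instead of `y²` in some factors: enough for s5.4, and provable by iterated Schwarz lemmas only); the quadratic
coefficients are `1` up to the relative error `j⁻²` of `Flow.eord`.  What must NOT be weakened: in the `u`-row the odd remainder `o` is multiplied by `|y| + o` only (parity), `e` by a small factor.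
Producer: `F5/WinOf.lean` (from `Flow.SysOK` + tube).  Consumer: `F5/ScMaster.lean`.
-/

set_option autoImplicit false

namespace Claimed.Agent.R285.F5

/-- [F] (trj:u-map)-(trj:odd-map), (trj:torus-odd-convolution) and the two local comparisons in the proof of (trj:moving-torus), terminal phase bound -/
structure WinOK (C θ δ : ℝ) (a b hm : ℕ) (x y e o : ℕ → ℝ) (E O : ℕ → ℕ → ℝ) (P : ℕ → ℝ) : Prop where
  hb : b ≤ hm
  e0 : ∀ j, 0 ≤ e j
  o0 : ∀ j, 0 ≤ o j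
  E0 : ∀ h j, 0 ≤ E h j
  O0 : ∀ h j, 0 ≤ O h j
  tube : ∀ j, a ≤ j → j ≤ b → |x j| ≤ δ ∧ |y j| ≤ δ ∧ e j ≤ δ ∧ o j ≤ δ
  tubeT : ∀ h j, a ≤ j → j ≤ b → j ≤ h → h ≤ hm → E h j ≤ δ ∧ O h j ≤ δ
  u_map : ∀ j, a ≤ j → j < b → |x (j + 1) - x j + y j ^ 2|
    ≤ C * (y j ^ 2 / (j : ℝ) ^ 2 + (|x j| + |y j| + e j) * (y j ^ 2 + e j) + o j * (|y j| + o j))
  z_map : ∀ j, a ≤ j → j < b → |y (j + 1) - y j + x j * y j|
    ≤ C * (|x j| * |y j| / (j : ℝ) ^ 2 + (x j ^ 2 + y j ^ 2 + e j) * |y j| + (|x j| + |y j| + e j + o j) * o j)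
  e_map : ∀ j, a ≤ j → j < b → e (j + 1) ≤ θ * e j + C * (|y j| + o j) ^ 2
  o_map : ∀ j, a ≤ j → j < b → o (j + 1) ≤ θ * o j + C * (|x j| + |y j| + e j) * |y j|
  O_map : ∀ h j, a ≤ j → j < b → j < h → h ≤ hm →
    O h (j + 1) ≤ θ * O h j + C * (|x j| + |y j| + e j + o j + E h j) * (|y j| + o j)
  E_map : ∀ h j, a ≤ j → j < b → j < h → h ≤ hm →
    E h (j + 1) ≤ θ * E h j + C * (e j + (|y j| + o j + O h j) ^ 2 + |x (j + 1) - x j|)
  P_up : ∀ h, a ≤ h → h ≤ b → |P h| ≤ C * (|y h| + o h + O h h)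

/-- the odd cone (with `ε = 1`) -/
def InCone (y o : ℕ → ℝ) (j : ℕ) : Prop := 0 < |y j| ∧ o j ≤ |y j|

end Claimed.Agent.R285.F5

/-!
# ROW 285, [F] L5.6 / L5.7 in scalar form, leaf SC-2: the generic CONVOLUTION lemma (as a plain induction).  Paper-free, abstract.     (contract helper94)

`Y` varies slowly (`r Y_j ≤ Y_{j+1}`, `r³ ≥ (1 + θ) / 2`), `X` drifts by `K Y²`, and `v_{j+1} ≤ θ v_j + A X_j Y_j + B Y_j^p`, `p ∈ {1, 2, 3}`.  Then
`v_j ≤ θ^{j-a} v_a + A' X_j Y_j + B' Y_j^p`, `A' = 2 A / (1 - θ)`, `B' = 2 ((θ A' + A) K + B) / (1 - θ)`.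
Induction step: `v_{j+1} ≤ θ hom_j + (θ A' + A) X_j Y_j + (θ B' + B) Y_j^p`; `X_j ≤ X_{j+1} + K Y_j²`; `Y_j³ ≤ Y_j^p` (`Y_j ≤ 1`); `Y_j ≤ Y_{j+1} / r`; `(θ A' + A) / r ≤ A'` as `r - θ ≥ (1 - θ)/2`;
`((θ A' + A) K + θ B' + B) / r^p ≤ B'` as `r^p - θ ≥ r³ - θ ≥ (1 - θ)/2`.
-/

set_option autoImplicit false

namespace Claimed.Agent.R285.F5

theorem conv_gen (θ r K A B : ℝ) (p : ℕ) (hp1 : 1 ≤ p) (hp3 : p ≤ 3) (hθ0 : 0 ≤ θ) (hθ : θ < 1) (hr : (1 + θ) / 2 ≤ r ^ 3) (hr0 : 0 < r) (hr1 : r ≤ 1)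
    (hK : 0 ≤ K) (hA : 0 ≤ A) (hB : 0 ≤ B) (a b : ℕ) (v X Y : ℕ → ℝ)
    (hY0 : ∀ j, a ≤ j → j ≤ b → 0 < Y j ∧ Y j ≤ 1) (hX0 : ∀ j, a ≤ j → j ≤ b → 0 ≤ X j)
    (hY : ∀ j, a ≤ j → j < b → r * Y j ≤ Y (j + 1))
    (hX : ∀ j, a ≤ j → j < b → X j ≤ X (j + 1) + K * Y j ^ 2)
    (hv : ∀ j, a ≤ j → j < b → v (j + 1) ≤ θ * v j + A * X j * Y j + B * Y j ^ p) :
    ∀ j, a ≤ j → j ≤ b →
      v j ≤ θ ^ (j - a) * v a + 2 * A / (1 - θ) * X j * Y j
        + 2 * ((θ * (2 * A / (1 - θ)) + A) * K + B) / (1 - θ) * Y j ^ p := by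
  have h1θ : 0 < 1 - θ := by linarith
  obtain ⟨A', hA'⟩ : ∃ A' : ℝ, A' = 2 * A / (1 - θ) := ⟨_, rfl⟩
  rw [← hA']
  obtain ⟨D, hD⟩ : ∃ D : ℝ, D = (θ * A' + A) * K + B := ⟨_, rfl⟩
  rw [← hD]
  obtain ⟨B', hB'⟩ : ∃ B' : ℝ, B' = 2 * D / (1 - θ) := ⟨_, rfl⟩
  rw [← hB']
  have hA'0 : 0 ≤ A' := by rw [hA']; positivity
  have hA'e : (1 - θ) * A' = 2 * A := by rw [hA']; field_simp
  have hD0 : 0 ≤ D := by rw [hD]; positivity
  have hB'0 : 0 ≤ B' := by rw [hB']; positivity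
  have hB'e : (1 - θ) * B' = 2 * D := by rw [hB']; field_simp
  have hrp : r ^ 3 ≤ r ^ p := pow_le_pow_of_le_one hr0.le hr1 hp3
  have hr3 : r ^ 3 ≤ r := by
    calc r ^ 3 ≤ r ^ 1 := pow_le_pow_of_le_one hr0.le hr1 (by norm_num)
      _ = r := pow_one r
  -- the two key inequalities
  have k1 : θ * A' + A ≤ r * A' := by
    have : (1 - θ) / 2 * A' ≤ (r - θ) * A' := mul_le_mul_of_nonneg_right (by linarith) hA'0
    nlinarith
  have k2 : D + θ * B' ≤ r ^ p * B' := by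
    have : (1 - θ) / 2 * B' ≤ (r ^ p - θ) * B' := mul_le_mul_of_nonneg_right (by linarith) hB'0
    nlinarith
  intro j hj
  induction j, hj using Nat.le_induction with
  | base =>
    intro hab
    obtain ⟨hy0, -⟩ := hY0 a le_rfl hab
    have hx0 := hX0 a le_rfl hab
    have h1 : 0 ≤ A' * X a * Y a := by positivity
    have h2 : 0 ≤ B' * Y a ^ p := by positivity
    simp only [Nat.sub_self, pow_zero, one_mul]
    linarith
  | succ j hj ih =>
    intro hjb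
    have hjb' : j < b := hjb
    have ih' := ih hjb'.le
    obtain ⟨hy0, hy1⟩ := hY0 j hj hjb'.le
    obtain ⟨hy0', -⟩ := hY0 (j + 1) (by omega) hjb
    have hx0 := hX0 j hj hjb'.le
    have hx0' := hX0 (j + 1) (by omega) hjb
    have e1 := hY j hj hjb'
    have e2 := hX j hj hjb'
    have e3 := hv j hj hjb'
    have hpow : θ ^ (j + 1 - a) = θ * θ ^ (j - a) := by
      rw [Nat.succ_sub hj, pow_succ]; ring
    rw [hpow]
    obtain ⟨y, hy⟩ : ∃ y, y = Y j := ⟨_, rfl⟩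
    obtain ⟨y', hy'⟩ : ∃ y', y' = Y (j + 1) := ⟨_, rfl⟩
    obtain ⟨x, hx⟩ : ∃ x, x = X j := ⟨_, rfl⟩
    obtain ⟨x', hx'⟩ : ∃ x', x' = X (j + 1) := ⟨_, rfl⟩
    simp only [← hy, ← hx, ← hy', ← hx'] at ih' e3 e2 hy0 hy1 hx0 e1 hy0' hx0' ⊢
    have hc0 : 0 ≤ θ * A' + A := by positivity
    have s0 : θ * v j ≤ θ * (θ ^ (j - a) * v a + A' * x * y + B' * y ^ p) :=
      mul_le_mul_of_nonneg_left ih' hθ0
    -- `(θ A' + A) x y ≤ A' x' y' + (θ A' + A) K y ^ p`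
    have s1 : (θ * A' + A) * (x * y) ≤ (θ * A' + A) * ((x' + K * y ^ 2) * y) :=
      mul_le_mul_of_nonneg_left (mul_le_mul_of_nonneg_right e2 hy0.le) hc0
    have s2 : (θ * A' + A) * (x' * y) ≤ A' * x' * y' := by
      calc (θ * A' + A) * (x' * y) ≤ (r * A') * (x' * y) :=
            mul_le_mul_of_nonneg_right k1 (by positivity)
        _ = A' * x' * (r * y) := by ring
        _ ≤ A' * x' * y' := mul_le_mul_of_nonneg_left e1 (by positivity)
    have s3 : y ^ 3 ≤ y ^ p := pow_le_pow_of_le_one hy0.le hy1 hp3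
    have s4 : (θ * A' + A) * K * y ^ 3 ≤ (θ * A' + A) * K * y ^ p :=
      mul_le_mul_of_nonneg_left s3 (by positivity)
    have s5 : (D + θ * B') * y ^ p ≤ B' * y' ^ p := by
      calc (D + θ * B') * y ^ p ≤ (r ^ p * B') * y ^ p :=
            mul_le_mul_of_nonneg_right k2 (by positivity)
        _ = B' * (r * y) ^ p := by rw [mul_pow]; ring
        _ ≤ B' * y' ^ p :=
            mul_le_mul_of_nonneg_left (pow_le_pow_left₀ (by positivity) e1 p) hB'0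
    have s6 : (D + θ * B') * y ^ p = (θ * A' + A) * K * y ^ p + B * y ^ p + θ * (B' * y ^ p) := by
      rw [hD]; ring
    have s7 : (θ * A' + A) * ((x' + K * y ^ 2) * y) =
        (θ * A' + A) * (x' * y) + (θ * A' + A) * K * y ^ 3 := by ring
    have s8 : θ * (θ ^ (j - a) * v a + A' * x * y + B' * y ^ p) + A * x * y =
        θ * θ ^ (j - a) * v a + (θ * A' + A) * (x * y) + θ * (B' * y ^ p) := by ring
    linarith

end Claimed.Agent.R285.F5

/-!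
# ROW 285, [F] L5.6 in scalar form, leaf SC-1: invariance of the odd cone, geometric decay outside.  Paper-free.     (contract helper94)

`cone_step`.  `δ0 = (1 - θ) / (32 C)` (`≤ 1`).  In the cone (`o ≤ Y = |y|`): `|y₊ - y| ≤ δ Y + C (δ Y + 3 δ Y + 4 δ o) ≤ 9 C δ Y` (`1 / j² ≤ 1`, also for `j = 0` in Lean); `o₊ ≤ θ o + 3 C δ Y ≤ (θ + 3 C δ) Y ≤ (1 - 9 C δ) Y ≤ Y₊`.
Outside (`Y = 0` or `Y < o`, so `Y ≤ o`): `o₊ ≤ (θ + 3 C δ) o ≤ θ1 o`, `θ1 = (1 + θ) / 2`.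
`cone_out`.  Fix the stop `h`.  `L_j = O h j + A o_j`, `A = 4 C / (1 - θ1)`.  `O_map` with `(…) ≤ 5 δ ≤ 1` gives `O h (j+1) ≤ θ O h j + 2 C o_j`, so `L_{j+1} ≤ θ2 L_j`, `θ2 = (1 + θ1) / 2`; `L_a ≤ (1 + A) δ`;
`|P h| ≤ C (2 o_h + O h h) ≤ C L_h`.
-/

set_option autoImplicit false

namespace Claimed.Agent.R285.F5

/-- `a / j² ≤ a` for `a ≥ 0` (also for `j = 0`) -/
theorem sc_div_sq_le {a : ℝ} (ha : 0 ≤ a) (j : ℕ) : a / (j : ℝ) ^ 2 ≤ a := by
  rcases Nat.eq_zero_or_pos j with rfl | hj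
  · simpa using ha
  · have h1 : (1 : ℝ) ≤ (j : ℝ) := by exact_mod_cast hj
    have h2 : (1 : ℝ) ≤ (j : ℝ) ^ 2 := by nlinarith
    exact div_le_self ha h2

theorem cone_step (C θ : ℝ) (hC : 1 ≤ C) (hθ0 : 0 ≤ θ) (hθ : θ < 1) : ∃ δ0 : ℝ, 0 < δ0 ∧ δ0 ≤ 1 ∧ 32 * C * δ0 ≤ 1 - θ ∧
    ∀ (δ : ℝ) (a b hm : ℕ) (x y e o : ℕ → ℝ) (E O : ℕ → ℕ → ℝ) (P : ℕ → ℝ),
      WinOK C θ δ a b hm x y e o E O P → δ ≤ δ0 → ∀ j, a ≤ j → j < b →
        (InCone y o j → InCone y o (j + 1) ∧ |y (j + 1) - y j| ≤ 9 * C * δ * |y j|) ∧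
        (¬ InCone y o j → |y j| ≤ o j ∧ o (j + 1) ≤ (1 + θ) / 2 * o j) := by
  have h1θ : 0 < 1 - θ := by linarith
  have hC0 : 0 < C := by linarith
  refine ⟨(1 - θ) / (32 * C), by positivity, ?_, ?_, ?_⟩
  · rw [div_le_one (by positivity)]
    linarith
  · have : 32 * C * ((1 - θ) / (32 * C)) = 1 - θ := by field_simp
    linarith
  intro δ a b hm x y e o E O P hW hδ j haj hjb
  have hδC : 32 * C * δ ≤ 1 - θ := by
    have : 32 * C * δ ≤ 32 * C * ((1 - θ) / (32 * C)) :=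
      mul_le_mul_of_nonneg_left hδ (by positivity)
    have e : 32 * C * ((1 - θ) / (32 * C)) = 1 - θ := by field_simp
    linarith
  obtain ⟨tx, ty, te, tO⟩ := hW.tube j haj hjb.le
  have hδ0 : 0 ≤ δ := (abs_nonneg _).trans tx
  have hδ1 : δ ≤ 1 := by nlinarith
  have he0 := hW.e0 j
  have ho0 := hW.o0 j
  set Y := |y j| with hY
  set X := |x j| with hX
  have hY0 : 0 ≤ Y := abs_nonneg _
  have hX0 : 0 ≤ X := abs_nonneg _
  have hCδ : 0 ≤ C * δ := by positivity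
  have hom := hW.o_map j haj hjb
  -- `o₊ ≤ θ o + 3 C δ Y`
  have ho1 : o (j + 1) ≤ θ * o j + 3 * (C * δ) * Y := by
    have : C * (X + Y + e j) * Y ≤ C * (3 * δ) * Y := by
      refine mul_le_mul_of_nonneg_right ?_ hY0
      exact mul_le_mul_of_nonneg_left (by linarith) hC0.le
    linarith
  constructor
  · rintro ⟨hYpos, hoY⟩
    have hz := hW.z_map j haj hjb
    have b1 : X * Y / (j : ℝ) ^ 2 ≤ δ * Y :=
      (sc_div_sq_le (by positivity) j).trans (mul_le_mul_of_nonneg_right tx hY0)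
    have hx2 : x j ^ 2 ≤ δ := by
      rw [← sq_abs]
      nlinarith
    have hy2 : y j ^ 2 ≤ δ := by
      rw [← sq_abs]
      nlinarith
    have b2 : (x j ^ 2 + y j ^ 2 + e j) * Y ≤ 3 * δ * Y :=
      mul_le_mul_of_nonneg_right (by linarith) hY0
    have b3 : (X + Y + e j + o j) * o j ≤ 4 * δ * Y := by
      calc (X + Y + e j + o j) * o j ≤ (4 * δ) * o j :=
            mul_le_mul_of_nonneg_right (by linarith) ho0
        _ ≤ 4 * δ * Y := mul_le_mul_of_nonneg_left hoY (by positivity)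
    have b4 : |y (j + 1) - y j + x j * y j| ≤ C * (8 * δ * Y) :=
      hz.trans (mul_le_mul_of_nonneg_left (by linarith) hC0.le)
    have b5 : |x j * y j| ≤ δ * Y := by
      rw [abs_mul]
      exact mul_le_mul_of_nonneg_right tx hY0
    have hdy : |y (j + 1) - y j| ≤ 9 * C * δ * Y := by
      have e1 : y (j + 1) - y j = (y (j + 1) - y j + x j * y j) - x j * y j := by ring
      rw [e1]
      refine (abs_sub _ _).trans ?_
      have : δ * Y ≤ C * (δ * Y) := le_mul_of_one_le_left (by positivity) hC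
      nlinarith
    have hY1 : Y - 9 * C * δ * Y ≤ |y (j + 1)| := by
      have e1 : y j = y (j + 1) - (y (j + 1) - y j) := by ring
      have : Y ≤ |y (j + 1)| + |y (j + 1) - y j| := by
        rw [hY]
        nth_rewrite 1 [e1]
        exact abs_sub _ _
      linarith
    refine ⟨⟨?_, ?_⟩, hdy⟩
    · refine lt_of_lt_of_le ?_ hY1
      have : 9 * C * δ * Y < 1 * Y := by
        refine mul_lt_mul_of_pos_right ?_ hYpos
        linarith
      linarith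
    · refine le_trans ?_ hY1
      have c1 : θ * o j ≤ θ * Y := mul_le_mul_of_nonneg_left hoY hθ0
      have c2 : (12 * (C * δ)) * Y ≤ (1 - θ) * Y :=
        mul_le_mul_of_nonneg_right (by linarith) hY0
      linarith
  · intro hn
    have hYo : Y ≤ o j := by
      by_contra hcon
      push Not at hcon
      exact hn ⟨lt_of_le_of_lt ho0 hcon, hcon.le⟩
    refine ⟨hYo, ?_⟩
    have c1 : 3 * (C * δ) * Y ≤ 3 * (C * δ) * o j := mul_le_mul_of_nonneg_left hYo (by positivity)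
    have c2 : (6 * (C * δ)) * o j ≤ (1 - θ) * o j :=
      mul_le_mul_of_nonneg_right (by linarith) ho0
    linarith

theorem cone_out (C θ : ℝ) (hC : 1 ≤ C) (hθ0 : 0 ≤ θ) (hθ : θ < 1) : ∃ δ0 K : ℝ, 0 < δ0 ∧ 1 ≤ K ∧
    ∀ (δ : ℝ) (a b hm : ℕ) (x y e o : ℕ → ℝ) (E O : ℕ → ℕ → ℝ) (P : ℕ → ℝ),
      WinOK C θ δ a b hm x y e o E O P → δ ≤ δ0 → ∀ h, a ≤ h → h ≤ b →
        (∀ j, a ≤ j → j ≤ h → ¬ InCone y o j) → |P h| ≤ K * δ * ((3 + θ) / 4) ^ (h - a) := by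
  obtain ⟨δ1, hδ1pos, hδ11, _, hstep⟩ := cone_step C θ hC hθ0 hθ
  have h1θ : 0 < 1 - θ := by linarith
  have hC0 : 0 < C := by linarith
  set A : ℝ := 8 * C / (1 - θ) with hA
  have hA8 : 8 ≤ A := by
    rw [hA, le_div_iff₀ h1θ]
    nlinarith
  have hAθ : A * (1 - θ) = 8 * C := by
    rw [hA]
    field_simp
  refine ⟨min δ1 (1 / 5), C * (1 + A), lt_min hδ1pos (by norm_num), by nlinarith, ?_⟩
  intro δ a b hm x y e o E O P hW hδ h hah hhb hout
  have hδ1 : δ ≤ δ1 := hδ.trans (min_le_left _ _)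
  have hδ5 : 5 * δ ≤ 1 := by
    have := hδ.trans (min_le_right _ _)
    linarith
  have hhm : h ≤ hm := hhb.trans hW.hb
  -- decay of the Lyapunov function
  have key : ∀ n, a + n ≤ h → O h (a + n) + A * o (a + n) ≤ ((3 + θ) / 4) ^ n * ((1 + A) * δ) := by
    intro n
    induction n with
    | zero =>
      intro _
      have t1 := (hW.tube a le_rfl (hah.trans hhb)).2.2.2
      have t2 := (hW.tubeT h a le_rfl (hah.trans hhb) hah hhm).2
      simp only [add_zero, pow_zero, one_mul]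
      nlinarith
    | succ n ih =>
      intro hn
      have hj1 : a ≤ a + n := Nat.le_add_right _ _
      have hj2 : a + n < h := by omega
      have hj3 : a + n < b := lt_of_lt_of_le hj2 hhb
      have ih' := ih hj2.le
      obtain ⟨hYo, ho1⟩ := (hstep δ a b hm x y e o E O P hW hδ1 (a + n) hj1 hj3).2
        (hout (a + n) hj1 hj2.le)
      obtain ⟨tx, ty, te, tO⟩ := hW.tube (a + n) hj1 hj3.le
      have tE := (hW.tubeT h (a + n) hj1 hj3.le hj2.le hhm).1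
      have hOm := hW.O_map h (a + n) hj1 hj3 hj2 hhm
      have ho0 := hW.o0 (a + n)
      have hO0 := hW.O0 h (a + n)
      have hY0 : 0 ≤ |y (a + n)| := abs_nonneg _
      have c1 : C * (|x (a + n)| + |y (a + n)| + e (a + n) + o (a + n) + E h (a + n))
          * (|y (a + n)| + o (a + n)) ≤ C * 1 * (2 * o (a + n)) := by
        refine mul_le_mul (mul_le_mul_of_nonneg_left (by linarith) hC0.le) (by linarith)
          (by positivity) (by positivity)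
      have e1 : a + (n + 1) = a + n + 1 := by ring
      rw [e1, pow_succ]
      have c2 : O h (a + n + 1) + A * o (a + n + 1)
          ≤ (3 + θ) / 4 * (O h (a + n) + A * o (a + n)) := by
        have d1 : A * o (a + n + 1) ≤ A * ((1 + θ) / 2 * o (a + n)) :=
          mul_le_mul_of_nonneg_left ho1 (by linarith)
        have d2 : θ * O h (a + n) ≤ (3 + θ) / 4 * O h (a + n) :=
          mul_le_mul_of_nonneg_right (by linarith) hO0
        have d3 : 2 * C * o (a + n) = A * (1 - θ) / 4 * o (a + n) := by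
          rw [hAθ]
          ring
        nlinarith
      have c3 : (3 + θ) / 4 * (O h (a + n) + A * o (a + n))
          ≤ (3 + θ) / 4 * (((3 + θ) / 4) ^ n * ((1 + A) * δ)) :=
        mul_le_mul_of_nonneg_left ih' (by linarith)
      calc O h (a + n + 1) + A * o (a + n + 1) ≤ _ := c2
        _ ≤ _ := c3
        _ = ((3 + θ) / 4) ^ n * ((3 + θ) / 4) * ((1 + A) * δ) := by ring
  have hk := key (h - a) (by omega)
  have eh : a + (h - a) = h := by omega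
  rw [eh] at hk
  have hP := hW.P_up h hah hhb
  have hYo : |y h| ≤ o h := by
    by_contra hcon
    push Not at hcon
    exact hout h hah le_rfl ⟨lt_of_le_of_lt (hW.o0 h) hcon, hcon.le⟩
  have ho0 := hW.o0 h
  have c1 : |y h| + o h + O h h ≤ O h h + A * o h := by nlinarith
  calc |P h| ≤ C * (|y h| + o h + O h h) := hP
    _ ≤ C * (((3 + θ) / 4) ^ (h - a) * ((1 + A) * δ)) :=
      mul_le_mul_of_nonneg_left (c1.trans hk) hC0.le
    _ = C * (1 + A) * δ * ((3 + θ) / 4) ^ (h - a) := by ring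

end Claimed.Agent.R285.F5

/-!
# ROW 285, [F] L5.6 + (trj:moving-torus) in scalar form, leaf SC-3: the MASTER theorem on one window.  Paper-free.     (contract helper94)

`π` : lower bound of the phase on the window; `ℓ` : length of each of the four preparatory stretches; `θ2 = (3 + θ) / 4`.  Write `Y = |y|`.
* Stage 1, `[a, a+ℓ]`: if the cone were never entered, `cone_out` at `h = a + ℓ` gives `π ≤ K δ θ2^ℓ ≤ K δ0 c0 π³ < π`.  By `cone_step` the cone holds on `[a+ℓ, b]`, with `|y₊ - y| ≤ 9 C δ Y`: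
  `r = 1 - 9 C δ0`, and `δ0` so small that `r³ ≥ (1 + θ)/2`.
* Stage 2, from `a+ℓ`: `conv_gen` (`p = 1`, `A = 0`) for `O h ·` (`O_map` with `(…) ≤ 1`, `o ≤ Y`): `O h j ≤ θ^{j-a-ℓ} δ + K3 Y_j`.  `P_up`: `π ≤ C (2 + K3) Y_h + C δ θ^{h-a-ℓ}`, so `Y_h ≥ c0' π` for `h ≥ a+2ℓ`.
  `conv_gen` (`p = 2`, `A = 0`) for `e`: `e_j ≤ θ^{j-a-ℓ} δ + K4 Y_j²`.  For `j ≥ a+2ℓ` every homogeneous term is `≤ θ2^ℓ ≤ c0 π³ ≤ Y_j³` (`c0 ≤ c0'³`).
* Stage 3, from `a+2ℓ`: `u_map` gives `|x₊ - x| ≤ K5 Y²`; `conv_gen` (`p = 2`, `X = |x|`) for `o`; `conv_gen` (`p = 2`, `A = 0`) for `E h ·`.  Homogeneous terms absorbed for `j ≥ a+3ℓ`.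
* Stage 4, from `a+3ℓ`: `conv_gen` (`p = 2`, `X = |x|`) for `O h ·` with the full `O_map`.  Absorbed for `j ≥ a+4ℓ`.
-/

set_option autoImplicit false

namespace Claimed.Agent.R285.F5

/-! ### restriction of the window, parameters -/

theorem WinOK.mono_left {C θ δ : ℝ} {a a' b hm : ℕ} {x y e o : ℕ → ℝ} {E O : ℕ → ℕ → ℝ} {P : ℕ → ℝ}
    (h : WinOK C θ δ a b hm x y e o E O P) (ha : a ≤ a') : WinOK C θ δ a' b hm x y e o E O P where
  hb := h.hb
  e0 := h.e0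
  o0 := h.o0
  E0 := h.E0
  O0 := h.O0
  tube := fun j h1 h2 => h.tube j (ha.trans h1) h2
  tubeT := fun s j h1 h2 h3 h4 => h.tubeT s j (ha.trans h1) h2 h3 h4
  u_map := fun j h1 h2 => h.u_map j (ha.trans h1) h2
  z_map := fun j h1 h2 => h.z_map j (ha.trans h1) h2
  e_map := fun j h1 h2 => h.e_map j (ha.trans h1) h2
  o_map := fun j h1 h2 => h.o_map j (ha.trans h1) h2
  O_map := fun s j h1 h2 h3 h4 => h.O_map s j (ha.trans h1) h2 h3 h4
  E_map := fun s j h1 h2 h3 h4 => h.E_map s j (ha.trans h1) h2 h3 h4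
  P_up := fun s h1 h2 => h.P_up s (ha.trans h1) h2

/-- the standing parameters -/
structure ScPar (C θ δ r : ℝ) : Prop where
  hC : 1 ≤ C
  hθ0 : 0 ≤ θ
  hθ : θ < 1
  hr : (1 + θ) / 2 ≤ r ^ 3
  hr0 : 0 < r
  hr1 : r ≤ 1
  hδ : 5 * δ ≤ 1

/-- the cone holds on the window and `|y|` varies slowly -/
structure ScSlow (r : ℝ) (a b : ℕ) (y o : ℕ → ℝ) : Prop where
  cone : ∀ j, a ≤ j → j ≤ b → 0 < |y j| ∧ o j ≤ |y j|
  slow : ∀ j, a ≤ j → j < b → r * |y j| ≤ |y (j + 1)|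

theorem ScSlow.mono_left {r : ℝ} {a a' b : ℕ} {y o : ℕ → ℝ} (h : ScSlow r a b y o) (ha : a ≤ a') :
    ScSlow r a' b y o :=
  ⟨fun j h1 h2 => h.cone j (ha.trans h1) h2, fun j h1 h2 => h.slow j (ha.trans h1) h2⟩

/-- `conv_gen` with `A = 0` -/
theorem sc_conv0 (θ r B : ℝ) (p : ℕ) (hp1 : 1 ≤ p) (hp3 : p ≤ 3) (hθ0 : 0 ≤ θ) (hθ : θ < 1)
    (hr : (1 + θ) / 2 ≤ r ^ 3) (hr0 : 0 < r) (hr1 : r ≤ 1) (hB : 0 ≤ B) (a b : ℕ) (v Y : ℕ → ℝ)
    (hY0 : ∀ j, a ≤ j → j ≤ b → 0 < Y j ∧ Y j ≤ 1)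
    (hY : ∀ j, a ≤ j → j < b → r * Y j ≤ Y (j + 1))
    (hv : ∀ j, a ≤ j → j < b → v (j + 1) ≤ θ * v j + B * Y j ^ p) :
    ∀ j, a ≤ j → j ≤ b → v j ≤ θ ^ (j - a) * v a + 2 * B / (1 - θ) * Y j ^ p := by
  intro j h1 h2
  have := conv_gen θ r 0 0 B p hp1 hp3 hθ0 hθ hr hr0 hr1 le_rfl le_rfl hB a b v (fun _ => 0) Y hY0
    (fun _ _ _ => le_rfl) hY (fun i _ _ => by simp) (fun i g1 g2 => by simpa using hv i g1 g2) j h1 h2
  simpa using this

section stages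

variable {C θ δ r : ℝ} {a b hm : ℕ} {x y e o : ℕ → ℝ} {E O : ℕ → ℕ → ℝ} {P : ℕ → ℝ}

theorem sc_Y_le_one (hp : ScPar C θ δ r) (hW : WinOK C θ δ a b hm x y e o E O P) {i : ℕ}
    (h1 : a ≤ i) (h2 : i ≤ b) : |y i| ≤ 1 := by
  have := (hW.tube i h1 h2).2.1
  linarith [hp.hδ]

/-- Stage 2: crude bound of the odd torus remainder -/
theorem sc_O1 (hp : ScPar C θ δ r) (hW : WinOK C θ δ a b hm x y e o E O P) (hS : ScSlow r a b y o) :
    ∀ j h, a ≤ j → j ≤ b → j ≤ h → h ≤ hm →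
      O h j ≤ θ ^ (j - a) * δ + 4 * C / (1 - θ) * |y j| := by
  intro j h haj hjb hjh hhm
  have hC0 : 0 ≤ C := by linarith [hp.hC]
  have hrec : ∀ i, a ≤ i → i < j → O h (i + 1) ≤ θ * O h i + 2 * C * |y i| ^ 1 := by
    intro i g1 g2
    have gb : i < b := g2.trans_le hjb
    have gh : i < h := g2.trans_le hjh
    obtain ⟨tx, ty, te, tO⟩ := hW.tube i g1 gb.le
    have tE := (hW.tubeT h i g1 gb.le gh.le hhm).1
    obtain ⟨hY, hoY⟩ := hS.cone i g1 gb.le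
    have hOm := hW.O_map h i g1 gb gh hhm
    have ho0 := hW.o0 i
    have c1 : C * (|x i| + |y i| + e i + o i + E h i) * (|y i| + o i) ≤ C * 1 * (2 * |y i|) :=
      mul_le_mul (mul_le_mul_of_nonneg_left (by linarith [hp.hδ]) hC0) (by linarith)
        (by positivity) (by positivity)
    rw [pow_one]
    linarith
  have h1 : O h j ≤ θ ^ (j - a) * O h a + 2 * (2 * C) / (1 - θ) * |y j| ^ 1 :=
    sc_conv0 θ r (2 * C) 1 le_rfl (by norm_num) hp.hθ0 hp.hθ hp.hr hp.hr0 hp.hr1 (by positivity)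
      a j (O h) (fun i => |y i|)
      (fun i g1 g2 => ⟨(hS.cone i g1 (g2.trans hjb)).1, sc_Y_le_one hp hW g1 (g2.trans hjb)⟩)
      (fun i g1 g2 => hS.slow i g1 (g2.trans_le hjb)) hrec j haj le_rfl
  have h2 : θ ^ (j - a) * O h a ≤ θ ^ (j - a) * δ :=
    mul_le_mul_of_nonneg_left (hW.tubeT h a le_rfl (haj.trans hjb) (haj.trans hjh) hhm).2
      (pow_nonneg hp.hθ0 _)
  have e1 : 2 * (2 * C) / (1 - θ) * |y j| ^ 1 = 4 * C / (1 - θ) * |y j| := by ring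
  rw [e1] at h1
  linarith

/-- Stage 2: the even plane remainder -/
theorem sc_e1 (hp : ScPar C θ δ r) (hW : WinOK C θ δ a b hm x y e o E O P) (hS : ScSlow r a b y o) :
    ∀ j, a ≤ j → j ≤ b → e j ≤ θ ^ (j - a) * δ + 8 * C / (1 - θ) * |y j| ^ 2 := by
  intro j haj hjb
  have hC0 : 0 ≤ C := by linarith [hp.hC]
  have hrec : ∀ i, a ≤ i → i < j → e (i + 1) ≤ θ * e i + 4 * C * |y i| ^ 2 := by
    intro i g1 g2
    have gb : i < b := g2.trans_le hjb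
    obtain ⟨hY, hoY⟩ := hS.cone i g1 gb.le
    have hm' := hW.e_map i g1 gb
    have ho0 := hW.o0 i
    have c1 : (|y i| + o i) ^ 2 ≤ (2 * |y i|) ^ 2 :=
      pow_le_pow_left₀ (by positivity) (by linarith) 2
    have c2 : C * (|y i| + o i) ^ 2 ≤ C * (2 * |y i|) ^ 2 := mul_le_mul_of_nonneg_left c1 hC0
    have e1 : C * (2 * |y i|) ^ 2 = 4 * C * |y i| ^ 2 := by ring
    linarith
  have h1 : e j ≤ θ ^ (j - a) * e a + 2 * (4 * C) / (1 - θ) * |y j| ^ 2 :=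
    sc_conv0 θ r (4 * C) 2 (by norm_num) (by norm_num) hp.hθ0 hp.hθ hp.hr hp.hr0 hp.hr1
      (by positivity) a j e (fun i => |y i|)
      (fun i g1 g2 => ⟨(hS.cone i g1 (g2.trans hjb)).1, sc_Y_le_one hp hW g1 (g2.trans hjb)⟩)
      (fun i g1 g2 => hS.slow i g1 (g2.trans_le hjb)) hrec j haj le_rfl
  have h2 : θ ^ (j - a) * e a ≤ θ ^ (j - a) * δ :=
    mul_le_mul_of_nonneg_left (hW.tube a le_rfl (haj.trans hjb)).2.2.1 (pow_nonneg hp.hθ0 _)
  have e1 : 2 * (4 * C) / (1 - θ) * |y j| ^ 2 = 8 * C / (1 - θ) * |y j| ^ 2 := by ring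
  rw [e1] at h1
  linarith

/-- Stage 3: the drift of `x` -/
theorem sc_x (hp : ScPar C θ δ r) (hW : WinOK C θ δ a b hm x y e o E O P) (hS : ScSlow r a b y o)
    {Ke : ℝ} (hKe : 0 ≤ Ke) (he : ∀ j, a ≤ j → j ≤ b → e j ≤ Ke * |y j| ^ 2) :
    ∀ j, a ≤ j → j < b → |x (j + 1) - x j| ≤ C * (5 + Ke) * |y j| ^ 2 := by
  intro j haj hjb
  have hC := hp.hC
  have hC0 : 0 ≤ C := by linarith
  obtain ⟨tx, ty, te, tO⟩ := hW.tube j haj hjb.le
  obtain ⟨hY, hoY⟩ := hS.cone j haj hjb.le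
  have ho0 := hW.o0 j
  have he0 := hW.e0 j
  have hej := he j haj hjb.le
  have hu := hW.u_map j haj hjb
  have hy2 : y j ^ 2 = |y j| ^ 2 := (sq_abs _).symm
  rw [hy2] at hu
  set Y := |y j| with hYdef
  have hY2 : 0 ≤ Y ^ 2 := by positivity
  have b1 : Y ^ 2 / (j : ℝ) ^ 2 ≤ Y ^ 2 := sc_div_sq_le hY2 j
  have b2 : (|x j| + Y + e j) * (Y ^ 2 + e j) ≤ 1 * ((1 + Ke) * Y ^ 2) :=
    mul_le_mul (by linarith [hp.hδ]) (by linarith) (by positivity) (by norm_num)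
  have b3 : o j * (Y + o j) ≤ Y * (2 * Y) := mul_le_mul hoY (by linarith) (by positivity) hY.le
  have b4 : |x (j + 1) - x j + Y ^ 2| ≤ C * ((4 + Ke) * Y ^ 2) :=
    hu.trans (mul_le_mul_of_nonneg_left (by nlinarith) hC0)
  have e1 : x (j + 1) - x j = (x (j + 1) - x j + Y ^ 2) - Y ^ 2 := by ring
  rw [e1]
  refine (abs_sub _ _).trans ?_
  rw [abs_of_nonneg hY2]
  have : Y ^ 2 ≤ C * Y ^ 2 := le_mul_of_one_le_left hY2 hC
  linarith

/-- Stage 3: the odd plane remainder -/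
theorem sc_o (hp : ScPar C θ δ r) (hW : WinOK C θ δ a b hm x y e o E O P) (hS : ScSlow r a b y o)
    {Ke Kx : ℝ} (hKe : 0 ≤ Ke) (hKx : 0 ≤ Kx) (he : ∀ j, a ≤ j → j ≤ b → e j ≤ Ke * |y j| ^ 2)
    (hx : ∀ j, a ≤ j → j < b → |x (j + 1) - x j| ≤ Kx * |y j| ^ 2) :
    ∀ j, a ≤ j → j ≤ b → o j ≤ θ ^ (j - a) * δ + 2 * C / (1 - θ) * |x j| * |y j|
      + 2 * ((θ * (2 * C / (1 - θ)) + C) * Kx + C * (1 + Ke)) / (1 - θ) * |y j| ^ 2 := by
  intro j haj hjb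
  have hC0 : 0 ≤ C := by linarith [hp.hC]
  have hrec : ∀ i, a ≤ i → i < j →
      o (i + 1) ≤ θ * o i + C * |x i| * |y i| + C * (1 + Ke) * |y i| ^ 2 := by
    intro i g1 g2
    have gb : i < b := g2.trans_le hjb
    obtain ⟨hY, hoY⟩ := hS.cone i g1 gb.le
    have hY1 := sc_Y_le_one hp hW g1 gb.le
    have hm' := hW.o_map i g1 gb
    have hei := he i g1 gb.le
    have c0 : |y i| ^ 2 ≤ |y i| := by nlinarith
    have c1 : e i ≤ Ke * |y i| := hei.trans (mul_le_mul_of_nonneg_left c0 hKe)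
    have c2 : C * (|x i| + |y i| + e i) * |y i| ≤ C * (|x i| + (1 + Ke) * |y i|) * |y i| :=
      mul_le_mul_of_nonneg_right (mul_le_mul_of_nonneg_left (by linarith) hC0) hY.le
    have e1 : C * (|x i| + (1 + Ke) * |y i|) * |y i|
        = C * |x i| * |y i| + C * (1 + Ke) * |y i| ^ 2 := by ring
    linarith
  have h1 : o j ≤ θ ^ (j - a) * o a + 2 * C / (1 - θ) * |x j| * |y j|
      + 2 * ((θ * (2 * C / (1 - θ)) + C) * Kx + C * (1 + Ke)) / (1 - θ) * |y j| ^ 2 :=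
    conv_gen θ r Kx C (C * (1 + Ke)) 2 (by norm_num) (by norm_num) hp.hθ0 hp.hθ hp.hr hp.hr0 hp.hr1
      hKx hC0 (by positivity) a j o (fun i => |x i|) (fun i => |y i|)
      (fun i g1 g2 => ⟨(hS.cone i g1 (g2.trans hjb)).1, sc_Y_le_one hp hW g1 (g2.trans hjb)⟩)
      (fun i _ _ => abs_nonneg _)
      (fun i g1 g2 => hS.slow i g1 (g2.trans_le hjb))
      (fun i g1 g2 => by
        have h3 := hx i g1 (g2.trans_le hjb)
        have h4 : |x i| ≤ |x (i + 1)| + |x (i + 1) - x i| := by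
          have e1 : x i = x (i + 1) - (x (i + 1) - x i) := by ring
          nth_rewrite 1 [e1]
          exact abs_sub _ _
        show |x i| ≤ |x (i + 1)| + Kx * |y i| ^ 2
        linarith)
      hrec j haj le_rfl
  have h2 : θ ^ (j - a) * o a ≤ θ ^ (j - a) * δ :=
    mul_le_mul_of_nonneg_left (hW.tube a le_rfl (haj.trans hjb)).2.2.2 (pow_nonneg hp.hθ0 _)
  linarith

/-- Stage 3: the even torus remainder -/
theorem sc_E (hp : ScPar C θ δ r) (hW : WinOK C θ δ a b hm x y e o E O P) (hS : ScSlow r a b y o)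
    {Ke Kx KO : ℝ} (hKe : 0 ≤ Ke) (hKx : 0 ≤ Kx) (hKO : 0 ≤ KO)
    (he : ∀ j, a ≤ j → j ≤ b → e j ≤ Ke * |y j| ^ 2)
    (hx : ∀ j, a ≤ j → j < b → |x (j + 1) - x j| ≤ Kx * |y j| ^ 2)
    (hO : ∀ j h, a ≤ j → j ≤ b → j ≤ h → h ≤ hm → O h j ≤ KO * |y j|) :
    ∀ j h, a ≤ j → j ≤ b → j ≤ h → h ≤ hm →
      E h j ≤ θ ^ (j - a) * δ + 2 * (C * (Ke + (2 + KO) ^ 2 + Kx)) / (1 - θ) * |y j| ^ 2 := by
  intro j h haj hjb hjh hhm
  have hC0 : 0 ≤ C := by linarith [hp.hC]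
  have hrec : ∀ i, a ≤ i → i < j →
      E h (i + 1) ≤ θ * E h i + C * (Ke + (2 + KO) ^ 2 + Kx) * |y i| ^ 2 := by
    intro i g1 g2
    have gb : i < b := g2.trans_le hjb
    have gh : i < h := g2.trans_le hjh
    obtain ⟨hY, hoY⟩ := hS.cone i g1 gb.le
    have hm' := hW.E_map h i g1 gb gh hhm
    have hei := he i g1 gb.le
    have hxi := hx i g1 gb
    have hOi := hO i h g1 gb.le gh.le hhm
    have ho0 := hW.o0 i
    have hO0 := hW.O0 h i
    have c1 : (|y i| + o i + O h i) ^ 2 ≤ ((2 + KO) * |y i|) ^ 2 :=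
      pow_le_pow_left₀ (by positivity) (by linarith) 2
    have c2 : C * (e i + (|y i| + o i + O h i) ^ 2 + |x (i + 1) - x i|)
        ≤ C * (Ke * |y i| ^ 2 + ((2 + KO) * |y i|) ^ 2 + Kx * |y i| ^ 2) :=
      mul_le_mul_of_nonneg_left (by linarith) hC0
    have e1 : C * (Ke * |y i| ^ 2 + ((2 + KO) * |y i|) ^ 2 + Kx * |y i| ^ 2)
        = C * (Ke + (2 + KO) ^ 2 + Kx) * |y i| ^ 2 := by ring
    linarith
  have h1 : E h j ≤ θ ^ (j - a) * E h a
      + 2 * (C * (Ke + (2 + KO) ^ 2 + Kx)) / (1 - θ) * |y j| ^ 2 :=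
    sc_conv0 θ r (C * (Ke + (2 + KO) ^ 2 + Kx)) 2 (by norm_num) (by norm_num) hp.hθ0 hp.hθ hp.hr
      hp.hr0 hp.hr1 (by positivity) a j (E h) (fun i => |y i|)
      (fun i g1 g2 => ⟨(hS.cone i g1 (g2.trans hjb)).1, sc_Y_le_one hp hW g1 (g2.trans hjb)⟩)
      (fun i g1 g2 => hS.slow i g1 (g2.trans_le hjb)) hrec j haj le_rfl
  have h2 : θ ^ (j - a) * E h a ≤ θ ^ (j - a) * δ :=
    mul_le_mul_of_nonneg_left (hW.tubeT h a le_rfl (haj.trans hjb) (haj.trans hjh) hhm).1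
      (pow_nonneg hp.hθ0 _)
  linarith

/-- Stage 4: the odd torus remainder -/
theorem sc_O2 (hp : ScPar C θ δ r) (hW : WinOK C θ δ a b hm x y e o E O P) (hS : ScSlow r a b y o)
    {Ke Kx KE : ℝ} (hKe : 0 ≤ Ke) (hKx : 0 ≤ Kx) (hKE : 0 ≤ KE)
    (he : ∀ j, a ≤ j → j ≤ b → e j ≤ Ke * |y j| ^ 2)
    (hx : ∀ j, a ≤ j → j < b → |x (j + 1) - x j| ≤ Kx * |y j| ^ 2)
    (hE : ∀ j h, a ≤ j → j ≤ b → j ≤ h → h ≤ hm → E h j ≤ KE * |y j| ^ 2) :
    ∀ j h, a ≤ j → j ≤ b → j ≤ h → h ≤ hm →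
      O h j ≤ θ ^ (j - a) * δ + 2 * (2 * C) / (1 - θ) * |x j| * |y j|
        + 2 * ((θ * (2 * (2 * C) / (1 - θ)) + 2 * C) * Kx + 2 * C * (2 + Ke + KE)) / (1 - θ)
          * |y j| ^ 2 := by
  intro j h haj hjb hjh hhm
  have hC0 : 0 ≤ C := by linarith [hp.hC]
  have hrec : ∀ i, a ≤ i → i < j →
      O h (i + 1) ≤ θ * O h i + 2 * C * |x i| * |y i| + 2 * C * (2 + Ke + KE) * |y i| ^ 2 := by
    intro i g1 g2
    have gb : i < b := g2.trans_le hjb
    have gh : i < h := g2.trans_le hjh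
    obtain ⟨hY, hoY⟩ := hS.cone i g1 gb.le
    have hY1 := sc_Y_le_one hp hW g1 gb.le
    have hm' := hW.O_map h i g1 gb gh hhm
    have hei := he i g1 gb.le
    have hEi := hE i h g1 gb.le gh.le hhm
    have ho0 := hW.o0 i
    have he0 := hW.e0 i
    have hE0 := hW.E0 h i
    have c0 : |y i| ^ 2 ≤ |y i| := by nlinarith
    have c1 : e i ≤ Ke * |y i| := hei.trans (mul_le_mul_of_nonneg_left c0 hKe)
    have c1' : E h i ≤ KE * |y i| := hEi.trans (mul_le_mul_of_nonneg_left c0 hKE)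
    have c2 : C * (|x i| + |y i| + e i + o i + E h i) * (|y i| + o i)
        ≤ C * (|x i| + (2 + Ke + KE) * |y i|) * (2 * |y i|) :=
      mul_le_mul (mul_le_mul_of_nonneg_left (by linarith) hC0) (by linarith) (by positivity)
        (by positivity)
    have e1 : C * (|x i| + (2 + Ke + KE) * |y i|) * (2 * |y i|)
        = 2 * C * |x i| * |y i| + 2 * C * (2 + Ke + KE) * |y i| ^ 2 := by ring
    linarith
  have h1 : O h j ≤ θ ^ (j - a) * O h a + 2 * (2 * C) / (1 - θ) * |x j| * |y j|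
      + 2 * ((θ * (2 * (2 * C) / (1 - θ)) + 2 * C) * Kx + 2 * C * (2 + Ke + KE)) / (1 - θ)
        * |y j| ^ 2 :=
    conv_gen θ r Kx (2 * C) (2 * C * (2 + Ke + KE)) 2 (by norm_num) (by norm_num) hp.hθ0 hp.hθ hp.hr
      hp.hr0 hp.hr1 hKx (by positivity) (by positivity) a j (O h) (fun i => |x i|) (fun i => |y i|)
      (fun i g1 g2 => ⟨(hS.cone i g1 (g2.trans hjb)).1, sc_Y_le_one hp hW g1 (g2.trans hjb)⟩)
      (fun i _ _ => abs_nonneg _)
      (fun i g1 g2 => hS.slow i g1 (g2.trans_le hjb))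
      (fun i g1 g2 => by
        have h3 := hx i g1 (g2.trans_le hjb)
        have h4 : |x i| ≤ |x (i + 1)| + |x (i + 1) - x i| := by
          have e1 : x i = x (i + 1) - (x (i + 1) - x i) := by ring
          nth_rewrite 1 [e1]
          exact abs_sub _ _
        show |x i| ≤ |x (i + 1)| + Kx * |y i| ^ 2
        linarith)
      hrec j haj le_rfl
  have h2 : θ ^ (j - a) * O h a ≤ θ ^ (j - a) * δ :=
    mul_le_mul_of_nonneg_left (hW.tubeT h a le_rfl (haj.trans hjb) (haj.trans hjh) hhm).2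
      (pow_nonneg hp.hθ0 _)
  linarith

end stages

/-- absorption of a homogeneous term after `ℓ` steps -/
theorem sc_hom {θ δ : ℝ} (hθ0 : 0 ≤ θ) (hθ : θ < 1) (hδ0 : 0 ≤ δ) (hδ1 : δ ≤ 1) {n ℓ : ℕ} (hn : ℓ ≤ n) :
    θ ^ n * δ ≤ ((3 + θ) / 4) ^ ℓ := by
  have h1 : θ ^ n ≤ θ ^ ℓ := pow_le_pow_of_le_one hθ0 hθ.le hn
  have h2 : θ ^ ℓ ≤ ((3 + θ) / 4) ^ ℓ := pow_le_pow_left₀ hθ0 (by linarith) ℓ
  calc θ ^ n * δ ≤ θ ^ n * 1 := mul_le_mul_of_nonneg_left hδ1 (pow_nonneg hθ0 _)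
    _ = θ ^ n := mul_one _
    _ ≤ _ := h1.trans h2


theorem sc_fin {K A B X Y v : ℝ} (hX : 0 ≤ X) (hY : 0 ≤ Y) (hA : A ≤ K) (hB : B ≤ K)
    (hv : v ≤ A * X * Y + B * Y ^ 2) : v ≤ K * (X + Y) * Y := by
  have h1 : A * (X * Y) ≤ K * (X * Y) := mul_le_mul_of_nonneg_right hA (mul_nonneg hX hY)
  have h2 : B * Y ^ 2 ≤ K * Y ^ 2 := mul_le_mul_of_nonneg_right hB (by positivity)
  have e1 : K * (X + Y) * Y = K * (X * Y) + K * Y ^ 2 := by ring
  have e2 : A * X * Y = A * (X * Y) := by ring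
  linarith

/-- Stages 2-4: everything on a window on which the cone holds -/
theorem sc_core (C θ : ℝ) (hC : 1 ≤ C) (hθ0 : 0 ≤ θ) (hθ : θ < 1) : ∃ K c0 : ℝ, 1 ≤ K ∧ 0 < c0 ∧
    ∀ (δ r π : ℝ) (a ℓ b hm : ℕ) (x y e o : ℕ → ℝ) (E O : ℕ → ℕ → ℝ) (P : ℕ → ℝ),
      ScPar C θ δ r → 0 ≤ δ → WinOK C θ δ a b hm x y e o E O P → ScSlow r a b y o → 0 < π → π ≤ 1 →
      (∀ h, a ≤ h → h ≤ b → π ≤ |P h|) → ((3 + θ) / 4) ^ ℓ ≤ c0 * π ^ 3 →
      ∀ j, a + 3 * ℓ ≤ j → j ≤ b →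
        c0 * π ≤ |y j| ∧ e j ≤ K * y j ^ 2 ∧ o j ≤ K * (|x j| + |y j|) * |y j| ∧
        (j < b → |x (j + 1) - x j| ≤ K * y j ^ 2) ∧
        ∀ h, j ≤ h → h ≤ hm → E h j ≤ K * y j ^ 2 ∧ O h j ≤ K * (|x j| + |y j|) * |y j| := by
  have h1θ : 0 < 1 - θ := by linarith
  have hC0 : 0 < C := by linarith
  obtain ⟨K3, hK3, hK30⟩ : ∃ K3 : ℝ, K3 = 4 * C / (1 - θ) ∧ 0 ≤ K3 := ⟨_, rfl, by positivity⟩
  obtain ⟨Ke, hKe, hKe0⟩ : ∃ Ke : ℝ, Ke = 1 + 8 * C / (1 - θ) ∧ 0 ≤ Ke := ⟨_, rfl, by positivity⟩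
  obtain ⟨Kx, hKx, hKx0⟩ : ∃ Kx : ℝ, Kx = C * (5 + Ke) ∧ 0 ≤ Kx := ⟨_, rfl, by positivity⟩
  obtain ⟨A1, hA1, hA10⟩ : ∃ A1 : ℝ, A1 = 2 * C / (1 - θ) ∧ 0 ≤ A1 := ⟨_, rfl, by positivity⟩
  obtain ⟨A2, hA2, hA20⟩ : ∃ A2 : ℝ,
      A2 = 2 * ((θ * (2 * C / (1 - θ)) + C) * Kx + C * (1 + Ke)) / (1 - θ) ∧ 0 ≤ A2 :=
    ⟨_, rfl, by positivity⟩
  obtain ⟨KE', hKE', hKE'0⟩ : ∃ KE' : ℝ,
      KE' = 2 * (C * (Ke + (2 + (1 + K3)) ^ 2 + Kx)) / (1 - θ) ∧ 0 ≤ KE' :=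
    ⟨_, rfl, by positivity⟩
  obtain ⟨B1, hB1, hB10⟩ : ∃ B1 : ℝ, B1 = 2 * (2 * C) / (1 - θ) ∧ 0 ≤ B1 := ⟨_, rfl, by positivity⟩
  obtain ⟨B2, hB2, hB20⟩ : ∃ B2 : ℝ,
      B2 = 2 * ((θ * (2 * (2 * C) / (1 - θ)) + 2 * C) * Kx + 2 * C * (2 + Ke + (1 + KE'))) / (1 - θ)
        ∧ 0 ≤ B2 :=
    ⟨_, rfl, by positivity⟩
  obtain ⟨c', hc', hc'0⟩ : ∃ c' : ℝ, c' = 1 / (2 * C * (2 + K3)) ∧ 0 < c' :=
    ⟨_, rfl, by positivity⟩
  have hc'C : c' * (2 * C * (2 + K3)) = 1 := by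
    rw [hc']
    field_simp
  have hCc : C * c' ≤ 1 / 4 := by
    have := mul_nonneg (mul_nonneg hC0.le hc'0.le) hK30
    nlinarith
  have hc'1 : c' ≤ 1 / 4 := (le_mul_of_one_le_left hc'0.le hC).trans hCc
  have hc'3 : c' ^ 3 ≤ c' := pow_le_of_le_one hc'0.le (by linarith) (by norm_num)
  refine ⟨1 + Ke + Kx + A1 + (1 + A2) + (1 + KE') + B1 + (1 + B2), c' ^ 3, by linarith,
    by positivity, ?_⟩
  intro δ r π a ℓ b hm x y e o E O P hp hδ0 hW hS hπ0 hπ1 hP hH j hj hjb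
  have hδ1 : δ ≤ 1 := by linarith [hp.hδ]
  obtain ⟨H, hHdef⟩ : ∃ H : ℝ, H = ((3 + θ) / 4) ^ ℓ := ⟨_, rfl⟩
  rw [← hHdef] at hH
  have hhom : ∀ n, ℓ ≤ n → θ ^ n * δ ≤ H := fun n hn => hHdef ▸ sc_hom hθ0 hθ hδ0 hδ1 hn
  have hπ3 : π ^ 3 ≤ π := pow_le_of_le_one hπ0.le hπ1 (by norm_num)
  -- Stage 2
  have hO1 := sc_O1 hp hW hS
  rw [← hK3] at hO1
  have hy : ∀ i, a + ℓ ≤ i → i ≤ b → c' * π ≤ |y i| := by
    intro i h1 h2
    have g1 : a ≤ i := by omega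
    have p1 := hP i g1 h2
    have p2 := hW.P_up i g1 h2
    have p3 := hO1 i i g1 h2 le_rfl (h2.trans hW.hb)
    have p4 := (hS.cone i g1 h2).2
    have p5 := hhom (i - a) (by omega)
    have p6 : C * (|y i| + o i + O i i) ≤ C * ((2 + K3) * |y i| + H) :=
      mul_le_mul_of_nonneg_left (by linarith) hC0.le
    have p7 : H ≤ c' * π := hH.trans (mul_le_mul hc'3 hπ3 (by positivity) hc'0.le)
    have p7' : C * H ≤ C * c' * π := by
      have := mul_le_mul_of_nonneg_left p7 hC0.le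
      linarith
    have p7'' : C * c' * π ≤ 1 / 4 * π := mul_le_mul_of_nonneg_right hCc hπ0.le
    have p8 : π ≤ 2 * C * (2 + K3) * |y i| := by
      have e1 : C * ((2 + K3) * |y i| + H) = C * (2 + K3) * |y i| + C * H := by ring
      have e2 : 2 * C * (2 + K3) * |y i| = 2 * (C * (2 + K3) * |y i|) := by ring
      linarith
    calc c' * π ≤ c' * (2 * C * (2 + K3) * |y i|) := mul_le_mul_of_nonneg_left p8 hc'0.le
      _ = (c' * (2 * C * (2 + K3))) * |y i| := by ring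
      _ = |y i| := by rw [hc'C, one_mul]
  have hHy : ∀ i, a + ℓ ≤ i → i ≤ b → H ≤ |y i| ^ 2 ∧ H ≤ |y i| := by
    intro i h1 h2
    have hY1 : |y i| ≤ 1 := sc_Y_le_one hp hW (by omega) h2
    have q1 : H ≤ |y i| ^ 3 := by
      refine hH.trans ?_
      rw [← mul_pow]
      exact pow_le_pow_left₀ (by positivity) (hy i h1 h2) 3
    have q2 : |y i| ^ 3 ≤ |y i| ^ 2 := pow_le_pow_of_le_one (abs_nonneg _) hY1 (by norm_num)
    have q3 : |y i| ^ 2 ≤ |y i| := pow_le_of_le_one (abs_nonneg _) hY1 (by norm_num)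
    exact ⟨q1.trans q2, (q1.trans q2).trans q3⟩
  have he : ∀ i, a + ℓ ≤ i → i ≤ b → e i ≤ Ke * |y i| ^ 2 := by
    intro i h1 h2
    have p1 := sc_e1 hp hW hS i (by omega) h2
    have p2 := hhom (i - a) (by omega)
    have p3 := (hHy i h1 h2).1
    rw [hKe]
    linarith
  have hO : ∀ i h, a + ℓ ≤ i → i ≤ b → i ≤ h → h ≤ hm → O h i ≤ (1 + K3) * |y i| := by
    intro i h h1 h2 h3 h4
    have p1 := hO1 i h (by omega) h2 h3 h4
    have p2 := hhom (i - a) (by omega)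
    have p3 := (hHy i h1 h2).2
    linarith
  -- Stage 3
  have hW1 : WinOK C θ δ (a + ℓ) b hm x y e o E O P := hW.mono_left (by omega)
  have hS1 : ScSlow r (a + ℓ) b y o := hS.mono_left (by omega)
  have hx := sc_x hp hW1 hS1 hKe0 he
  rw [← hKx] at hx
  have ho1 := sc_o hp hW1 hS1 hKe0 hKx0 he hx
  rw [← hA2, ← hA1] at ho1
  have hE1 := sc_E hp hW1 hS1 hKe0 hKx0 (by linarith : (0:ℝ) ≤ 1 + K3) he hx hO
  rw [← hKE'] at hE1
  have ho : ∀ i, a + 2 * ℓ ≤ i → i ≤ b → o i ≤ A1 * |x i| * |y i| + (1 + A2) * |y i| ^ 2 := by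
    intro i h1 h2
    have p1 := ho1 i (by omega) h2
    have p2 := hhom (i - (a + ℓ)) (by omega)
    have p3 := (hHy i (by omega) h2).1
    linarith
  have hE : ∀ i h, a + 2 * ℓ ≤ i → i ≤ b → i ≤ h → h ≤ hm → E h i ≤ (1 + KE') * |y i| ^ 2 := by
    intro i h h1 h2 h3 h4
    have p1 := hE1 i h (by omega) h2 h3 h4
    have p2 := hhom (i - (a + ℓ)) (by omega)
    have p3 := (hHy i (by omega) h2).1
    linarith
  -- Stage 4
  have hW2 : WinOK C θ δ (a + 2 * ℓ) b hm x y e o E O P := hW.mono_left (by omega)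
  have hS2 : ScSlow r (a + 2 * ℓ) b y o := hS.mono_left (by omega)
  have hO2 := sc_O2 hp hW2 hS2 hKe0 hKx0 (by linarith : (0:ℝ) ≤ 1 + KE')
    (fun i h1 h2 => he i (by omega) h2) (fun i h1 h2 => hx i (by omega) h2) hE
  rw [← hB2, ← hB1] at hO2
  have hOf : ∀ i h, a + 3 * ℓ ≤ i → i ≤ b → i ≤ h → h ≤ hm →
      O h i ≤ B1 * |x i| * |y i| + (1 + B2) * |y i| ^ 2 := by
    intro i h h1 h2 h3 h4
    have p1 := hO2 i h (by omega) h2 h3 h4
    have p2 := hhom (i - (a + 2 * ℓ)) (by omega)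
    have p3 := (hHy i (by omega) h2).1
    linarith
  -- conclusion
  have hy2 : y j ^ 2 = |y j| ^ 2 := (sq_abs _).symm
  have hY2 : 0 ≤ |y j| ^ 2 := by positivity
  rw [hy2]
  refine ⟨?_, ?_, ?_, ?_, ?_⟩
  · exact (mul_le_mul_of_nonneg_right hc'3 hπ0.le).trans (hy j (by omega) hjb)
  · exact (he j (by omega) hjb).trans (mul_le_mul_of_nonneg_right (by linarith) hY2)
  · exact sc_fin (abs_nonneg _) (abs_nonneg _) (by linarith) (by linarith) (ho j (by omega) hjb)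
  · intro hjb'
    exact (hx j (by omega) hjb').trans (mul_le_mul_of_nonneg_right (by linarith) hY2)
  · intro h h1 h2
    exact ⟨(hE j h (by omega) hjb h1 h2).trans (mul_le_mul_of_nonneg_right (by linarith) hY2),
      sc_fin (abs_nonneg _) (abs_nonneg _) (by linarith) (by linarith) (hOf j h hj hjb h1 h2)⟩

theorem win_master (C θ : ℝ) (hC : 1 ≤ C) (hθ0 : 0 ≤ θ) (hθ : θ < 1) : ∃ δ0 K c0 : ℝ, 0 < δ0 ∧ 1 ≤ K ∧ 0 < c0 ∧
    ∀ (δ π : ℝ) (a ℓ b hm : ℕ) (x y e o : ℕ → ℝ) (E O : ℕ → ℕ → ℝ) (P : ℕ → ℝ),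
      WinOK C θ δ a b hm x y e o E O P → δ ≤ δ0 → 0 < π → π ≤ 1 → (∀ h, a ≤ h → h ≤ b → π ≤ |P h|) →
      ((3 + θ) / 4) ^ ℓ ≤ c0 * π ^ 3 →
      ∀ j, a + 4 * ℓ ≤ j → j ≤ b →
        c0 * π ≤ |y j| ∧ e j ≤ K * y j ^ 2 ∧ o j ≤ K * (|x j| + |y j|) * |y j| ∧
        (j < b → |y (j + 1) - y j| ≤ K * δ * |y j| ∧ |x (j + 1) - x j| ≤ K * y j ^ 2) ∧
        ∀ h, j ≤ h → h ≤ hm → E h j ≤ K * y j ^ 2 ∧ O h j ≤ K * (|x j| + |y j|) * |y j| := by
  obtain ⟨δ1, hδ1pos, hδ11, _, hstep⟩ := cone_step C θ hC hθ0 hθ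
  obtain ⟨δ2, K1, hδ2pos, hK1, hout⟩ := cone_out C θ hC hθ0 hθ
  obtain ⟨K, c1, hK, hc1, hcore⟩ := sc_core C θ hC hθ0 hθ
  have h1θ : 0 < 1 - θ := by linarith
  have hC0 : 0 < C := by linarith
  have hK10 : 0 < K1 := by linarith
  obtain ⟨δ0, hδ0def⟩ : ∃ δ0 : ℝ, δ0 = min (min δ1 δ2) (min (1 / 5) ((1 - θ) / (54 * C))) :=
    ⟨_, rfl⟩
  have hδ0pos : 0 < δ0 := by
    rw [hδ0def]
    exact lt_min (lt_min hδ1pos hδ2pos) (lt_min (by norm_num) (by positivity))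
  have hd1 : δ0 ≤ δ1 := by
    rw [hδ0def]
    exact (min_le_left _ _).trans (min_le_left _ _)
  have hd2 : δ0 ≤ δ2 := by
    rw [hδ0def]
    exact (min_le_left _ _).trans (min_le_right _ _)
  have hd3 : δ0 ≤ 1 / 5 := by
    rw [hδ0def]
    exact (min_le_right _ _).trans (min_le_left _ _)
  have hd4 : δ0 ≤ (1 - θ) / (54 * C) := by
    rw [hδ0def]
    exact (min_le_right _ _).trans (min_le_right _ _)
  have hd4' : 54 * (C * δ0) ≤ 1 - θ := by
    rw [le_div_iff₀ (by positivity)] at hd4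
    linarith
  obtain ⟨c0, hc0def⟩ : ∃ c0 : ℝ, c0 = min c1 (1 / (2 * K1)) := ⟨_, rfl⟩
  have hc0pos : 0 < c0 := by
    rw [hc0def]
    exact lt_min hc1 (by positivity)
  have hc01 : c0 ≤ c1 := by
    rw [hc0def]
    exact min_le_left _ _
  have hc02 : K1 * c0 ≤ 1 / 2 := by
    have h1 : c0 ≤ 1 / (2 * K1) := by
      rw [hc0def]
      exact min_le_right _ _
    rw [le_div_iff₀ (by positivity)] at h1
    linarith
  refine ⟨δ0, K + 9 * C, c0, hδ0pos, by linarith, hc0pos, ?_⟩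
  intro δ π a ℓ b hm x y e o E O P hW hδ hπ0 hπ1 hP hH j hj hjb
  have hδ0 : 0 ≤ δ := (abs_nonneg _).trans (hW.tube j (by omega) hjb).1
  have hCδ0 : 0 < C * δ0 := mul_pos hC0 hδ0pos
  obtain ⟨t, ht⟩ : ∃ t : ℝ, t = 9 * (C * δ0) := ⟨_, rfl⟩
  have ht0 : 0 < t := by rw [ht]; positivity
  have ht1 : 6 * t ≤ 1 - θ := by rw [ht]; linarith
  have hp : ScPar C θ δ (1 - t) :=
    { hC := hC
      hθ0 := hθ0
      hθ := hθ
      hr := by nlinarith [mul_nonneg (sq_nonneg t) (by linarith : (0:ℝ) ≤ 3 - t)]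
      hr0 := by linarith
      hr1 := by linarith
      hδ := by linarith }
  have hπ3 : π ^ 3 ≤ π := pow_le_of_le_one hπ0.le hπ1 (by norm_num)
  -- Stage 1
  have hex : ∃ j0, a ≤ j0 ∧ j0 ≤ a + ℓ ∧ InCone y o j0 := by
    by_contra hcon
    push Not at hcon
    have h1 := hout δ a b hm x y e o E O P hW (hδ.trans hd2) (a + ℓ) (by omega) (by omega)
      (fun i g1 g2 => hcon i g1 g2)
    have h2 := hP (a + ℓ) (by omega) (by omega)
    rw [Nat.add_sub_cancel_left] at h1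
    have h3 : K1 * δ * ((3 + θ) / 4) ^ ℓ ≤ K1 * 1 * (c0 * π) :=
      mul_le_mul (mul_le_mul_of_nonneg_left (by linarith) hK10.le)
        (hH.trans (mul_le_mul_of_nonneg_left hπ3 hc0pos.le)) (by positivity) (by positivity)
    have h4 : K1 * 1 * (c0 * π) = K1 * c0 * π := by ring
    have h5 : K1 * c0 * π ≤ 1 / 2 * π := mul_le_mul_of_nonneg_right hc02 hπ0.le
    linarith
  obtain ⟨j0, hj0a, hj0l, hj0⟩ := hex
  have hcone : ∀ i, j0 ≤ i → i ≤ b → InCone y o i := by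
    intro i hi
    induction i, hi using Nat.le_induction with
    | base => intro _; exact hj0
    | succ i hi ih =>
      intro hib
      exact ((hstep δ a b hm x y e o E O P hW (hδ.trans hd1) i (by omega) (by omega)).1
        (ih (by omega))).1
  have hdy : ∀ i, a + ℓ ≤ i → i < b → |y (i + 1) - y i| ≤ 9 * C * δ * |y i| := fun i h1 h2 =>
    ((hstep δ a b hm x y e o E O P hW (hδ.trans hd1) i (by omega) h2).1
      (hcone i (by omega) h2.le)).2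
  have hS : ScSlow (1 - t) (a + ℓ) b y o := by
    refine ⟨fun i h1 h2 => hcone i (by omega) h2, fun i h1 h2 => ?_⟩
    have g1 := hdy i h1 h2
    have g2 : |y i| ≤ |y (i + 1)| + |y (i + 1) - y i| := by
      have e1 : y i = y (i + 1) - (y (i + 1) - y i) := by ring
      nth_rewrite 1 [e1]
      exact abs_sub _ _
    have g3 : 9 * C * δ * |y i| ≤ t * |y i| := by
      refine mul_le_mul_of_nonneg_right ?_ (abs_nonneg _)
      rw [ht]
      have := mul_le_mul_of_nonneg_left hδ hC0.le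
      linarith
    linarith
  obtain ⟨f1, f2, f3, f4, f5⟩ := hcore δ (1 - t) π (a + ℓ) ℓ b hm x y e o E O P hp hδ0
    (hW.mono_left (by omega)) hS hπ0 hπ1 (fun h h1 h2 => hP h (by omega) h2)
    (hH.trans (mul_le_mul_of_nonneg_right hc01 (by positivity))) j (by omega) hjb
  have hKK : K ≤ K + 9 * C := by linarith
  have hy2 : 0 ≤ y j ^ 2 := sq_nonneg _
  have hXY : 0 ≤ |x j| + |y j| := by positivity
  have up1 : K * y j ^ 2 ≤ (K + 9 * C) * y j ^ 2 := mul_le_mul_of_nonneg_right hKK hy2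
  have up2 : K * (|x j| + |y j|) * |y j| ≤ (K + 9 * C) * (|x j| + |y j|) * |y j| :=
    mul_le_mul_of_nonneg_right (mul_le_mul_of_nonneg_right hKK hXY) (abs_nonneg _)
  refine ⟨(mul_le_mul_of_nonneg_right hc01 hπ0.le).trans f1, f2.trans up1, f3.trans up2, ?_, ?_⟩
  · intro hjb'
    refine ⟨(hdy j (by omega) hjb').trans ?_, (f4 hjb').trans up1⟩
    exact mul_le_mul_of_nonneg_right (mul_le_mul_of_nonneg_right (by linarith) hδ0) (abs_nonneg _)
  · intro h h1 h2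
    exact ⟨(f5 h h1 h2).1.trans up1, (f5 h h1 h2).2.trans up2⟩

end Claimed.Agent.R285.F5
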