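import Claimed.Agent.R285.E4.Defs
import Claimed.Agent.R285.F5.FineP
import Claimed.Agent.R285.F5.Sc
import Claimed.Agent.R285.TopXY
import Claimed.Agent.R285.F5.TorTop

/-!
# ROW 285, [F] Section 5: the DEFINITIONS of `Read/F5.lean` (owner helper94), so that the leaf files `R285/F5/*.lean` can import them
and `Read/F5.lean` can import the leaf files at the end.  K1 verdicts, plan, contracts: `R285/Read/F5.lean`.
-/

set_option autoImplicit false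

namespace Claimed.Agent.R285.F5

open Filter Topology Claims.C0459
open Claimed.Agent.R285.Flow

noncomputable section


/-! ## C. [F] L5.2: `Fine`, `fine_of_coarse` are in `F5/FineP.lean` (proved) -/

/-! ## E. The critical histories -/

/-- the standing hypotheses: all admissible sides carry a system -/
structure Hyp (κ : MapC) (κe : EntC) (ρe : ℝ) (H : ℕ → Hist) : Prop where
  hρe : 0 < ρe
  dvd : ∃ j1, κe.q0 ∣ κ.L ^ j1
  sys : ∀ s, Adm κ κe s → SysOK κ κe ρe s (H s)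

/-- the diagnostics of one history are `δ`-small at all valid stops `≤ Jm` -/
def Diag (κ : MapC) (κe : EntC) (s : ℕ) (H : Hist) (δ : ℝ) (Jm : ℕ) : Prop :=
  ∀ h, Valid κ κe s H h → h ≤ Jm → |H.cV h xyCritical - H.v0 h| ≤ δ ∧ |H.cM h xyCritical| ≤ δ

/-- the window `c 2^k ≤ j ≤ c' 2^k` -/
def Win (c c' : ℝ) (k j : ℕ) : Prop := c * 2 ^ k ≤ (j : ℝ) ∧ (j : ℝ) ≤ c' * 2 ^ k

/-- real scalars of the critical history -/
def xr (H : Hist) (i : ℕ) : ℝ := (H.x xyCritical i).re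
def yr (H : Hist) (i : ℕ) : ℝ := (H.y xyCritical i).re
/-- norms of the even and odd transverse remainders -/
def qe (H : Hist) (i : ℕ) : ℝ := ‖ev (H.σQ (H.j0 + i)) (H.st xyCritical i).2.2‖
def qo (H : Hist) (i : ℕ) : ℝ := ‖od (H.σQ (H.j0 + i)) (H.st xyCritical i).2.2‖

/-- `Δ^e_{i|h}`: even torus remainder minus the pure remainder at the MOVING parameter `x_i` -/
def dE (H : Hist) (h i : ℕ) : ℝ :=
  ‖ev (H.σT (H.j0 + i) h) (H.tor xyCritical h i) - H.G (H.j0 + i) h (H.x xyCritical i)‖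
/-- `Δ^o_{i|h}` -/
def dO (H : Hist) (h i : ℕ) : ℝ := ‖od (H.σT (H.j0 + i) h) (H.tor xyCritical h i)‖

end

end Claimed.Agent.R285.F5

/-!
# ROW 285, [F] L5.5: BRIDGE from `Flow.SysOK` to the scalar first-exit lemmas, physical diagnostics, validity of stops.      (contracts helper94)

Everything at the critical parameter `b = b_c` (real).  Stage indices `i`, stops `j0 + h`.

## Leaf BR-1 `bridge_step`.  Direct from `MapOK.N_x, N_y, N_q, sc_t, sc_z, Ψ_bd` (no Cauchy estimate).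
`|x₊| ≤ |x| + |y|² + C eord`, `eord ≤ 4 max(a,q)²` for sizes `≤ 1` (`1/j² ≤ 1`: `F5.inv_sq_le_one`; cf. `F5.eord_le4`).  `‖sc Y‖ ≤ Cs max (a, q)`, `Cs = max (1/b_*, 1/√(b_* H)) + 3 C`.
`‖Ψ X‖ ≤ θ ‖T‖ + C ‖X‖²`, `‖X‖ = max (‖sc Y‖, ‖T‖) ≤ Cs max (a, q, τ)`.
## Leaf BR-2 `bridge_diag`.
`X = ts b_c h i`, `h = j0 + i` valid.  `Inside κ.ρ` from the sizes `< ρd` (`Cs ρd < κ.ρ`).  `repV`: `rV X = cV - v0`; `rV_bd`: `|kV| |t| ≤ δ + C (τ + ‖X‖²)`; `kV ≥ 1/π - C (s/n + 1/n²) ≥ 1/(2π)`,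
because `Valid` gives `s P0 ≤ n`, so `s/n ≤ 1/P0 ≤ δ1`, `1/n² ≤ 1/P0 ≤ δ1` (`s ≥ 1` by `EntryOK.side`).  `repM`, `rM_bd`, `kM_bd`: `κ.c |z| ≤ δ + C (τ + ‖X‖²)`.
`sc_t`: `|x| ≤ b_* (|t| + C (a² + q))`.  `sc_z`: `|y| (1/s~ - C e^{-c j}) ≤ |z| + C (a² + q)`, and `C e^{-c j} ≤ 1/(2 s~)` for `j ≥ J0`.
## Leaf BR-3 `diag_at`:  triangle inequalities + `Flow.tor_crit_var`, `Flow.tor_crit_mix` (`κ.n h = D0 L^h` is even: `κ.hD2`).
`|cV - v0| ≤ |cV - torVar| + |torVar - 1/π| + |1/π - v0| ≤ [C (s/n)⁴ + cutErr] + o(1) + C (s/n + 1/n²)` (`cmpV'`, `v0_bd`);  `|cM| ≤ C s/n + cutErr + |torMix|` (`cmpM`).  `s/n ≤ 1/P1`, `n ≥ P1`.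
## Leaf BR-4 `cutErr_small`, `valid_range`, `early_pow`, `sides_k`, `j0_bounds`:  calculus.
-/

set_option autoImplicit false

namespace Claimed.Agent.R285.F5

open Filter Topology Claims.C0459
open Claimed.Agent.R285.Flow

noncomputable section

/-- sizes of the critical history -/
def aS (H : Hist) (i : ℕ) : ℝ := wn (H.st xyCritical i)
def qS (H : Hist) (i : ℕ) : ℝ := ‖(H.st xyCritical i).2.2‖
/-- torus remainder at stage `i` behind the stop `j0 + h` -/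
def τS (H : Hist) (h i : ℕ) : ℝ := ‖H.tor xyCritical (H.j0 + h) i‖

theorem br_norm3 {E : Type} [NormedAddCommGroup E] (Y : ℂ × ℂ × E) : ‖Y‖ = max (wn Y) ‖Y.2.2‖ := by
  rw [wn, Prod.norm_def, Prod.norm_def, max_assoc]

theorem norm_st (H : Hist) (i : ℕ) : ‖H.st xyCritical i‖ = max (aS H i) (qS H i) := by
  exact br_norm3 _

theorem br_bs_pos (κ : MapC) : 0 < κ.bs := by
  unfold MapC.bs
  have h1 : (1 : ℝ) < κ.L := by exact_mod_cast (lt_of_lt_of_le (by norm_num : 1 < 2) κ.hL)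
  have := Real.log_pos h1
  linarith

/-- the constant of the scalar chart -/
def brCs (κ : MapC) : ℝ := 1 / κ.bs + 1 / Real.sqrt (κ.bs * κ.Hq) + 3 * κ.C

theorem br_Cs_ge (κ : MapC) : 1 ≤ brCs κ := by
  unfold brCs
  have h1 := br_bs_pos κ
  have h2 := κ.hC
  have h3 : 0 ≤ 1 / κ.bs := by positivity
  have h4 : 0 ≤ 1 / Real.sqrt (κ.bs * κ.Hq) := by positivity
  linarith

/-- the error order on the unit ball -/
theorem br_eord_le {E : Type} [NormedAddCommGroup E] [NormedSpace ℂ E] (j : ℕ) (Y : ℂ × ℂ × E) (hY : ‖Y‖ ≤ 1) : eord j Y ≤ 4 * ‖Y‖ ^ 2 := by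
  have h := eord_le4 (C := 1) (ε2 := 1 / (j : ℝ) ^ 2) zero_le_one (by positivity) (inv_sq_le_one j) hY
  unfold eord
  rw [div_eq_mul_one_div]
  linarith

/-- the unbalanced scalars are bounded by the state -/
theorem br_sc_le {κ : MapC} {H : Hist} (hM : Flow.MapOK κ H) (j : ℕ) (hj : H.j0 ≤ j) (Y : ℂ × ℂ × H.Q j) (hY : ‖Y‖ < κ.ρ)
    (hY1 : ‖Y‖ ≤ 1) : ‖H.sc j Y‖ ≤ brCs κ * ‖Y‖ := by
  have hm : Y ∈ Metric.ball (0 : ℂ × ℂ × H.Q j) κ.ρ := by simpa using hY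
  have hbs := br_bs_pos κ
  have hC := κ.hC
  have hs : 0 < Real.sqrt (κ.bs * κ.Hq) := Real.sqrt_pos.mpr (mul_pos hbs κ.hH)
  have hn0 := norm_nonneg Y
  have hw : wn Y ≤ ‖Y‖ := by rw [br_norm3]; exact le_max_left _ _
  have hq : ‖Y.2.2‖ ≤ ‖Y‖ := by rw [br_norm3]; exact le_max_right _ _
  have hw0 : 0 ≤ wn Y := le_max_of_le_left (norm_nonneg _)
  have hx : ‖Y.1‖ ≤ ‖Y‖ := (le_max_left _ _).trans hw
  have hy : ‖Y.2.1‖ ≤ ‖Y‖ := (le_max_right _ _).trans hw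
  have hw2 : wn Y ^ 2 ≤ ‖Y‖ := by
    calc wn Y ^ 2 = wn Y * wn Y := by ring
      _ ≤ ‖Y‖ * 1 := mul_le_mul hw (hw.trans hY1) hw0 hn0
      _ = ‖Y‖ := mul_one _
  have h3 : 0 ≤ 1 / κ.bs := by positivity
  have h4 : 0 ≤ 1 / Real.sqrt (κ.bs * κ.Hq) := by positivity
  have hCn : 0 ≤ κ.C * ‖Y‖ := by positivity
  rw [Prod.norm_def]
  refine max_le ?_ ?_
  · have h1 := hM.sc_t j hj Y hm
    have h2 : ‖(H.sc j Y).1‖ ≤ ‖(H.sc j Y).1 - Y.1 / κ.bs‖ + ‖Y.1 / (κ.bs : ℂ)‖ := by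
      have := norm_add_le ((H.sc j Y).1 - Y.1 / κ.bs) (Y.1 / (κ.bs : ℂ))
      simpa using this
    have h5 : ‖Y.1 / (κ.bs : ℂ)‖ ≤ 1 / κ.bs * ‖Y‖ := by
      rw [norm_div, Complex.norm_real, Real.norm_of_nonneg hbs.le, div_eq_mul_one_div, mul_comm]
      exact mul_le_mul_of_nonneg_left hx h3
    have h6 : κ.C * (wn Y ^ 2 + ‖Y.2.2‖) ≤ κ.C * (‖Y‖ + ‖Y‖) := mul_le_mul_of_nonneg_left (add_le_add hw2 hq) (by linarith)
    have h7 : 0 ≤ 1 / Real.sqrt (κ.bs * κ.Hq) * ‖Y‖ := by positivity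
    unfold brCs
    nlinarith
  · have h1 := hM.sc_z j hj Y hm
    have h2 : ‖(H.sc j Y).2‖ ≤ ‖(H.sc j Y).2 - Y.2.1 / Real.sqrt (κ.bs * κ.Hq)‖ + ‖Y.2.1 / (Real.sqrt (κ.bs * κ.Hq) : ℂ)‖ := by
      have := norm_add_le ((H.sc j Y).2 - Y.2.1 / Real.sqrt (κ.bs * κ.Hq)) (Y.2.1 / (Real.sqrt (κ.bs * κ.Hq) : ℂ))
      simpa using this
    have h5 : ‖Y.2.1 / (Real.sqrt (κ.bs * κ.Hq) : ℂ)‖ ≤ 1 / Real.sqrt (κ.bs * κ.Hq) * ‖Y‖ := by
      rw [norm_div, Complex.norm_real, Real.norm_of_nonneg hs.le, div_eq_mul_one_div, mul_comm]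
      exact mul_le_mul_of_nonneg_left hy h4
    have he : Real.exp (-κ.c * j) ≤ 1 := by
      rw [Real.exp_le_one_iff]
      have : 0 ≤ κ.c * j := mul_nonneg κ.hc.le (Nat.cast_nonneg _)
      linarith
    have h8 : Real.exp (-κ.c * j) * ‖Y.2.1‖ ≤ ‖Y‖ := by
      calc Real.exp (-κ.c * j) * ‖Y.2.1‖ ≤ 1 * ‖Y‖ := mul_le_mul he hy (norm_nonneg _) zero_le_one
        _ = ‖Y‖ := one_mul _
    have h6 : κ.C * (Real.exp (-κ.c * j) * ‖Y.2.1‖ + wn Y ^ 2 + ‖Y.2.2‖) ≤ κ.C * (‖Y‖ + ‖Y‖ + ‖Y‖) :=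
      mul_le_mul_of_nonneg_left (add_le_add (add_le_add h8 hw2) hq) (by linarith)
    have h7 : 0 ≤ 1 / κ.bs * ‖Y‖ := by positivity
    unfold brCs
    nlinarith

theorem bridge_step (κ : MapC) : ∃ C ρd : ℝ, 1 ≤ C ∧ 0 < ρd ∧ C * ρd < κ.ρ ∧ ρd ≤ 1 ∧
    ∀ (H : Hist), Flow.MapOK κ H →
      (∀ i, aS H i < ρd → qS H i < ρd →
        aS H (i + 1) ≤ aS H i + C * max (aS H i) (qS H i) ^ 2 ∧ qS H (i + 1) ≤ κ.θ * qS H i + C * aS H i ^ 2) ∧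
      (∀ h i, i < h → aS H i < ρd → qS H i < ρd → τS H h i < ρd →
        τS H h (i + 1) ≤ κ.θ * τS H h i + C * max (max (aS H i) (qS H i)) (τS H h i) ^ 2) ∧
      (∀ h i, aS H i < ρd → qS H i < ρd →
        ‖H.ts xyCritical (H.j0 + h) i‖ ≤ C * max (max (aS H i) (qS H i)) (τS H h i)) := by
  have hC0 := κ.hC
  have hCs := br_Cs_ge κ
  obtain ⟨C, hC⟩ : ∃ C : ℝ, C = 1 + 4 * κ.C + brCs κ + κ.C * brCs κ ^ 2 := ⟨_, rfl⟩
  have hCC : 0 ≤ κ.C * brCs κ ^ 2 := by positivity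
  have hC1 : 1 ≤ C := by rw [hC]; linarith
  have hCpos : 0 < C := by linarith
  have hρ := κ.hρ
  refine ⟨C, min 1 (κ.ρ / (2 * C)), hC1, lt_min one_pos (by positivity), ?_, min_le_left _ _, ?_⟩
  · calc C * min 1 (κ.ρ / (2 * C)) ≤ C * (κ.ρ / (2 * C)) := mul_le_mul_of_nonneg_left (min_le_right _ _) hCpos.le
      _ = κ.ρ / 2 := by field_simp
      _ < κ.ρ := by linarith
  obtain ⟨ρd, hρd⟩ : ∃ ρd : ℝ, ρd = min 1 (κ.ρ / (2 * C)) := ⟨_, rfl⟩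
  rw [← hρd]
  have hρd1 : ρd ≤ 1 := hρd ▸ min_le_left _ _
  have hCρ : C * ρd < κ.ρ := by
    calc C * ρd ≤ C * (κ.ρ / (2 * C)) := mul_le_mul_of_nonneg_left (hρd ▸ min_le_right _ _) hCpos.le
      _ = κ.ρ / 2 := by field_simp
      _ < κ.ρ := by linarith
  have hρd0 : 0 < ρd := hρd ▸ lt_min one_pos (by positivity)
  have hρdρ : ρd < κ.ρ := lt_of_le_of_lt (le_mul_of_one_le_left hρd0.le hC1) hCρ
  intro H hM
  -- the torus state
  have hts : ∀ h i, aS H i < ρd → qS H i < ρd →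
      ‖H.ts xyCritical (H.j0 + h) i‖ ≤ brCs κ * max (max (aS H i) (qS H i)) (τS H h i) := by
    intro h i ha hq
    have hn : ‖H.st xyCritical i‖ < ρd := by rw [norm_st]; exact max_lt ha hq
    have h1 := br_sc_le hM (H.j0 + i) (by omega) (H.st xyCritical i) (hn.trans hρdρ) (hn.le.trans hρd1)
    rw [norm_st] at h1
    have hτ0 : 0 ≤ τS H h i := norm_nonneg _
    rw [Hist.ts, Prod.norm_def]
    refine max_le ?_ ?_
    · exact h1.trans (mul_le_mul_of_nonneg_left (le_max_left _ _) (by linarith))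
    · show τS H h i ≤ _
      calc τS H h i ≤ max (max (aS H i) (qS H i)) (τS H h i) := le_max_right _ _
        _ ≤ brCs κ * max (max (aS H i) (qS H i)) (τS H h i) := le_mul_of_one_le_left (le_max_of_le_right hτ0) hCs
  refine ⟨?_, ?_, ?_⟩
  · intro i ha hq
    obtain ⟨Y, hY⟩ : ∃ Y, Y = H.st xyCritical i := ⟨_, rfl⟩
    have hn : ‖Y‖ < ρd := by rw [hY, norm_st]; exact max_lt ha hq
    have hm : Y ∈ Metric.ball (0 : ℂ × ℂ × H.Q (H.j0 + i)) κ.ρ := by simpa using hn.trans hρdρ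
    have hstep : H.st xyCritical (i + 1) = H.N (H.j0 + i) Y := by rw [hY]; rfl
    have he := br_eord_le (H.j0 + i) Y (hn.le.trans hρd1)
    have hCe : κ.C * eord (H.j0 + i) Y ≤ 4 * κ.C * ‖Y‖ ^ 2 := by
      calc κ.C * eord (H.j0 + i) Y ≤ κ.C * (4 * ‖Y‖ ^ 2) := mul_le_mul_of_nonneg_left he (by linarith)
        _ = _ := by ring
    have hmax : max (aS H i) (qS H i) = ‖Y‖ := by rw [hY, norm_st]
    have haY : aS H i = wn Y := by rw [hY]; rfl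
    have hqY : qS H i = ‖Y.2.2‖ := by rw [hY]; rfl
    have hw : wn Y ≤ ‖Y‖ := by rw [br_norm3]; exact le_max_left _ _
    have hw0 : 0 ≤ wn Y := le_max_of_le_left (norm_nonneg _)
    have hx : ‖Y.1‖ ≤ wn Y := le_max_left _ _
    have hy : ‖Y.2.1‖ ≤ wn Y := le_max_right _ _
    have hww : wn Y * wn Y ≤ ‖Y‖ ^ 2 := by
      rw [sq]; exact mul_le_mul hw hw hw0 (norm_nonneg _)
    have hn2 : 0 ≤ ‖Y‖ ^ 2 := by positivity
    rw [hmax, haY, hqY]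
    constructor
    · show wn (H.st xyCritical (i + 1)) ≤ _
      rw [hstep, wn]
      have hfin : wn Y + wn Y * wn Y + 4 * κ.C * ‖Y‖ ^ 2 ≤ wn Y + C * ‖Y‖ ^ 2 := by
        have : (1 + 4 * κ.C) * ‖Y‖ ^ 2 ≤ C * ‖Y‖ ^ 2 := mul_le_mul_of_nonneg_right (by rw [hC]; linarith) hn2
        linarith
      refine max_le ?_ ?_
      · have h1 := hM.N_x (H.j0 + i) (by omega) Y hm
        have h2 : ‖(H.N (H.j0 + i) Y).1‖ ≤ ‖(H.N (H.j0 + i) Y).1 - (Y.1 - Y.2.1 ^ 2)‖ + ‖Y.1 - Y.2.1 ^ 2‖ := by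
          have := norm_add_le ((H.N (H.j0 + i) Y).1 - (Y.1 - Y.2.1 ^ 2)) (Y.1 - Y.2.1 ^ 2)
          simpa using this
        have h3 : ‖Y.1 - Y.2.1 ^ 2‖ ≤ wn Y + wn Y * wn Y := by
          refine (norm_sub_le _ _).trans (add_le_add hx ?_)
          rw [norm_pow, sq]
          exact mul_le_mul hy hy (norm_nonneg _) hw0
        linarith
      · have h1 := hM.N_y (H.j0 + i) (by omega) Y hm
        have h2 : ‖(H.N (H.j0 + i) Y).2.1‖ ≤ ‖(H.N (H.j0 + i) Y).2.1 - (Y.2.1 - Y.1 * Y.2.1)‖ + ‖Y.2.1 - Y.1 * Y.2.1‖ := by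
          have := norm_add_le ((H.N (H.j0 + i) Y).2.1 - (Y.2.1 - Y.1 * Y.2.1)) (Y.2.1 - Y.1 * Y.2.1)
          simpa using this
        have h3 : ‖Y.2.1 - Y.1 * Y.2.1‖ ≤ wn Y + wn Y * wn Y := by
          refine (norm_sub_le _ _).trans (add_le_add hy ?_)
          rw [norm_mul]
          exact mul_le_mul hx hy (norm_nonneg _) hw0
        linarith
    · show ‖(H.st xyCritical (i + 1)).2.2‖ ≤ _
      rw [hstep]
      have h1 := hM.N_q (H.j0 + i) (by omega) Y hm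
      have : κ.C * wn Y ^ 2 ≤ C * wn Y ^ 2 := mul_le_mul_of_nonneg_right (by rw [hC]; linarith) (by positivity)
      linarith
  · intro h i hih ha hq hτ
    obtain ⟨M, hMd⟩ : ∃ M : ℝ, M = max (max (aS H i) (qS H i)) (τS H h i) := ⟨_, rfl⟩
    have h1 := hts h i ha hq
    rw [← hMd] at h1 ⊢
    have hMρ : M < ρd := by rw [hMd]; exact max_lt (max_lt ha hq) hτ
    have hM0 : 0 ≤ M := by rw [hMd]; exact le_max_of_le_right (norm_nonneg _)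
    have hXρ : ‖H.ts xyCritical (H.j0 + h) i‖ < κ.ρ := by
      calc ‖H.ts xyCritical (H.j0 + h) i‖ ≤ brCs κ * M := h1
        _ ≤ C * M := mul_le_mul_of_nonneg_right (by rw [hC]; linarith) hM0
        _ ≤ C * ρd := mul_le_mul_of_nonneg_left hMρ.le hCpos.le
        _ < κ.ρ := hCρ
    have h2 := hM.Ψ_bd (H.j0 + i) (H.j0 + h) (by omega) (by omega) (H.ts xyCritical (H.j0 + h) i) (by simpa using hXρ)
    have h3 : ‖H.ts xyCritical (H.j0 + h) i‖ ^ 2 ≤ (brCs κ * M) ^ 2 := pow_le_pow_left₀ (norm_nonneg _) h1 2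
    have h4 : κ.C * ‖H.ts xyCritical (H.j0 + h) i‖ ^ 2 ≤ C * M ^ 2 := by
      calc κ.C * ‖H.ts xyCritical (H.j0 + h) i‖ ^ 2 ≤ κ.C * (brCs κ * M) ^ 2 := mul_le_mul_of_nonneg_left h3 (by linarith)
        _ = (κ.C * brCs κ ^ 2) * M ^ 2 := by ring
        _ ≤ C * M ^ 2 := mul_le_mul_of_nonneg_right (by rw [hC]; linarith) (by positivity)
    have h5 : τS H h (i + 1) = ‖H.Ψ (H.j0 + i) (H.j0 + h) (H.ts xyCritical (H.j0 + h) i)‖ := rfl
    have h6 : ‖(H.ts xyCritical (H.j0 + h) i).2‖ = τS H h i := rfl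
    rw [h5]
    rw [h6] at h2
    linarith
  · intro h i ha hq
    refine (hts h i ha hq).trans (mul_le_mul_of_nonneg_right (by rw [hC]; linarith) ?_)
    exact le_max_of_le_right (norm_nonneg _)

/-- the side is positive -/
theorem br_side_pos {κ : MapC} {κe : EntC} {ρe : ℝ} {s : ℕ} {H : Hist} (hE : EntryOK κ κe ρe s H) : 1 ≤ s := by
  rcases Nat.eq_zero_or_pos s with h0 | h0
  · have h1 := hE.side
    rw [h0, mul_zero] at h1
    have : 0 < κ.L ^ H.j0 := pow_pos (lt_of_lt_of_le (by norm_num) κ.hL) _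
    omega
  · exact h0

/-- the critical parameter lies in the disk -/
theorem br_crit_mem {κ : MapC} {κe : EntC} {ρe : ℝ} {s : ℕ} {H : Hist} (hE : EntryOK κ κe ρe s H) :
    ((xyCritical : ℝ) : ℂ) ∈ disk κe s := by
  have hs : (0 : ℝ) < s := by exact_mod_cast br_side_pos hE
  have := κe.hc
  exact Metric.mem_ball_self (by positivity)

/-- the small geometric ratios at a stop with `s P ≤ n` -/
theorem br_ratio {s P n : ℕ} (hs : 1 ≤ s) (hP : 1 ≤ P) (h : s * P ≤ n) :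
    (s : ℝ) / n ≤ 1 / P ∧ 1 / (n : ℝ) ^ 2 ≤ 1 / P ∧ 0 ≤ (s : ℝ) / n ∧ P ≤ n := by
  have hPn : P ≤ n := le_trans (Nat.le_mul_of_pos_left _ hs) h
  have hn : 1 ≤ n := le_trans hP hPn
  have hnr : (1 : ℝ) ≤ n := by exact_mod_cast hn
  have hPr : (1 : ℝ) ≤ P := by exact_mod_cast hP
  have hr : (s : ℝ) * P ≤ n := by exact_mod_cast h
  have hPnr : (P : ℝ) ≤ n := by exact_mod_cast hPn
  refine ⟨?_, ?_, by positivity, hPn⟩
  · rw [div_le_div_iff₀ (by linarith) (by linarith)]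
    linarith
  · apply one_div_le_one_div_of_le (by linarith)
    calc (P : ℝ) ≤ n := hPnr
      _ = n * 1 := (mul_one _).symm
      _ ≤ n * n := mul_le_mul_of_nonneg_left hnr (by linarith)
      _ = (n : ℝ) ^ 2 := by ring

/-- from a read-out to its scalar -/
theorem br_scalar_le {r w : ℂ} {k δ E c : ℝ} (hr : ‖r‖ ≤ δ) (hb : ‖r - (k : ℂ) * w‖ ≤ E) (hc : 0 < c) (hk : c ≤ |k|) :
    ‖w‖ ≤ (δ + E) / c := by
  have h1 : ‖(k : ℂ) * w‖ ≤ δ + E := by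
    have := norm_sub_le r (r - (k : ℂ) * w)
    rw [sub_sub_cancel] at this
    linarith
  rw [norm_mul, Complex.norm_real, Real.norm_eq_abs] at h1
  rw [le_div_iff₀ hc]
  have h2 : c * ‖w‖ ≤ |k| * ‖w‖ := mul_le_mul_of_nonneg_right hk (norm_nonneg _)
  linarith

theorem bridge_diag (κ : MapC) : ∃ (C ρd δ1 : ℝ) (J0 : ℕ), 1 ≤ C ∧ 0 < ρd ∧ 0 < δ1 ∧
    ∀ (κe : EntC) (ρe : ℝ) (s : ℕ) (H : Hist), SysOK κ κe ρe s H → J0 ≤ H.j0 → 1 / (κe.P0 : ℝ) ≤ δ1 →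
      ∀ (i : ℕ) (δ : ℝ), Valid κ κe s H (H.j0 + i) →
        (∀ i' ≤ i, aS H i' < ρd ∧ qS H i' < ρd ∧ τS H i i' < ρd) →
        |H.cV (H.j0 + i) xyCritical - H.v0 (H.j0 + i)| ≤ δ → |H.cM (H.j0 + i) xyCritical| ≤ δ →
        aS H i ≤ C * (δ + τS H i i + qS H i + max (max (aS H i) (qS H i)) (τS H i i) ^ 2) := by
  obtain ⟨Cb, ρb, hCb1, hρb0, hCbρ, hρb1, hstep⟩ := bridge_step κ
  have hC := κ.hC
  have hC0 : 0 < κ.C := by linarith
  have hc := κ.hc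
  have hbs := br_bs_pos κ
  have hπ := Real.pi_pos
  obtain ⟨st, hst⟩ : ∃ st : ℝ, st = Real.sqrt (κ.bs * κ.Hq) := ⟨_, rfl⟩
  have hst0 : 0 < st := hst ▸ Real.sqrt_pos.mpr (mul_pos hbs κ.hH)
  -- the index J0
  obtain ⟨J0, hJ0⟩ : ∃ J0 : ℕ, κ.C * Real.exp (-κ.c * J0) ≤ 1 / (2 * st) := by
    have he1 : Real.exp (-κ.c) < 1 := by rw [Real.exp_lt_one_iff]; linarith
    obtain ⟨n, hn⟩ := exists_pow_lt_of_lt_one (show 0 < 1 / (2 * st) / κ.C by positivity) he1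
    refine ⟨n, ?_⟩
    rw [← Real.exp_nat_mul] at hn
    rw [lt_div_iff₀ hC0] at hn
    have e : (n : ℝ) * -κ.c = -κ.c * n := by ring
    rw [e] at hn
    linarith
  obtain ⟨Kt, hKt⟩ : ∃ Kt : ℝ, Kt = 2 * Real.pi + 1 / κ.c := ⟨_, rfl⟩
  obtain ⟨Ks, hKs⟩ : ∃ Ks : ℝ, Ks = κ.bs + 2 * st := ⟨_, rfl⟩
  obtain ⟨W, hW⟩ : ∃ W : ℝ, W = κ.C * (1 + Cb ^ 2) := ⟨_, rfl⟩
  have hKt0 : 0 < Kt := by rw [hKt]; positivity
  have hKs0 : 0 < Ks := by rw [hKs]; positivity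
  have hW1 : 1 ≤ W := by
    rw [hW]
    have : 0 ≤ Cb ^ 2 := by positivity
    calc (1 : ℝ) = 1 * 1 := by norm_num
      _ ≤ κ.C * (1 + Cb ^ 2) := mul_le_mul hC (by linarith) (by norm_num) hC0.le
  have hW0 : 0 < W := by linarith
  refine ⟨1 + Ks * (Kt + 1) * W, ρb, 1 / (4 * Real.pi * κ.C), J0, ?_, hρb0, by positivity, ?_⟩
  · have : 0 ≤ Ks * (Kt + 1) * W := by positivity
    linarith
  intro κe ρe s H hS hJ hP0 i δ hV hsz hcV hcM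
  obtain ⟨hs1, hs2, hs3⟩ := hstep H hS.map
  have hρbρ : ρb < κ.ρ := lt_of_le_of_lt (le_mul_of_one_le_left hρb0.le hCb1) hCbρ
  have hb := br_crit_mem hS.entry
  have hs := br_side_pos hS.entry
  have hδ0 : 0 ≤ δ := (abs_nonneg _).trans hcV
  -- inside
  have hts : ∀ i' ≤ i, ‖H.ts xyCritical (H.j0 + i) i'‖ < κ.ρ := by
    intro i' hi'
    obtain ⟨b1, b2, b3⟩ := hsz i' hi'
    calc ‖H.ts xyCritical (H.j0 + i) i'‖ ≤ Cb * max (max (aS H i') (qS H i')) (τS H i i') := hs3 i i' b1 b2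
      _ ≤ Cb * ρb := mul_le_mul_of_nonneg_left (max_lt (max_lt b1 b2) b3).le (by linarith)
      _ < κ.ρ := hCbρ
  have hin : H.Inside κ.ρ xyCritical (H.j0 + i) i := by
    intro i' hi'
    obtain ⟨b1, b2, b3⟩ := hsz i' hi'
    refine ⟨?_, hts i' hi'⟩
    rw [norm_st]
    exact (max_lt b1 b2).trans hρbρ
  obtain ⟨b1, b2, b3⟩ := hsz i le_rfl
  obtain ⟨X, hX⟩ : ∃ X, X = H.ts xyCritical (H.j0 + i) i := ⟨_, rfl⟩
  obtain ⟨Y, hY⟩ : ∃ Y, Y = H.st xyCritical i := ⟨_, rfl⟩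
  obtain ⟨a, ha⟩ : ∃ a : ℝ, a = aS H i := ⟨_, rfl⟩
  obtain ⟨q, hq⟩ : ∃ q : ℝ, q = qS H i := ⟨_, rfl⟩
  obtain ⟨τ, hτ⟩ : ∃ τ : ℝ, τ = τS H i i := ⟨_, rfl⟩
  obtain ⟨M, hM⟩ : ∃ M : ℝ, M = max (max a q) τ := ⟨_, rfl⟩
  have hXM : ‖X‖ ≤ Cb * M := by rw [hX, hM, ha, hq, hτ]; exact hs3 i i b1 b2
  have hXρ : X ∈ Metric.ball (0 : (ℂ × ℂ) × H.T (H.j0 + i) (H.j0 + i)) κ.ρ := by
    simpa [hX] using hts i le_rfl
  have hYρ : Y ∈ Metric.ball (0 : ℂ × ℂ × H.Q (H.j0 + i)) κ.ρ := by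
    have := (hin i le_rfl).1
    simpa [hY] using this
  have hX2 : ‖X.2‖ = τ := by rw [hX, hτ]; rfl
  have hX11 : X.1.1 = (H.sc (H.j0 + i) Y).1 := by rw [hX, hY]; rfl
  have hX12 : X.1.2 = (H.sc (H.j0 + i) Y).2 := by rw [hX, hY]; rfl
  have haY : a = wn Y := by rw [ha, hY]; rfl
  have hqY : q = ‖Y.2.2‖ := by rw [hq, hY]; rfl
  have ha0 : 0 ≤ a := by rw [haY]; exact le_max_of_le_left (norm_nonneg _)
  have hq0 : 0 ≤ q := by rw [hqY]; exact norm_nonneg _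
  have hτ0 : 0 ≤ τ := by rw [← hX2]; exact norm_nonneg _
  have haM : a ≤ M := by rw [hM]; exact le_max_of_le_left (le_max_left _ _)
  have hM0 : 0 ≤ M := ha0.trans haM
  rw [← ha, ← hq, ← hτ, ← hM]
  obtain ⟨S, hSd⟩ : ∃ S : ℝ, S = δ + τ + q + M ^ 2 := ⟨_, rfl⟩
  rw [← hSd]
  have hM2 : 0 ≤ M ^ 2 := by positivity
  have hS0 : 0 ≤ S := by rw [hSd]; positivity
  -- E and F
  have hE : δ + κ.C * (‖X.2‖ + ‖X‖ ^ 2) ≤ W * S := by
    have h1 : ‖X‖ ^ 2 ≤ Cb ^ 2 * M ^ 2 := by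
      calc ‖X‖ ^ 2 ≤ (Cb * M) ^ 2 := pow_le_pow_left₀ (norm_nonneg _) hXM 2
        _ = _ := by ring
    have h2 : κ.C * (‖X.2‖ + ‖X‖ ^ 2) ≤ κ.C * (τ + Cb ^ 2 * M ^ 2) := by
      rw [hX2]; exact mul_le_mul_of_nonneg_left (add_le_add le_rfl h1) hC0.le
    have hCb2 : 0 ≤ Cb ^ 2 := by positivity
    have e : W * S = δ + κ.C * (τ + Cb ^ 2 * M ^ 2) + ((W - 1) * δ + κ.C * Cb ^ 2 * τ + W * q + κ.C * M ^ 2) := by
      rw [hSd, hW]; ring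
    have h3 : 0 ≤ (W - 1) * δ + κ.C * Cb ^ 2 * τ + W * q + κ.C * M ^ 2 := by
      have : 0 ≤ W - 1 := by linarith
      positivity
    linarith
  have hF : κ.C * (a ^ 2 + q) ≤ W * S := by
    have h1 : a ^ 2 ≤ M ^ 2 := pow_le_pow_left₀ ha0 haM 2
    have h2 : κ.C * (a ^ 2 + q) ≤ κ.C * (M ^ 2 + q) := mul_le_mul_of_nonneg_left (add_le_add h1 le_rfl) hC0.le
    have hCb2 : 0 ≤ Cb ^ 2 := by positivity
    have e : W * S = κ.C * (M ^ 2 + q) + (W * δ + W * τ + κ.C * Cb ^ 2 * q + κ.C * Cb ^ 2 * M ^ 2) := by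
      rw [hSd, hW]; ring
    have h3 : 0 ≤ W * δ + W * τ + κ.C * Cb ^ 2 * q + κ.C * Cb ^ 2 * M ^ 2 := by positivity
    linarith
  have hWS0 : 0 ≤ W * S := by positivity
  -- the multiplier kV
  obtain ⟨r1, r2, r0, r3⟩ := br_ratio hs κe.hP hV.2.1
  have hkV : 1 / (2 * Real.pi) ≤ |H.kV (H.j0 + i)| := by
    have h1 := hS.read.kV_bd (H.j0 + i) hV.1
    have h2 : κ.C * ((s : ℝ) / κ.n (H.j0 + i) + 1 / (κ.n (H.j0 + i) : ℝ) ^ 2) ≤ κ.C * (1 / (4 * Real.pi * κ.C) + 1 / (4 * Real.pi * κ.C)) :=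
      mul_le_mul_of_nonneg_left (add_le_add (r1.trans hP0) (r2.trans hP0)) hC0.le
    have e : κ.C * (1 / (4 * Real.pi * κ.C) + 1 / (4 * Real.pi * κ.C)) = 1 / (2 * Real.pi) := by
      field_simp; ring
    rw [e] at h2
    have h3 := (abs_le.mp (h1.trans h2)).1
    have e2 : 1 / Real.pi = 1 / (2 * Real.pi) + 1 / (2 * Real.pi) := by field_simp; ring
    have h4 : 1 / (2 * Real.pi) ≤ H.kV (H.j0 + i) := by linarith
    exact h4.trans (le_abs_self _)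
  -- t
  have ht : ‖X.1.1‖ ≤ Kt * (W * S) := by
    have h1 := hS.read.repV xyCritical i hb hV hin
    have h2 : H.rV (H.j0 + i) X = ((H.cV (H.j0 + i) xyCritical - H.v0 (H.j0 + i) : ℝ) : ℂ) := by
      rw [hX]; push_cast; rw [h1]; ring
    have h3 : ‖H.rV (H.j0 + i) X‖ ≤ δ := by
      rw [h2, Complex.norm_real, Real.norm_eq_abs]; exact hcV
    have h4 := br_scalar_le h3 (hS.read.rV_bd (H.j0 + i) hV.1 X hXρ) (by positivity) hkV
    have h5 : (δ + κ.C * (‖X.2‖ + ‖X‖ ^ 2)) / (1 / (2 * Real.pi)) = 2 * Real.pi * (δ + κ.C * (‖X.2‖ + ‖X‖ ^ 2)) := by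
      field_simp
    rw [h5] at h4
    calc ‖X.1.1‖ ≤ 2 * Real.pi * (δ + κ.C * (‖X.2‖ + ‖X‖ ^ 2)) := h4
      _ ≤ 2 * Real.pi * (W * S) := mul_le_mul_of_nonneg_left hE (by positivity)
      _ ≤ Kt * (W * S) := mul_le_mul_of_nonneg_right (by rw [hKt]; have : 0 ≤ 1 / κ.c := by positivity
                                                         linarith) hWS0
  have hz : ‖X.1.2‖ ≤ Kt * (W * S) := by
    have h1 := hS.read.repM xyCritical i hb hV hin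
    have h3 : ‖H.rM (H.j0 + i) X‖ ≤ δ := by
      rw [hX, ← h1, Complex.norm_real, Real.norm_eq_abs]; exact hcM
    have h4 := br_scalar_le h3 (hS.read.rM_bd (H.j0 + i) hV.1 X hXρ) hc (hS.read.kM_bd (H.j0 + i) hV).1
    have h5 : (δ + κ.C * (‖X.2‖ + ‖X‖ ^ 2)) / κ.c = 1 / κ.c * (δ + κ.C * (‖X.2‖ + ‖X‖ ^ 2)) := by
      field_simp
    rw [h5] at h4
    calc ‖X.1.2‖ ≤ 1 / κ.c * (δ + κ.C * (‖X.2‖ + ‖X‖ ^ 2)) := h4
      _ ≤ 1 / κ.c * (W * S) := mul_le_mul_of_nonneg_left hE (by positivity)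
      _ ≤ Kt * (W * S) := mul_le_mul_of_nonneg_right (by rw [hKt]; linarith) hWS0
  -- x
  have hx : ‖Y.1‖ ≤ Ks * (Kt + 1) * W * S := by
    have h1 := hS.map.sc_t (H.j0 + i) (by omega) Y hYρ
    rw [← hX11, ← haY, ← hqY] at h1
    have h2 : ‖Y.1 / (κ.bs : ℂ)‖ ≤ ‖X.1.1‖ + κ.C * (a ^ 2 + q) := by
      have := norm_sub_le X.1.1 (X.1.1 - Y.1 / (κ.bs : ℂ))
      rw [sub_sub_cancel] at this
      linarith
    rw [norm_div, Complex.norm_real, Real.norm_of_nonneg hbs.le, div_le_iff₀ hbs] at h2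
    calc ‖Y.1‖ ≤ (‖X.1.1‖ + κ.C * (a ^ 2 + q)) * κ.bs := h2
      _ ≤ (Kt * (W * S) + W * S) * κ.bs := mul_le_mul_of_nonneg_right (add_le_add ht hF) hbs.le
      _ = κ.bs * ((Kt + 1) * (W * S)) := by ring
      _ ≤ Ks * ((Kt + 1) * (W * S)) := mul_le_mul_of_nonneg_right (by rw [hKs]; linarith) (by positivity)
      _ = _ := by ring
  have hy : ‖Y.2.1‖ ≤ Ks * (Kt + 1) * W * S := by
    have h1 := hS.map.sc_z (H.j0 + i) (by omega) Y hYρ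
    rw [← hX12, ← haY, ← hqY, ← hst] at h1
    have h2 : ‖Y.2.1 / (st : ℂ)‖ ≤ ‖X.1.2‖ + κ.C * (Real.exp (-κ.c * ((H.j0 + i : ℕ) : ℝ)) * ‖Y.2.1‖ + a ^ 2 + q) := by
      have := norm_sub_le X.1.2 (X.1.2 - Y.2.1 / (st : ℂ))
      rw [sub_sub_cancel] at this
      linarith
    rw [norm_div, Complex.norm_real, Real.norm_of_nonneg hst0.le] at h2
    have he : κ.C * Real.exp (-κ.c * ((H.j0 + i : ℕ) : ℝ)) ≤ 1 / (2 * st) := by
      refine le_trans (mul_le_mul_of_nonneg_left (Real.exp_le_exp.mpr ?_) hC0.le) hJ0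
      have : (J0 : ℝ) ≤ ((H.j0 + i : ℕ) : ℝ) := by exact_mod_cast (by omega : J0 ≤ H.j0 + i)
      have := mul_le_mul_of_nonneg_left this hc.le
      linarith
    have h3 : κ.C * Real.exp (-κ.c * ((H.j0 + i : ℕ) : ℝ)) * ‖Y.2.1‖ ≤ 1 / (2 * st) * ‖Y.2.1‖ :=
      mul_le_mul_of_nonneg_right he (norm_nonneg _)
    have e1 : κ.C * (Real.exp (-κ.c * ((H.j0 + i : ℕ) : ℝ)) * ‖Y.2.1‖ + a ^ 2 + q)
        = κ.C * Real.exp (-κ.c * ((H.j0 + i : ℕ) : ℝ)) * ‖Y.2.1‖ + κ.C * (a ^ 2 + q) := by ring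
    have e2 : ‖Y.2.1‖ / st = 1 / (2 * st) * ‖Y.2.1‖ + 1 / (2 * st) * ‖Y.2.1‖ := by field_simp; ring
    have h4 : 1 / (2 * st) * ‖Y.2.1‖ ≤ Kt * (W * S) + W * S := by linarith
    have h5 : ‖Y.2.1‖ ≤ (2 * st) * (Kt * (W * S) + W * S) := by
      have := mul_le_mul_of_nonneg_left h4 (show 0 ≤ 2 * st by positivity)
      have e3 : 2 * st * (1 / (2 * st) * ‖Y.2.1‖) = ‖Y.2.1‖ := by field_simp
      rwa [e3] at this
    calc ‖Y.2.1‖ ≤ (2 * st) * (Kt * (W * S) + W * S) := h5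
      _ = (2 * st) * ((Kt + 1) * (W * S)) := by ring
      _ ≤ Ks * ((Kt + 1) * (W * S)) := mul_le_mul_of_nonneg_right (by rw [hKs]; linarith) (by positivity)
      _ = _ := by ring
  have hfin : a ≤ Ks * (Kt + 1) * W * S := by
    rw [haY]; exact max_le hx hy
  have : (1 + Ks * (Kt + 1) * W) * S = S + Ks * (Kt + 1) * W * S := by ring
  linarith

theorem diag_at (κ : MapC) (δ : ℝ) (hδ : 0 < δ) : ∃ P1 : ℕ, 1 ≤ P1 ∧
    ∀ (κe : EntC) (ρe : ℝ) (s : ℕ) (H : Hist), SysOK κ κe ρe s H → ∀ h, Valid κ κe s H h → s * P1 ≤ κ.n h →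
      cutErr κ κe s h ≤ δ / 4 → |H.cV h xyCritical - H.v0 h| ≤ δ ∧ |H.cM h xyCritical| ≤ δ := by
  have hC := κ.hC
  obtain ⟨N1, hN1⟩ := Metric.tendsto_atTop.mp L54.tor_crit_var' (δ / 4) (by positivity)
  have hmix : Tendsto (fun m : ℕ => torMix xyCritical (2 * m) κ.w0) atTop (𝓝 0) := L54.tor_crit_mix' κ.w0
  obtain ⟨N2, hN2⟩ := Metric.tendsto_atTop.mp hmix (δ / 4) (by positivity)
  obtain ⟨P3, hP3⟩ := exists_nat_ge (12 * κ.C / δ)
  refine ⟨max (max N1 (2 * N2)) (max P3 1), le_max_of_le_right (le_max_right _ _), ?_⟩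
  obtain ⟨P1, hP1⟩ : ∃ P1 : ℕ, P1 = max (max N1 (2 * N2)) (max P3 1) := ⟨_, rfl⟩
  rw [← hP1]
  have a1 : N1 ≤ P1 := hP1 ▸ le_max_of_le_left (le_max_left _ _)
  have a2 : 2 * N2 ≤ P1 := hP1 ▸ le_max_of_le_left (le_max_right _ _)
  have a3 : P3 ≤ P1 := hP1 ▸ le_max_of_le_right (le_max_left _ _)
  have a4 : 1 ≤ P1 := hP1 ▸ le_max_of_le_right (le_max_right _ _)
  have hP1r : (1 : ℝ) ≤ P1 := by exact_mod_cast a4
  have hsmall : 3 * κ.C * (1 / (P1 : ℝ)) ≤ δ / 4 := by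
    have h1 : 12 * κ.C / δ ≤ P1 := hP3.trans (by exact_mod_cast a3)
    rw [div_le_iff₀ hδ] at h1
    rw [mul_one_div, div_le_iff₀ (by linarith)]
    linarith
  intro κe ρe s H hS h hV hsP hcut
  have hs := br_side_pos hS.entry
  have hb := br_crit_mem hS.entry
  obtain ⟨r1, r2, r0, r3⟩ := br_ratio hs a4 hsP
  obtain ⟨x, hx⟩ : ∃ x : ℝ, x = (s : ℝ) / κ.n h := ⟨_, rfl⟩
  rw [← hx] at r1 r0
  have hinv1 : 1 / (P1 : ℝ) ≤ 1 := by
    rw [div_le_one (by linarith)]; exact hP1r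
  have hx1 : x ≤ 1 := r1.trans hinv1
  have hx4 : x ^ 4 ≤ 1 / (P1 : ℝ) := by
    calc x ^ 4 = x ^ 3 * x := by ring
      _ ≤ 1 * x := mul_le_mul_of_nonneg_right (pow_le_one₀ r0 hx1) r0
      _ = x := one_mul x
      _ ≤ _ := r1
  constructor
  · have c1 := hS.read.cmpV' xyCritical h hb hV
    have c2 := hS.read.v0_bd h hV.1
    have c3 := hN1 (κ.n h) (a1.trans r3)
    rw [Real.dist_eq] at c3
    rw [← hx] at c1 c2
    have e : H.cV h xyCritical - H.v0 h = -(torVar xyCritical (κ.n h) - H.cV h xyCritical) + (torVar xyCritical (κ.n h) - 1 / Real.pi)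
        - (H.v0 h - 1 / Real.pi) := by ring
    have t1 : |H.cV h xyCritical - H.v0 h| ≤ |torVar xyCritical (κ.n h) - H.cV h xyCritical| + |torVar xyCritical (κ.n h) - 1 / Real.pi|
        + |H.v0 h - 1 / Real.pi| := by
      rw [e]
      refine (abs_sub _ _).trans (add_le_add ((abs_add_le _ _).trans ?_) le_rfl)
      rw [abs_neg]
    have m1 : κ.C * x ^ 4 ≤ κ.C * (1 / (P1 : ℝ)) := mul_le_mul_of_nonneg_left hx4 (by linarith)
    have m2 : κ.C * (x + 1 / (κ.n h : ℝ) ^ 2) ≤ κ.C * (1 / (P1 : ℝ) + 1 / (P1 : ℝ)) :=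
      mul_le_mul_of_nonneg_left (add_le_add r1 r2) (by linarith)
    linarith
  · have c1 := hS.read.cmpM xyCritical h hb hV
    rw [← hx] at c1
    obtain ⟨r, hr⟩ := κ.hD2
    have hn2 : κ.n h = 2 * (r * κ.L ^ h) := by
      unfold MapC.n; rw [hr]; ring
    have hm : N2 ≤ r * κ.L ^ h := by
      have : 2 * N2 ≤ 2 * (r * κ.L ^ h) := by rw [← hn2]; exact a2.trans r3
      omega
    have c3 := hN2 (r * κ.L ^ h) hm
    rw [Real.dist_eq, sub_zero, ← hn2] at c3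
    have e : H.cM h xyCritical = -(torMix xyCritical (κ.n h) κ.w0 - H.cM h xyCritical) + torMix xyCritical (κ.n h) κ.w0 := by ring
    have t1 : |H.cM h xyCritical| ≤ |torMix xyCritical (κ.n h) κ.w0 - H.cM h xyCritical| + |torMix xyCritical (κ.n h) κ.w0| := by
      conv_lhs => rw [e]
      refine (abs_add_le _ _).trans ?_
      rw [abs_neg]
    have m1 : κ.C * x ≤ κ.C * (1 / (P1 : ℝ)) := mul_le_mul_of_nonneg_left r1 (by linarith)
    have m0 : 0 ≤ κ.C * (1 / (P1 : ℝ)) := by positivity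
    linarith

/-- the cutoff error is superexponentially small as long as `h = o(s²)` -/
theorem cutErr_small (κ : MapC) (κe : EntC) (Jm : ℕ → ℕ) (hJ : Tendsto (fun s => (Jm s : ℝ) / (s : ℝ) ^ 2) atTop (𝓝 0)) :
    ∀ᶠ s : ℕ in atTop, ∀ h, h ≤ Jm s → cutErr κ κe s h ≤ Real.exp (-(κe.c / 2) * (s : ℝ) ^ 2) := by
  obtain ⟨A, hA⟩ : ∃ A : ℝ, A = Real.log κe.C + κe.C * Real.log κ.D0 := ⟨_, rfl⟩
  obtain ⟨B, hB⟩ : ∃ B : ℝ, B = κe.C * Real.log κ.L := ⟨_, rfl⟩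
  have hc := κe.hc
  have hC := κe.hC
  have hC0 : 0 < κe.C := by linarith
  have hL1 : (1 : ℝ) ≤ κ.L := by exact_mod_cast (le_trans (by norm_num : 1 ≤ 2) κ.hL)
  have hL0 : (0 : ℝ) < κ.L := by linarith
  have hD1 : (1 : ℝ) ≤ κ.D0 := by exact_mod_cast κ.hD
  have hD0 : (0 : ℝ) < κ.D0 := by linarith
  have h1 : Tendsto (fun s : ℕ => A / (s : ℝ) ^ 2 + B * ((Jm s : ℝ) / (s : ℝ) ^ 2)) atTop (𝓝 (0 + B * 0)) := by
    refine Tendsto.add ?_ (hJ.const_mul B)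
    exact tendsto_const_nhds.div_atTop ((tendsto_pow_atTop two_ne_zero).comp tendsto_natCast_atTop_atTop)
  rw [mul_zero, add_zero] at h1
  have h2 : ∀ᶠ s : ℕ in atTop, A / (s : ℝ) ^ 2 + B * ((Jm s : ℝ) / (s : ℝ) ^ 2) < κe.c / 2 :=
    h1.eventually (Iio_mem_nhds (by positivity))
  filter_upwards [h2, eventually_gt_atTop 0] with s hs hs0 h hh
  have hs1 : (0 : ℝ) < s := by exact_mod_cast hs0
  have hs2 : 0 < (s : ℝ) ^ 2 := by positivity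
  have h3 : A + B * Jm s ≤ κe.c / 2 * (s : ℝ) ^ 2 := by
    have h4 := (mul_lt_mul_of_pos_right hs hs2).le
    have e : (A / (s : ℝ) ^ 2 + B * ((Jm s : ℝ) / (s : ℝ) ^ 2)) * (s : ℝ) ^ 2 = A + B * Jm s := by
      field_simp
    rwa [e] at h4
  have hn : (κ.n h : ℝ) ≤ κ.D0 * (κ.L : ℝ) ^ (Jm s) := by
    unfold MapC.n
    push_cast
    exact mul_le_mul_of_nonneg_left (pow_le_pow_right₀ hL1 hh) hD0.le
  have hn0 : (0 : ℝ) ≤ κ.n h := Nat.cast_nonneg _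
  have hbig : (0 : ℝ) < κ.D0 * (κ.L : ℝ) ^ (Jm s) := by positivity
  have h5 : (κ.n h : ℝ) ^ κe.C ≤ Real.exp ((Real.log κ.D0 + Jm s * Real.log κ.L) * κe.C) := by
    calc (κ.n h : ℝ) ^ κe.C ≤ (κ.D0 * (κ.L : ℝ) ^ (Jm s)) ^ κe.C := Real.rpow_le_rpow hn0 hn hC0.le
      _ = Real.exp ((Real.log κ.D0 + Jm s * Real.log κ.L) * κe.C) := by
        rw [Real.rpow_def_of_pos hbig, Real.log_mul hD0.ne' (by positivity), Real.log_pow]
  have h6 : κe.C * (κ.n h : ℝ) ^ κe.C ≤ Real.exp (A + B * Jm s) := by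
    calc κe.C * (κ.n h : ℝ) ^ κe.C ≤ Real.exp (Real.log κe.C) * Real.exp ((Real.log κ.D0 + Jm s * Real.log κ.L) * κe.C) := by
          rw [Real.exp_log hC0]
          exact mul_le_mul_of_nonneg_left h5 hC0.le
      _ = Real.exp (A + B * Jm s) := by
          rw [← Real.exp_add, hA, hB]
          congr 1
          ring
  unfold cutErr
  calc κe.C * (κ.n h : ℝ) ^ κe.C * Real.exp (-κe.c * (s : ℝ) ^ 2)
      ≤ Real.exp (A + B * Jm s) * Real.exp (-κe.c * (s : ℝ) ^ 2) := mul_le_mul_of_nonneg_right h6 (Real.exp_pos _).le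
    _ = Real.exp (A + B * Jm s + -κe.c * (s : ℝ) ^ 2) := (Real.exp_add _ _).symm
    _ ≤ Real.exp (-(κe.c / 2) * (s : ℝ) ^ 2) := Real.exp_le_exp.mpr (by linarith)

/-- all stops after the `E = clog_L P0` early stages are valid -/
theorem valid_range (κ : MapC) (κe : EntC) (Jm : ℕ → ℕ) (hJ : Tendsto (fun s => (Jm s : ℝ) / (s : ℝ) ^ 2) atTop (𝓝 0)) :
    ∀ᶠ s : ℕ in atTop, ∀ H : Hist, κe.q0 * s = κ.L ^ H.j0 → ∀ h, H.j0 + Nat.clog κ.L κe.P0 ≤ h → h ≤ Jm s → Valid κ κe s H h := by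
  filter_upwards [cutErr_small κ κe Jm hJ] with s hs H hside h hh1 hh2
  refine ⟨by omega, ?_, ?_⟩
  · have hL : 1 < κ.L := lt_of_lt_of_le (by norm_num) κ.hL
    have h1 : κe.P0 ≤ κ.L ^ Nat.clog κ.L κe.P0 := Nat.le_pow_clog hL _
    have h2 : κ.L ^ (H.j0 + Nat.clog κ.L κe.P0) ≤ κ.L ^ h := Nat.pow_le_pow_right (by omega) hh1
    have h3 : s ≤ κ.L ^ H.j0 := by
      rw [← hside]
      exact Nat.le_mul_of_pos_left _ κe.hq
    unfold MapC.n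
    calc s * κe.P0 ≤ κ.L ^ H.j0 * κ.L ^ Nat.clog κ.L κe.P0 := Nat.mul_le_mul h3 h1
      _ = κ.L ^ (H.j0 + Nat.clog κ.L κe.P0) := (pow_add _ _ _).symm
      _ ≤ κ.L ^ h := h2
      _ ≤ κ.D0 * κ.L ^ h := Nat.le_mul_of_pos_left _ κ.hD
  · have h1 := hs h hh2
    unfold cutErr at h1
    refine h1.trans ?_
    rw [Real.exp_le_one_iff]
    have : 0 ≤ κe.c / 2 * (s : ℝ) ^ 2 := by have := κe.hc; positivity
    linarith

theorem br_pow_clog_le (L x : ℕ) (hL : 2 ≤ L) (hx : 1 ≤ x) : L ^ Nat.clog L x ≤ L * x := by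
  have hL1 : 1 < L := by omega
  rcases Nat.lt_or_ge 1 x with h | h
  · have h1 := Nat.pow_pred_clog_lt_self hL1 h
    have h2 : 0 < Nat.clog L x := Nat.clog_pos hL1 (by omega)
    have e : Nat.clog L x = (Nat.clog L x).pred + 1 := by
      rw [Nat.pred_eq_sub_one]; omega
    rw [e, pow_succ, mul_comm]
    exact Nat.mul_le_mul_left _ h1.le
  · have : x = 1 := by omega
    subst this
    simp
    omega

theorem early_pow (κ : MapC) (κe : EntC) : (2 : ℝ) ^ Nat.clog κ.L κe.P0 ≤ κ.L * κe.P0 := by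
  have h1 := br_pow_clog_le κ.L κe.P0 κ.hL κe.hP
  have h2 : (2 : ℝ) ≤ κ.L := by exact_mod_cast κ.hL
  calc (2 : ℝ) ^ Nat.clog κ.L κe.P0 ≤ (κ.L : ℝ) ^ Nat.clog κ.L κe.P0 := pow_le_pow_left₀ (by norm_num) h2 _
    _ ≤ κ.L * κe.P0 := by exact_mod_cast h1

/-- consecutive admissible sides have the ratio `L` -/
theorem sides_k (κ : MapC) (κe : EntC) (h : ∃ j1, κe.q0 ∣ κ.L ^ j1) : ∃ sk : ℕ → ℕ, (∀ k, Adm κ κe (sk k)) ∧
    ∃ c1 C1 : ℝ, 0 < c1 ∧ ∀ k, c1 * 2 ^ k ≤ (sk k : ℝ) ∧ (sk k : ℝ) ≤ C1 * 2 ^ k := by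
  obtain ⟨j1, r, hr⟩ := h
  have hL : 1 < κ.L := lt_of_lt_of_le (by norm_num) κ.hL
  have hLpos : 0 < κ.L := by omega
  have hr1 : 1 ≤ r := by
    rcases Nat.eq_zero_or_pos r with h0 | h0
    · subst h0
      have : 0 < κ.L ^ j1 := pow_pos hLpos _
      omega
    · exact h0
  obtain ⟨S, hS⟩ : ∃ S : ℕ, S = max κe.s0 1 := ⟨_, rfl⟩
  have hS1 : 1 ≤ S := hS ▸ le_max_right _ _
  have hS0 : κe.s0 ≤ S := hS ▸ le_max_left _ _
  have hx : ∀ k : ℕ, 1 ≤ S * 2 ^ k := fun k => Nat.mul_pos hS1 (pow_pos (by norm_num) k)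
  refine ⟨fun k => r * κ.L ^ Nat.clog κ.L (S * 2 ^ k), fun k => ⟨?_, j1 + Nat.clog κ.L (S * 2 ^ k), ?_⟩,
    (S : ℝ), (r : ℝ) * κ.L * S, by exact_mod_cast hS1, fun k => ⟨?_, ?_⟩⟩
  · have h1 : S * 2 ^ k ≤ κ.L ^ Nat.clog κ.L (S * 2 ^ k) := Nat.le_pow_clog hL _
    have h2 : S ≤ S * 2 ^ k := Nat.le_mul_of_pos_right _ (pow_pos (by norm_num) k)
    calc κe.s0 ≤ S := hS0
      _ ≤ κ.L ^ Nat.clog κ.L (S * 2 ^ k) := h2.trans h1
      _ ≤ r * κ.L ^ Nat.clog κ.L (S * 2 ^ k) := Nat.le_mul_of_pos_left _ hr1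
  · rw [pow_add, hr]; ring
  · have h1 : S * 2 ^ k ≤ κ.L ^ Nat.clog κ.L (S * 2 ^ k) := Nat.le_pow_clog hL _
    have h2 : S * 2 ^ k ≤ r * κ.L ^ Nat.clog κ.L (S * 2 ^ k) := h1.trans (Nat.le_mul_of_pos_left _ hr1)
    exact_mod_cast h2
  · have h1 := br_pow_clog_le κ.L (S * 2 ^ k) κ.hL (hx k)
    have h2 : r * κ.L ^ Nat.clog κ.L (S * 2 ^ k) ≤ r * (κ.L * (S * 2 ^ k)) := Nat.mul_le_mul_left _ h1
    have h3 : ((r * κ.L ^ Nat.clog κ.L (S * 2 ^ k) : ℕ) : ℝ) ≤ ((r * (κ.L * (S * 2 ^ k)) : ℕ) : ℝ) := by exact_mod_cast h2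
    refine h3.trans (le_of_eq ?_)
    push_cast
    ring

/-- the entry index is logarithmic in the side -/
theorem j0_bounds (κ : MapC) (κe : EntC) (s j0 : ℕ) (h : κe.q0 * s = κ.L ^ j0) :
    (s : ℝ) ≤ (κ.L : ℝ) ^ j0 ∧ (j0 : ℝ) ≤ Real.logb 2 (κe.q0 * s) ∧ Real.logb κ.L s ≤ j0 := by
  have hL : 1 < κ.L := lt_of_lt_of_le (by norm_num) κ.hL
  have hLr : (1 : ℝ) < κ.L := by exact_mod_cast hL
  have hL2 : (2 : ℝ) ≤ κ.L := by exact_mod_cast κ.hL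
  have hs : s ≤ κ.L ^ j0 := by
    rw [← h]; exact Nat.le_mul_of_pos_left _ κe.hq
  have hs0 : 0 < s := by
    rcases Nat.eq_zero_or_pos s with h0 | h0
    · subst h0
      have : 0 < κ.L ^ j0 := pow_pos (by omega) _
      omega
    · exact h0
  have hsr : (s : ℝ) ≤ (κ.L : ℝ) ^ j0 := by exact_mod_cast hs
  have hs0r : (0 : ℝ) < s := by exact_mod_cast hs0
  have hr : (κe.q0 : ℝ) * s = (κ.L : ℝ) ^ j0 := by exact_mod_cast h
  refine ⟨hsr, ?_, ?_⟩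
  · rw [hr, Real.le_logb_iff_rpow_le (by norm_num) (by positivity), Real.rpow_natCast]
    exact pow_le_pow_left₀ (by norm_num) hL2 _
  · rw [Real.logb_le_iff_le_rpow hLr hs0r, Real.rpow_natCast]
    exact hsr

end

end Claimed.Agent.R285.F5

/-!
# ROW 285, [F] s5.2-5.3: ASYMPTOTIC FACTS along a canonical family of sides `s_k ≍ 2^k` on the ranges `c 2^k ≤ h ≤ 4·2^k`.      (contracts helper94)

Pure calculus from `Sk` (`c1 2^k ≤ s_k ≤ C1 2^k`, admissible), `q0 s_k = L^{j0}` and `n_h = D0 L^h ≥ 2^h`; `asy_phase` also uses `Flow.tor_phase_lower`, `tor_phase_pos`, `ReadOK.cmpP`.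
* `asy_j0`: `2^{j0} ≤ L^{j0} = q0 s_k ≤ q0 C1 2^k`, so `j0 ≤ k + log₂ (q0 C1) ≤ c 2^k`;  `L^{j0} ≥ s_k ≥ c1 2^k → ∞`.
* `asy_valid`: `F5.valid_range` with `Jm s = ⌈(4 / c1) s⌉₊` (`4·2^k ≤ (4/c1) s_k`), and `j0 + clog_L P0 ≤ c 2^k` eventually.
* `asy_big`: `n_h ≥ 2^h ≥ 2^{c 2^k} ≥ C1 2^k P1`.
* `asy_err`: `s_k / n_h ≤ C1 2^k 2^{-h}`, `k ≤ log₂ (h / c)`, so `≤ e^{-(log 2 / 2) h}`; `L^{j0} / n_h = q0 s_k / n_h`; `cutErr ≤ e^{-(κe.c/2) s_k²} ≤ e^{-h}` (`F5.cutErr_small`, `s_k² ≥ c1² 4^k ≫ 2^k`).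
  `cE κ = min (log 2 / 4) (κ.c / 2)`: the five terms are each `≤ e^{-2 cE h} ≤ e^{-cE h} / 5` for large `h`.
* `asy_phase`: eventually `torPhase b_c n_h ≥ e^{-(η/2) h}` (`tor_phase_lower`), `|cP - torPhase| ≤ cutErr ≤ e^{-h}`.
-/

set_option autoImplicit false

namespace Claimed.Agent.R285.F5

open Filter Topology Claims.C0459
open Claimed.Agent.R285.Flow

noncomputable section

/-- a canonical family of sides -/
structure Sk (κ : MapC) (κe : EntC) (sk : ℕ → ℕ) : Prop where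
  adm : ∀ k, Adm κ κe (sk k)
  size : ∃ c1 C1 : ℝ, 0 < c1 ∧ ∀ k, c1 * 2 ^ k ≤ (sk k : ℝ) ∧ (sk k : ℝ) ≤ C1 * 2 ^ k

/-- `c 2^k → ∞` -/
theorem asy_two_pow_tendsto {c : ℝ} (hc : 0 < c) : Tendsto (fun k : ℕ => c * (2 : ℝ) ^ k) atTop atTop :=
  Tendsto.const_mul_atTop hc (tendsto_pow_atTop_atTop_of_one_lt one_lt_two)

/-- a property of all large `h` holds on the ranges `c 2^k ≤ h` -/
theorem asy_ev_range {P : ℕ → Prop} (hP : ∀ᶠ h : ℕ in atTop, P h) {c : ℝ} (hc : 0 < c) :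
    ∀ᶠ k : ℕ in atTop, ∀ h : ℕ, c * 2 ^ k ≤ (h : ℝ) → P h := by
  obtain ⟨h0, hh0⟩ := eventually_atTop.mp hP
  filter_upwards [(asy_two_pow_tendsto hc).eventually_ge_atTop (h0 : ℝ)] with k hk h hh
  exact hh0 h (by exact_mod_cast hk.trans hh)

/-- `k + B ≤ c 2^k` eventually -/
theorem asy_lin_le {c : ℝ} (hc : 0 < c) (B : ℝ) : ∀ᶠ k : ℕ in atTop, (k : ℝ) + B ≤ c * 2 ^ k := by
  have h1 : Tendsto (fun k : ℕ => (k : ℝ) ^ 1 / (2 : ℝ) ^ k) atTop (𝓝 0) := tendsto_pow_const_div_const_pow_of_one_lt 1 one_lt_two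
  have h2 : Tendsto (fun k : ℕ => B / (2 : ℝ) ^ k) atTop (𝓝 0) :=
    tendsto_const_nhds.div_atTop (tendsto_pow_atTop_atTop_of_one_lt one_lt_two)
  have h3 := h1.add h2
  rw [add_zero] at h3
  filter_upwards [h3.eventually (Iio_mem_nhds hc)] with k hk
  have hp : (0 : ℝ) < 2 ^ k := by positivity
  have : ((k : ℝ) ^ 1 / 2 ^ k + B / 2 ^ k) * 2 ^ k = k + B := by field_simp
  have h4 := (mul_lt_mul_of_pos_right hk hp).le
  rw [this] at h4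
  exact h4

theorem Sk.tendsto {κ : MapC} {κe : EntC} {sk : ℕ → ℕ} (h : Sk κ κe sk) : Tendsto sk atTop atTop := by
  obtain ⟨c1, C1, hc1, hs⟩ := h.size
  rw [← tendsto_natCast_atTop_iff (R := ℝ)]
  exact tendsto_atTop_mono (fun k => (hs k).1) (asy_two_pow_tendsto hc1)

theorem Sk.horizon {κ : MapC} {κe : EntC} {sk : ℕ → ℕ} (h : Sk κ κe sk) : ∃ Jm : ℕ → ℕ,
    Tendsto (fun s => (Jm s : ℝ) / (s : ℝ) ^ 2) atTop (𝓝 0) ∧ ∀ k, 4 * 2 ^ k ≤ Jm (sk k) := by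
  obtain ⟨c1, C1, hc1, hs⟩ := h.size
  refine ⟨fun s => ⌈(4 / c1) * (s : ℝ)⌉₊, ?_, ?_⟩
  · have hA : 0 ≤ 4 / c1 := by positivity
    have h1 : Tendsto (fun s : ℕ => (4 / c1) / (s : ℝ) + 1 / (s : ℝ) ^ 2) atTop (𝓝 (0 + 0)) := by
      apply Tendsto.add
      · exact tendsto_const_nhds.div_atTop tendsto_natCast_atTop_atTop
      · exact tendsto_const_nhds.div_atTop ((tendsto_pow_atTop two_ne_zero).comp tendsto_natCast_atTop_atTop)
    rw [add_zero] at h1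
    refine squeeze_zero' (Eventually.of_forall fun s => by positivity) ?_ h1
    filter_upwards [eventually_gt_atTop 0] with s hs0
    have hs1 : (0 : ℝ) < s := by exact_mod_cast hs0
    have h2 : (⌈(4 / c1) * (s : ℝ)⌉₊ : ℝ) ≤ (4 / c1) * s + 1 := (Nat.ceil_lt_add_one (by positivity)).le
    calc (⌈(4 / c1) * (s : ℝ)⌉₊ : ℝ) / (s : ℝ) ^ 2 ≤ ((4 / c1) * s + 1) / (s : ℝ) ^ 2 := by gcongr
      _ = (4 / c1) / (s : ℝ) + 1 / (s : ℝ) ^ 2 := by field_simp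
  · intro k
    have h1 : ((4 * 2 ^ k : ℕ) : ℝ) ≤ (4 / c1) * (sk k : ℝ) := by
      push_cast
      have := (hs k).1
      rw [div_mul_eq_mul_div, le_div_iff₀ hc1]
      nlinarith
    exact_mod_cast h1.trans (Nat.le_ceil _)

theorem asy_j0 {κ : MapC} {κe : EntC} {ρe : ℝ} {H : ℕ → Hist} {sk : ℕ → ℕ} (hy : Hyp κ κe ρe H) (hs : Sk κ κe sk)
    (c : ℝ) (hc : 0 < c) (J0 : ℕ) : ∀ᶠ k : ℕ in atTop, J0 ≤ (H (sk k)).j0 ∧ ((H (sk k)).j0 : ℝ) + J0 ≤ c * 2 ^ k := by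
  obtain ⟨c1, C1, hc1, hsz⟩ := hs.size
  obtain ⟨A, hA⟩ : ∃ A : ℕ, (κe.q0 : ℝ) * C1 ≤ 2 ^ A := by
    obtain ⟨A, hA⟩ := pow_unbounded_of_one_lt ((κe.q0 : ℝ) * C1) (one_lt_two)
    exact ⟨A, hA.le⟩
  have hL1 : 1 ≤ κ.L := le_trans (by norm_num) κ.hL
  filter_upwards [hs.tendsto.eventually_gt_atTop (κ.L ^ J0), asy_lin_le hc ((A : ℝ) + J0)] with k hk1 hk2
  have hside := (hy.sys (sk k) (hs.adm k)).entry.side
  constructor
  · by_contra hcon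
    push Not at hcon
    have h1 : κ.L ^ (H (sk k)).j0 ≤ κ.L ^ J0 := Nat.pow_le_pow_right hL1 hcon.le
    have h2 : sk k ≤ κe.q0 * sk k := Nat.le_mul_of_pos_left _ κe.hq
    omega
  · have h1 : (2 : ℝ) ^ (H (sk k)).j0 ≤ 2 ^ (A + k) := by
      have hL2 : (2 : ℝ) ≤ κ.L := by exact_mod_cast κ.hL
      have hr : (κe.q0 : ℝ) * sk k = (κ.L : ℝ) ^ (H (sk k)).j0 := by exact_mod_cast hside
      calc (2 : ℝ) ^ (H (sk k)).j0 ≤ (κ.L : ℝ) ^ (H (sk k)).j0 := pow_le_pow_left₀ (by norm_num) hL2 _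
        _ = (κe.q0 : ℝ) * sk k := hr.symm
        _ ≤ (κe.q0 : ℝ) * (C1 * 2 ^ k) := mul_le_mul_of_nonneg_left (hsz k).2 (Nat.cast_nonneg _)
        _ = (κe.q0 : ℝ) * C1 * 2 ^ k := by ring
        _ ≤ 2 ^ A * 2 ^ k := mul_le_mul_of_nonneg_right hA (by positivity)
        _ = 2 ^ (A + k) := (pow_add _ _ _).symm
    have h2 : (H (sk k)).j0 ≤ A + k := (pow_le_pow_iff_right₀ (one_lt_two (α := ℝ))).mp h1
    have h3 : ((H (sk k)).j0 : ℝ) ≤ A + k := by exact_mod_cast h2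
    linarith

theorem asy_valid {κ : MapC} {κe : EntC} {ρe : ℝ} {H : ℕ → Hist} {sk : ℕ → ℕ} (hy : Hyp κ κe ρe H) (hs : Sk κ κe sk)
    (c : ℝ) (hc : 0 < c) : ∀ᶠ k : ℕ in atTop, ∀ h : ℕ, c * 2 ^ k ≤ (h : ℝ) → h ≤ 4 * 2 ^ k → Valid κ κe (sk k) (H (sk k)) h := by
  obtain ⟨Jm, hJ, hJm⟩ := hs.horizon
  filter_upwards [hs.tendsto.eventually (valid_range κ κe Jm hJ), asy_j0 hy hs c hc (Nat.clog κ.L κe.P0)] with k hk1 hk2 h hh1 hh2
  refine hk1 (H (sk k)) (hy.sys (sk k) (hs.adm k)).entry.side h ?_ (hh2.trans (hJm k))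
  have : (((H (sk k)).j0 + Nat.clog κ.L κe.P0 : ℕ) : ℝ) ≤ h := by
    push_cast
    exact hk2.2.trans hh1
  exact_mod_cast this

/-- `A h ≤ 2^h` eventually -/
theorem asy_lin_le_pow (A : ℝ) : ∀ᶠ h : ℕ in atTop, A * h ≤ 2 ^ h := by
  have h1 : Tendsto (fun k : ℕ => (k : ℝ) ^ 1 / (2 : ℝ) ^ k) atTop (𝓝 0) := tendsto_pow_const_div_const_pow_of_one_lt 1 one_lt_two
  have h2 := h1.const_mul A
  rw [mul_zero] at h2
  filter_upwards [h2.eventually (Iio_mem_nhds one_pos)] with h hh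
  have hp : (0 : ℝ) < 2 ^ h := by positivity
  have h4 := (mul_lt_mul_of_pos_right hh hp).le
  have : A * ((h : ℝ) ^ 1 / 2 ^ h) * 2 ^ h = A * h := by field_simp
  rw [this, one_mul] at h4
  exact h4

theorem asy_n_ge (κ : MapC) (h : ℕ) : (2 : ℝ) ^ h ≤ κ.n h := by
  have h1 : 2 ^ h ≤ κ.n h := by
    unfold MapC.n
    calc 2 ^ h ≤ κ.L ^ h := Nat.pow_le_pow_left κ.hL h
      _ ≤ κ.D0 * κ.L ^ h := Nat.le_mul_of_pos_left _ κ.hD
  exact_mod_cast h1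

theorem asy_big {κ : MapC} {κe : EntC} {sk : ℕ → ℕ} (hs : Sk κ κe sk) (c : ℝ) (hc : 0 < c) (P1 : ℕ) :
    ∀ᶠ k : ℕ in atTop, ∀ h : ℕ, c * 2 ^ k ≤ (h : ℝ) → sk k * P1 ≤ κ.n h := by
  obtain ⟨c1, C1, hc1, hsz⟩ := hs.size
  have hC1 : 0 ≤ C1 := by
    have := hsz 0
    simp only [pow_zero, mul_one] at this
    linarith
  filter_upwards [asy_ev_range (asy_lin_le_pow (C1 * P1 / c)) hc] with k hk h hh
  have h1 := hk h hh
  have h2 : ((sk k * P1 : ℕ) : ℝ) ≤ κ.n h := by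
    push_cast
    calc (sk k : ℝ) * P1 ≤ C1 * 2 ^ k * P1 := mul_le_mul_of_nonneg_right (hsz k).2 (Nat.cast_nonneg _)
      _ = C1 * P1 / c * (c * 2 ^ k) := by field_simp
      _ ≤ C1 * P1 / c * h := mul_le_mul_of_nonneg_left hh (by positivity)
      _ ≤ 2 ^ h := h1
      _ ≤ κ.n h := asy_n_ge κ h
  exact_mod_cast h2

/-- all exponentially small errors of one history at the stop `h` -/
def errT (κ : MapC) (κe : EntC) (s : ℕ) (H : Hist) (h : ℕ) : ℝ :=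
  (s : ℝ) / κ.n h + 1 / (κ.n h : ℝ) ^ 2 + ((κ.L : ℝ) ^ H.j0 / κ.n h) ^ 2 + cutErr κ κe s h + Real.exp (-κ.c * h)

/-- the rate of `errT` -/
def cE (κ : MapC) : ℝ := min (Real.log 2 / 4) (κ.c / 2)

theorem cE_pos (κ : MapC) : 0 < cE κ := by
  unfold cE
  have := Real.log_pos (one_lt_two (α := ℝ))
  have := κ.hc
  exact lt_min (by positivity) (by positivity)

/-- `A h e^{-a h} ≤ e^{-e h} / 5` eventually, if `e < a` -/
theorem asy_exp_lin (A : ℝ) {a e : ℝ} (hae : e < a) : ∀ᶠ h : ℕ in atTop, A * h * Real.exp (-a * h) ≤ Real.exp (-e * h) / 5 := by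
  have hd : 0 < a - e := by linarith
  have h1 : Tendsto (fun h : ℕ => (a - e) * (h : ℝ)) atTop atTop := Tendsto.const_mul_atTop hd tendsto_natCast_atTop_atTop
  have h2 := (Real.tendsto_pow_mul_exp_neg_atTop_nhds_zero 1).comp h1
  have h3 := h2.const_mul (A / (a - e))
  rw [mul_zero] at h3
  filter_upwards [h3.eventually (Iio_mem_nhds (by norm_num : (0 : ℝ) < 1 / 5))] with h hh
  simp only [Function.comp_apply, pow_one] at hh
  have e1 : A / (a - e) * ((a - e) * (h : ℝ) * Real.exp (-((a - e) * (h : ℝ)))) = A * h * Real.exp (-((a - e) * (h : ℝ))) := by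
    field_simp
  rw [e1] at hh
  have e2 : Real.exp (-a * h) = Real.exp (-((a - e) * (h : ℝ))) * Real.exp (-e * h) := by
    rw [← Real.exp_add]; congr 1; ring
  rw [e2]
  have hp := Real.exp_pos (-e * h)
  calc A * h * (Real.exp (-((a - e) * (h : ℝ))) * Real.exp (-e * h))
      = (A * h * Real.exp (-((a - e) * (h : ℝ)))) * Real.exp (-e * h) := by ring
    _ ≤ 1 / 5 * Real.exp (-e * h) := mul_le_mul_of_nonneg_right hh.le hp.le
    _ = _ := by ring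

/-- `e^{-a h} ≤ e^{-e h} / 5` eventually, if `e < a` -/
theorem asy_exp_const {a e : ℝ} (hae : e < a) : ∀ᶠ h : ℕ in atTop, Real.exp (-a * h) ≤ Real.exp (-e * h) / 5 := by
  filter_upwards [asy_exp_lin 1 hae, eventually_ge_atTop 1] with h hh h1
  refine le_trans ?_ hh
  have h2 : (1 : ℝ) ≤ h := by exact_mod_cast h1
  have hp := Real.exp_pos (-a * h)
  nlinarith

theorem asy_two_pow_exp (h : ℕ) : ((2 : ℝ) ^ h)⁻¹ = Real.exp (-Real.log 2 * h) := by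
  rw [show -Real.log 2 * (h : ℝ) = -((h : ℝ) * Real.log 2) by ring, Real.exp_neg, Real.exp_nat_mul, Real.exp_log (by norm_num)]

theorem asy_err {κ : MapC} {κe : EntC} {ρe : ℝ} {H : ℕ → Hist} {sk : ℕ → ℕ} (hy : Hyp κ κe ρe H) (hs : Sk κ κe sk)
    (c : ℝ) (hc : 0 < c) : ∀ᶠ k : ℕ in atTop, ∀ h : ℕ, c * 2 ^ k ≤ (h : ℝ) → h ≤ 4 * 2 ^ k →
      errT κ κe (sk k) (H (sk k)) h ≤ Real.exp (-cE κ * h) := by
  obtain ⟨c1, C1, hc1, hsz⟩ := hs.size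
  have hC1 : 0 ≤ C1 := by
    have := hsz 0
    simp only [pow_zero, mul_one] at this
    linarith
  obtain ⟨Jm, hJ, hJm⟩ := hs.horizon
  have hlog : 0 < Real.log 2 := Real.log_pos one_lt_two
  have hlog1 : Real.log 2 < 1 := by
    have := Real.log_two_lt_d9
    linarith
  have he1 : cE κ ≤ Real.log 2 / 4 := min_le_left _ _
  have he2 : cE κ ≤ κ.c / 2 := min_le_right _ _
  have hκc := κ.hc
  have hκe := κe.hc
  obtain ⟨γ, hγ⟩ : ∃ γ : ℝ, γ = κe.c / 2 * (c1 ^ 2 / 16) := ⟨_, rfl⟩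
  have hγ0 : 0 < γ := by rw [hγ]; positivity
  -- the properties of large `h`
  have hP : ∀ᶠ h : ℕ in atTop,
      (C1 / c * h * Real.exp (-Real.log 2 * h) ≤ Real.exp (-cE κ * h) / 5) ∧
      (Real.exp (-Real.log 2 * h) ≤ Real.exp (-cE κ * h) / 5) ∧
      (κe.q0 * (C1 / c) * h * Real.exp (-Real.log 2 * h) ≤ Real.exp (-cE κ * h) / 5) ∧
      (Real.exp (-1 * h) ≤ Real.exp (-cE κ * h) / 5) ∧
      (Real.exp (-κ.c * h) ≤ Real.exp (-cE κ * h) / 5) ∧ 1 / γ ≤ (h : ℝ) := by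
    filter_upwards [asy_exp_lin (C1 / c) (a := Real.log 2) (e := cE κ) (by linarith), asy_exp_const (a := Real.log 2) (e := cE κ) (by linarith),
      asy_exp_lin (κe.q0 * (C1 / c)) (a := Real.log 2) (e := cE κ) (by linarith), asy_exp_const (a := 1) (e := cE κ) (by linarith),
      asy_exp_const (a := κ.c) (e := cE κ) (by linarith), tendsto_natCast_atTop_atTop.eventually_ge_atTop (1 / γ)] with h a1 a2 a3 a4 a5 a6
    exact ⟨a1, a2, a3, a4, a5, a6⟩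
  filter_upwards [asy_ev_range hP hc, hs.tendsto.eventually (cutErr_small κ κe Jm hJ)] with k hk1 hk2 h hh1 hh2
  obtain ⟨a1, a2, a3, a4, a5, a6⟩ := hk1 h hh1
  have hside := (hy.sys (sk k) (hs.adm k)).entry.side
  have hr : (κ.L : ℝ) ^ (H (sk k)).j0 = (κe.q0 : ℝ) * sk k := by exact_mod_cast hside.symm
  have hn := asy_n_ge κ h
  have h2p : (0 : ℝ) < 2 ^ h := by positivity
  have hn0 : (0 : ℝ) < κ.n h := lt_of_lt_of_le h2p hn
  have hE := Real.exp_pos (-cE κ * h)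
  have hE1 : Real.exp (-cE κ * h) ≤ 1 := by
    rw [Real.exp_le_one_iff]
    have : 0 ≤ cE κ * h := mul_nonneg (cE_pos κ).le (Nat.cast_nonneg _)
    linarith
  have hh0 : (0 : ℝ) ≤ h := Nat.cast_nonneg _
  -- `s ≤ (C1/c) h`
  have hs1 : (sk k : ℝ) ≤ C1 / c * h := by
    calc (sk k : ℝ) ≤ C1 * 2 ^ k := (hsz k).2
      _ = C1 / c * (c * 2 ^ k) := by field_simp
      _ ≤ C1 / c * h := mul_le_mul_of_nonneg_left hh1 (by positivity)
  have hinv : (κ.n h : ℝ)⁻¹ ≤ Real.exp (-Real.log 2 * h) := by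
    rw [← asy_two_pow_exp]
    exact inv_anti₀ h2p hn
  have hinv0 : 0 ≤ (κ.n h : ℝ)⁻¹ := by positivity
  -- T1
  have t1 : (sk k : ℝ) / κ.n h ≤ Real.exp (-cE κ * h) / 5 := by
    rw [div_eq_mul_inv]
    exact (mul_le_mul hs1 hinv hinv0 (by positivity)).trans a1
  -- T2
  have t2 : 1 / (κ.n h : ℝ) ^ 2 ≤ Real.exp (-cE κ * h) / 5 := by
    have hn1 : (1 : ℝ) ≤ κ.n h := le_trans (one_le_pow₀ (by norm_num)) hn
    have : 1 / (κ.n h : ℝ) ^ 2 ≤ (κ.n h : ℝ)⁻¹ := by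
      rw [one_div]
      apply inv_anti₀ hn0
      nlinarith
    exact this.trans (hinv.trans a2)
  -- T3
  have t3 : ((κ.L : ℝ) ^ (H (sk k)).j0 / κ.n h) ^ 2 ≤ Real.exp (-cE κ * h) / 5 := by
    have b1 : (κ.L : ℝ) ^ (H (sk k)).j0 / κ.n h ≤ Real.exp (-cE κ * h) / 5 := by
      rw [hr, div_eq_mul_inv]
      refine le_trans ?_ a3
      have : (κe.q0 : ℝ) * sk k ≤ κe.q0 * (C1 / c) * h := by
        rw [mul_assoc]
        exact mul_le_mul_of_nonneg_left hs1 (Nat.cast_nonneg _)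
      exact mul_le_mul this hinv hinv0 (by positivity)
    have b0 : 0 ≤ (κ.L : ℝ) ^ (H (sk k)).j0 / κ.n h := by positivity
    have b2 : (κ.L : ℝ) ^ (H (sk k)).j0 / κ.n h ≤ 1 := by linarith
    calc ((κ.L : ℝ) ^ (H (sk k)).j0 / κ.n h) ^ 2 ≤ (κ.L : ℝ) ^ (H (sk k)).j0 / κ.n h := by nlinarith
      _ ≤ _ := b1
  -- T4
  have t4 : cutErr κ κe (sk k) h ≤ Real.exp (-cE κ * h) / 5 := by
    refine (hk2 h (hh2.trans (hJm k))).trans (le_trans ?_ a4)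
    rw [Real.exp_le_exp]
    have hh2r : (h : ℝ) ≤ 4 * 2 ^ k := by exact_mod_cast hh2
    have b1 : c1 / 4 * h ≤ sk k := by
      have := (hsz k).1
      nlinarith
    have b2 : (c1 / 4 * h) ^ 2 ≤ (sk k : ℝ) ^ 2 := pow_le_pow_left₀ (by positivity) b1 2
    have b3 : (h : ℝ) ≤ γ * (h : ℝ) ^ 2 := by
      have : 1 ≤ γ * h := by
        rw [div_le_iff₀ hγ0] at a6
        linarith
      nlinarith
    have b4 : γ * (h : ℝ) ^ 2 ≤ κe.c / 2 * (sk k : ℝ) ^ 2 := by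
      have : γ * (h : ℝ) ^ 2 = κe.c / 2 * (c1 / 4 * h) ^ 2 := by rw [hγ]; ring
      rw [this]
      exact mul_le_mul_of_nonneg_left b2 (by positivity)
    linarith
  unfold errT
  linarith

theorem asy_phase {κ : MapC} {κe : EntC} {ρe : ℝ} {H : ℕ → Hist} {sk : ℕ → ℕ} (hy : Hyp κ κe ρe H) (hs : Sk κ κe sk)
    (c η : ℝ) (hc : 0 < c) (hη : 0 < η) : ∀ᶠ k : ℕ in atTop, ∀ h : ℕ, c * 2 ^ k ≤ (h : ℝ) → h ≤ 4 * 2 ^ k →
      Real.exp (-η * h) ≤ (H (sk k)).cP h xyCritical := by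
  set η' : ℝ := min η (cE κ) with hη'
  have hη'0 : 0 < η' := lt_min hη (cE_pos κ)
  have hlow := (L54.tor_phase_lower' κ.L κ.D0 κ.hL κ.hD).eventually (gt_mem_nhds (half_pos hη'0))
  obtain ⟨j1, hj1⟩ := eventually_atTop.1 hlow
  have hbig : ∀ᶠ k : ℕ in atTop, ((j1 : ℝ) + 1 + 2 / η') / c ≤ (2 : ℝ) ^ k :=
    (tendsto_pow_atTop_atTop_of_one_lt (by norm_num : (1 : ℝ) < 2)).eventually_ge_atTop _
  filter_upwards [asy_valid hy hs c hc, asy_err hy hs c hc, hbig] with k hval herr hk h h1 h2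
  have hsys := hy.sys _ (hs.adm k)
  have hh : (j1 : ℝ) + 1 + 2 / η' ≤ h := by
    rw [div_le_iff₀ hc] at hk
    linarith
  have hp2 : 0 < 2 / η' := by positivity
  have hhj : j1 ≤ h := by
    have : (j1 : ℝ) ≤ h := by linarith
    exact_mod_cast this
  have hh0 : (0 : ℝ) < h := by
    have : (0 : ℝ) ≤ j1 := Nat.cast_nonneg _
    linarith
  -- the physical phase
  have hn1 : 1 ≤ κ.D0 * κ.L ^ h := Nat.mul_pos κ.hD (pow_pos (lt_of_lt_of_le two_pos κ.hL) _)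
  have hPpos : 0 < torPhase xyCritical (κ.D0 * κ.L ^ h) := L54.tor_phase_pos' _ hn1 _ xy_critical_pos
  have hP : Real.exp (-(η' / 2) * h) ≤ torPhase xyCritical (κ.D0 * κ.L ^ h) := by
    have a := hj1 h hhj
    rw [div_lt_iff₀ hh0] at a
    have b : -(η' / 2) * h ≤ Real.log (torPhase xyCritical (κ.D0 * κ.L ^ h)) := by linarith
    calc Real.exp (-(η' / 2) * h) ≤ Real.exp (Real.log (torPhase xyCritical (κ.D0 * κ.L ^ h))) := Real.exp_le_exp.2 b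
      _ = _ := Real.exp_log hPpos
  -- the comparison
  have hcmp := hsys.read.cmpP xyCritical h (br_crit_mem hsys.entry) (hval h h1 h2)
  have hcut : cutErr κ κe (sk k) h ≤ errT κ κe (sk k) (H (sk k)) h := by
    unfold errT
    have p1 : 0 ≤ (sk k : ℝ) / κ.n h := by positivity
    have p2 : 0 ≤ 1 / (κ.n h : ℝ) ^ 2 := by positivity
    have p3 : 0 ≤ ((κ.L : ℝ) ^ (H (sk k)).j0 / κ.n h) ^ 2 := by positivity
    have p4 : 0 ≤ Real.exp (-κ.c * h) := (Real.exp_pos _).le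
    linarith
  have hE : errT κ κe (sk k) (H (sk k)) h ≤ Real.exp (-η' * h) := by
    refine (herr h h1 h2).trans (Real.exp_le_exp.2 ?_)
    have : η' ≤ cE κ := min_le_right _ _
    nlinarith
  have hn : κ.n h = κ.D0 * κ.L ^ h := rfl
  rw [hn] at hcmp
  have hcP : torPhase xyCritical (κ.D0 * κ.L ^ h) - Real.exp (-η' * h) ≤ (H (sk k)).cP h xyCritical := by
    have := (abs_le.1 hcmp).2
    linarith
  -- `exp (-(η'/2) h) ≥ 2 exp (-η' h)`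
  have h2e : 2 * Real.exp (-η' * h) ≤ Real.exp (-(η' / 2) * h) := by
    have e : Real.exp (-(η' / 2) * h) = Real.exp (η' / 2 * h) * Real.exp (-η' * h) := by
      rw [← Real.exp_add]
      congr 1
      ring
    rw [e]
    apply mul_le_mul_of_nonneg_right _ (Real.exp_pos _).le
    have a1 : 1 ≤ η' / 2 * h := by
      have : 2 / η' ≤ h := by
        have : (0 : ℝ) ≤ j1 := Nat.cast_nonneg _
        linarith
      rw [div_le_iff₀ hη'0] at this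
      linarith
    have := Real.add_one_le_exp (η' / 2 * (h : ℝ))
    linarith
  have hfin : Real.exp (-η * h) ≤ Real.exp (-η' * h) := by
    apply Real.exp_le_exp.2
    have : η' ≤ η := min_le_left _ _
    nlinarith
  linarith

end

end Claimed.Agent.R285.F5
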