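import Claimed.Agent.R285.F5.FineP

/-!
# ROW 285, [F] s5.3: parity rows for the coordinate change `sc`, the torus map `Ψ`, the read-outs `rV`, `rP` and the pure tori `G`.      (contracts helper94)

MODEL FOR ALL PROOFS: `F5/FineP.lean` (proved): decompose into differences which vanish on coordinate subspaces and apply `sl_d1, sl_d2, sl_d11` (`F5/Slice.lean`), `sl_odd_row`, `sl_odd_zero`.
Torus states `((t, z), T)` are transported to `(t, z, T)` by `as3` (linear, isometric, `parX ∘ as3 = as3 ∘ parY`), so that the lemmas of `FineP` apply verbatim.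

## Leaf FT-1: generic lemmas `sl_even_v`, `sl_odd_v`, `sl_lip_q`, `sl_lip_x`, `as3_*`
* `sl_even_v`: `sl_d2` with `φ v = (x, v.1, ev σ (ev σ q) + od σ v.2)`, `v = (y, od σ q)` (as `V` in `PStep.fine_e`).
* `sl_odd_v`: `sl_schwarz` for `v ↦ f (x, v.1, ev σ q + od σ v.2)`, which vanishes at `v = 0` by `sl_odd_zero`.
* `sl_lip_q`, `sl_lip_x`: `sl_d1` with `φ b = (x, y, q + b)`, `φ b = (x + b, y, q)`.
## Leaf FT-2: `SStep.t_row`, `SStep.z_row`, `SStep.z0`  (the coordinate change)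
* `t_row`: `t (x,y,q) - t (x,0,0) = [t (x,y,q) - t (x,0,A)] + [t (x,0,A) - t (x,0,0)]`: `sl_even_v` + `sl_lip_q`.   `M = ` bound of `‖sc‖` on the ball, from `sc_t`, `sc_z`.
* `z_row`: `g = z - y / s`, odd: `[g (x,y,q) - g (x,y,A)]` (`sl_lip_q`) `+ [g (x,y,A) - g (0,y,0)]` (`sl_odd_row.1`) `+ g (0,y,0)` (`sc_z` directly: `≤ C (εz |y| + |y|²)`).
## Leaf FT-3: `TStep.fine_o`, `TStep.fine_e`  (the torus map)
* special Lipschitz constant in the `T`-direction: for `‖p‖ ≤ r`, `b' ↦ Ψ (p + (0, b')) - Ψ p` on `ball 0 RT` is bounded by `θ RT + 2 θ r + 2 C (r + RT)²`; Schwarz gives `θ + 2 r / RT + 8 C RT ≤ (1 + θ)/2`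
  for `RT = min R ((1 - θ) / (32 C))`, `r ≤ RT (1 - θ) / 8`.
* `fine_o`: as `PStep.fine_o` (`U1` with the special constant, `U2 = sl_odd_row.1`, `U3`: `‖Ψ ((0,z),0)‖ ≤ C |z|²`).
* `fine_e`: `ev σ' (Ψ X) - Ψ X' = [ev σ' Ψ (t,z,q) - ev σ' Ψ (t,0,A)]` (`sl_even_v`) `+ [Ψ (t,0,A) - Ψ (t,0,A')]` (special constant) `+ [Ψ (t,0,A') - Ψ (t',0,A')]` (`sl_lip_x`); on even states `ev σ' Ψ = Ψ`.
## Leaf FT-4: `RStep` rows (read-outs) and the assembly `fineT_of_coarse`.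
-/

set_option autoImplicit false
set_option linter.unusedSectionVars false
set_option linter.unusedVariables false

namespace Claimed.Agent.R285.F5

open Filter Topology Metric Set
open Claimed.Agent.R285.Flow

/-! ## FT-1 -/

section generic

variable {Q G : Type} [NormedAddCommGroup Q] [NormedSpace ℂ Q] [NormedAddCommGroup G] [NormedSpace ℂ G] {σ : Q →L[ℂ] Q}

theorem sl_even_v (hσ : Invol σ) {f : ℂ × ℂ × Q → G} {R M : ℝ}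
    (hd : DifferentiableOn ℂ f (ball 0 (2 * R))) (hM : ∀ Y ∈ ball (0 : ℂ × ℂ × Q) (2 * R), ‖f Y‖ ≤ M)
    (hpar : ∀ Y ∈ ball (0 : ℂ × ℂ × Q) (2 * R), f (parY σ Y) = f Y)
    {x y : ℂ} {q : Q} (hx : ‖x‖ < R) (hy : ‖y‖ < R) (hq : ‖q‖ < R) :
    ‖f (x, y, q) - f (x, 0, ev σ q)‖ ≤ 2 * M * ((‖y‖ + ‖od σ q‖) / R) ^ 2 := by
  have hR : 0 < R := lt_of_le_of_lt (norm_nonneg _) hx
  have hM0 : 0 ≤ M := le_trans (norm_nonneg _) (hM 0 (by simp; linarith))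
  set A := ev σ q with hA
  set B := od σ q with hB
  have hAn : ‖A‖ < R := lt_of_le_of_lt (hσ.norm_ev q) hq
  have hBn : ‖B‖ < R := lt_of_le_of_lt (hσ.norm_od q) hq
  have eA : ev σ A = A := hσ.ev_ev q
  have eB : od σ B = B := hσ.od_od q
  have eq : A + B = q := ev_add_od q
  have dod := differentiable_od (σ := σ)
  have V := sl_d2 (E := ℂ × Q) hd hM (φ := fun v => (x, v.1, ev σ A + od σ v.2)) (R := R) (by fun_prop)
    (fun b hb => by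
      have hb' := mem_ball_zero_iff.1 hb
      rw [Prod.norm_def] at hb'
      exact hσ.mem4 hx (lt_of_le_of_lt (le_max_left _ _) hb') hAn (lt_of_le_of_lt (le_max_right _ _) hb'))
    (fun b hb => by
      have hb' := mem_ball_zero_iff.1 hb
      rw [Prod.norm_def] at hb'
      have := hpar _ (hσ.mem4 hx (lt_of_le_of_lt (le_max_left _ _) hb') hAn (lt_of_le_of_lt (le_max_right _ _) hb'))
      rw [hσ.parY_eo] at this
      exact this) (b := (y, B)) (by rw [Prod.norm_def]; exact max_lt hy hBn)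
  simp only [eA, eB, eq, Prod.fst_zero, Prod.snd_zero, od_zero, add_zero] at V
  have hmax : ‖((y, B) : ℂ × Q)‖ ≤ ‖y‖ + ‖B‖ := by
    rw [Prod.norm_def]; exact max_le (by linarith [norm_nonneg B]) (by linarith [norm_nonneg y])
  refine V.trans ?_
  gcongr

theorem sl_odd_v (hσ : Invol σ) {f : ℂ × ℂ × Q → G} {R M : ℝ}
    (hd : DifferentiableOn ℂ f (ball 0 (2 * R))) (hM : ∀ Y ∈ ball (0 : ℂ × ℂ × Q) (2 * R), ‖f Y‖ ≤ M)
    (hpar : ∀ Y ∈ ball (0 : ℂ × ℂ × Q) (2 * R), f (parY σ Y) = -f Y)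
    {x y : ℂ} {q : Q} (hx : ‖x‖ < R) (hy : ‖y‖ < R) (hq : ‖q‖ < R) :
    ‖f (x, y, q)‖ ≤ M * ((‖y‖ + ‖od σ q‖) / R) := by
  have hR : 0 < R := lt_of_le_of_lt (norm_nonneg _) hx
  have hM0 : 0 ≤ M := le_trans (norm_nonneg _) (hM 0 (by simp; linarith))
  set B := od σ q with hB
  have hBn : ‖B‖ < R := lt_of_le_of_lt (hσ.norm_od q) hq
  have eB : od σ B = B := hσ.od_od q
  have eq : ev σ q + B = q := ev_add_od q
  have dod := differentiable_od (σ := σ)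
  have hmap : ∀ b ∈ ball (0 : ℂ × Q) R, ((x, b.1, ev σ q + od σ b.2) : ℂ × ℂ × Q) ∈ ball (0 : ℂ × ℂ × Q) (2 * R) := by
    intro b hb
    have hb' := mem_ball_zero_iff.1 hb
    rw [Prod.norm_def] at hb'
    exact hσ.mem4 hx (lt_of_le_of_lt (le_max_left _ _) hb') hq (lt_of_le_of_lt (le_max_right _ _) hb')
  have V := sl_schwarz (E := ℂ × Q) (f := fun v : ℂ × Q => f (x, v.1, ev σ q + od σ v.2)) (R := R) (M := M)
    (hd.comp (Differentiable.differentiableOn (by fun_prop)) hmap) (fun z hz => hM _ (hmap z hz))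
    (by
      simp only [Prod.fst_zero, Prod.snd_zero, od_zero, add_zero]
      exact sl_odd_zero hσ hpar hx hq)
    (z := (y, B)) (by rw [mem_ball_zero_iff, Prod.norm_def]; exact max_lt hy hBn)
  simp only [eB, eq] at V
  have hmax : ‖((y, B) : ℂ × Q)‖ ≤ ‖y‖ + ‖B‖ := by
    rw [Prod.norm_def]; exact max_le (by linarith [norm_nonneg B]) (by linarith [norm_nonneg y])
  refine V.trans ?_
  gcongr

theorem sl_lip_q {f : ℂ × ℂ × Q → G} {R M : ℝ}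
    (hd : DifferentiableOn ℂ f (ball 0 (2 * R))) (hM : ∀ Y ∈ ball (0 : ℂ × ℂ × Q) (2 * R), ‖f Y‖ ≤ M)
    {x y : ℂ} {q q' : Q} (hx : ‖x‖ < R) (hy : ‖y‖ < R) (hq : ‖q‖ < R) (hq' : ‖q' - q‖ < R) :
    ‖f (x, y, q') - f (x, y, q)‖ ≤ 2 * M * (‖q' - q‖ / R) := by
  have hR : 0 < R := lt_of_le_of_lt (norm_nonneg _) hx
  have V := sl_d1 (E := Q) hd hM (φ := fun b => (x, y, q + b)) (R := R) (by fun_prop)
    (fun b hb => by
      have hb' := mem_ball_zero_iff.1 hb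
      exact mem3 (by linarith) (by linarith) (by have := norm_add_le q b; linarith)) hq'
  simpa using V

theorem sl_lip_x {f : ℂ × ℂ × Q → G} {R M : ℝ}
    (hd : DifferentiableOn ℂ f (ball 0 (2 * R))) (hM : ∀ Y ∈ ball (0 : ℂ × ℂ × Q) (2 * R), ‖f Y‖ ≤ M)
    {x x' y : ℂ} {q : Q} (hx : ‖x‖ < R) (hx' : ‖x' - x‖ < R) (hy : ‖y‖ < R) (hq : ‖q‖ < R) :
    ‖f (x', y, q) - f (x, y, q)‖ ≤ 2 * M * (‖x' - x‖ / R) := by
  have hR : 0 < R := lt_of_le_of_lt (norm_nonneg _) hx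
  have V := sl_d1 (E := ℂ) hd hM (φ := fun b => (x + b, y, q)) (R := R) (by fun_prop)
    (fun b hb => by
      have hb' := mem_ball_zero_iff.1 hb
      exact mem3 (by have := norm_add_le x b; linarith) (by linarith) (by linarith)) hx'
  simpa using V

/-- reassociation of torus states -/
def as3 (Y : ℂ × ℂ × Q) : (ℂ × ℂ) × Q := ((Y.1, Y.2.1), Y.2.2)

theorem as3_norm (Y : ℂ × ℂ × Q) : ‖as3 Y‖ = ‖Y‖ := by
  simp only [as3, Prod.norm_def, max_assoc]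
theorem as3_diff : Differentiable ℂ (as3 : ℂ × ℂ × Q → (ℂ × ℂ) × Q) := by
  unfold as3; fun_prop
theorem as3_par (Y : ℂ × ℂ × Q) : parX σ (as3 Y) = as3 (parY σ Y) := rfl

end generic

/-! ## FT-2 -/

/-- the coordinate change at one index (`s = √(b_* H)`, `εz = e^{-c j}`) -/
structure SStep (ρ C bs s εz : ℝ) {Q : Type} [NormedAddCommGroup Q] [NormedSpace ℂ Q] (σ : Q →L[ℂ] Q) (sc : ℂ × ℂ × Q → ℂ × ℂ) : Prop where
  an : DifferentiableOn ℂ sc (ball 0 ρ)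
  sc_t : ∀ Y ∈ ball (0 : ℂ × ℂ × Q) ρ, ‖(sc Y).1 - Y.1 / bs‖ ≤ C * (wn Y ^ 2 + ‖Y.2.2‖)
  sc_z : ∀ Y ∈ ball (0 : ℂ × ℂ × Q) ρ, ‖(sc Y).2 - Y.2.1 / s‖ ≤ C * (εz * ‖Y.2.1‖ + wn Y ^ 2 + ‖Y.2.2‖)
  hσ : Invol σ
  par : ∀ Y ∈ ball (0 : ℂ × ℂ × Q) ρ, sc (parY σ Y) = ((sc Y).1, -(sc Y).2)

section sstep

variable {Q : Type} [NormedAddCommGroup Q] [NormedSpace ℂ Q] {σ : Q →L[ℂ] Q} {sc : ℂ × ℂ × Q → ℂ × ℂ} {ρ C bs s εz : ℝ}

theorem norm_div_ofReal (z : ℂ) {a : ℝ} (ha : 0 < a) : ‖z / (a : ℂ)‖ = ‖z‖ / a := by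
  rw [norm_div, Complex.norm_real, Real.norm_eq_abs, abs_of_pos ha]

theorem x_le_norm' (Y : ℂ × ℂ × Q) : ‖Y.1‖ ≤ ‖Y‖ := by
  rw [Prod.norm_def]; exact le_max_left _ _
theorem y_le_norm' (Y : ℂ × ℂ × Q) : ‖Y.2.1‖ ≤ ‖Y‖ := by
  rw [Prod.norm_def, Prod.norm_def]; exact (le_max_left _ _).trans (le_max_right _ _)

theorem SStep.t_bd0 (h : SStep ρ C bs s εz σ sc) (hC : 0 ≤ C) (hbs : 0 < bs) :
    ∀ Y ∈ ball (0 : ℂ × ℂ × Q) (2 * fR ρ), ‖(sc Y).1‖ ≤ (1 / bs + 2 * C) * ‖Y‖ := by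
  intro Y hY
  have hn : ‖Y‖ ≤ 1 := (mem_ball_zero_iff.1 hY).le.trans (fR_le_one ρ)
  have h1 := h.sc_t Y (ball_subset_ball (fR_le ρ) hY)
  have hw := wn_le_norm' Y
  have hq := q_le_norm' Y
  have hx := x_le_norm' Y
  have hw0 := wn_nonneg' Y
  have hn0 := norm_nonneg Y
  have a1 : wn Y ^ 2 ≤ ‖Y‖ := by nlinarith
  have a2 : ‖Y.1 / (bs : ℂ)‖ ≤ 1 / bs * ‖Y‖ := by
    rw [norm_div_ofReal _ hbs, div_eq_mul_inv, mul_comm, one_div]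
    gcongr
  have a3 : C * (wn Y ^ 2 + ‖Y.2.2‖) ≤ C * (‖Y‖ + ‖Y‖) := by gcongr
  have e : (sc Y).1 = ((sc Y).1 - Y.1 / (bs : ℂ)) + Y.1 / (bs : ℂ) := by ring
  rw [e]
  refine (norm_add_le _ _).trans ?_
  nlinarith

theorem SStep.g_bd0 (h : SStep ρ C bs s εz σ sc) (hC : 0 ≤ C) (h0 : 0 ≤ εz) (h1 : εz ≤ 1) :
    ∀ Y ∈ ball (0 : ℂ × ℂ × Q) (2 * fR ρ), ‖(sc Y).2 - Y.2.1 / (s : ℂ)‖ ≤ 3 * C * ‖Y‖ := by
  intro Y hY
  have hn : ‖Y‖ ≤ 1 := (mem_ball_zero_iff.1 hY).le.trans (fR_le_one ρ)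
  have h2 := h.sc_z Y (ball_subset_ball (fR_le ρ) hY)
  have hw := wn_le_norm' Y
  have hq := q_le_norm' Y
  have hy := y_le_norm' Y
  have hw0 := wn_nonneg' Y
  have hn0 := norm_nonneg Y
  have hy0 := norm_nonneg Y.2.1
  have a1 : wn Y ^ 2 ≤ ‖Y‖ := by nlinarith
  have a0 : εz * ‖Y.2.1‖ ≤ ‖Y‖ := by nlinarith
  have a3 : C * (εz * ‖Y.2.1‖ + wn Y ^ 2 + ‖Y.2.2‖) ≤ C * (‖Y‖ + ‖Y‖ + ‖Y‖) := by gcongr
  refine h2.trans (a3.trans (le_of_eq (by ring)))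

theorem SStep.z_bd0 (h : SStep ρ C bs s εz σ sc) (hC : 0 ≤ C) (hs : 0 < s) (h0 : 0 ≤ εz) (h1 : εz ≤ 1) :
    ∀ Y ∈ ball (0 : ℂ × ℂ × Q) (2 * fR ρ), ‖(sc Y).2‖ ≤ (1 / s + 3 * C) * ‖Y‖ := by
  intro Y hY
  have h2 := h.g_bd0 hC h0 h1 Y hY
  have hy := y_le_norm' Y
  have a2 : ‖Y.2.1 / (s : ℂ)‖ ≤ 1 / s * ‖Y‖ := by
    rw [norm_div_ofReal _ hs, div_eq_mul_inv, mul_comm, one_div]
    gcongr
  have e : (sc Y).2 = ((sc Y).2 - Y.2.1 / (s : ℂ)) + Y.2.1 / (s : ℂ) := by ring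
  rw [e]
  refine (norm_add_le _ _).trans ?_
  nlinarith

theorem le_of_unit {K t : ℝ} (hK : 0 ≤ K) (h1 : t ≤ 1) : K * t ≤ K := by nlinarith

set_option maxHeartbeats 1000000 in
/-- the six rows with explicit constants -/
theorem SStep.rows (h : SStep ρ C bs s εz σ sc) (hρ : 0 < ρ) (hC : 0 ≤ C) (hbs : 0 < bs) (hs : 0 < s)
    (h0 : 0 ≤ εz) (h1 : εz ≤ 1) {Y : ℂ × ℂ × Q} (hY : ‖Y‖ < fR ρ) :
    (sc (Y.1, 0, 0)).2 = 0 ∧
    ‖sc Y‖ ≤ (1 / bs + 1 / s + 3 * C) * ‖Y‖ ∧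
    ‖(sc Y).1‖ ≤ (1 / bs + C) * (‖Y.1‖ + ‖Y.2.1‖ ^ 2 + ‖Y.2.2‖) ∧
    ‖(sc Y).1 - (sc (Y.1, 0, 0)).1‖ ≤ (2 * (1 / bs + 2 * C) / fR ρ ^ 2) * (‖ev σ Y.2.2‖ + (‖Y.2.1‖ + ‖od σ Y.2.2‖) ^ 2) ∧
    ‖(sc Y).2‖ ≤ ((1 / s + 3 * C) / fR ρ) * (‖Y.2.1‖ + ‖od σ Y.2.2‖) ∧
    ‖(sc Y).2 - Y.2.1 / s‖ ≤ (12 * C / fR ρ ^ 2 + C) *
      (‖od σ Y.2.2‖ + (εz + ‖Y.1‖ + ‖Y.2.1‖ + ‖ev σ Y.2.2‖) * ‖Y.2.1‖) := by
  have hYb : Y ∈ ball (0 : ℂ × ℂ × Q) (2 * fR ρ) := by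
    rw [mem_ball_zero_iff]; have := fR_pos hρ; linarith
  have hYρ : Y ∈ ball (0 : ℂ × ℂ × Q) ρ := ball_subset_ball (fR_le ρ) hYb
  have hn1 : ‖Y‖ ≤ 1 := (mem_ball_zero_iff.1 hYb).le.trans (fR_le_one ρ)
  have tb := h.t_bd0 hC hbs Y hYb
  have zb := h.z_bd0 hC hs h0 h1 Y hYb
  have sct := h.sc_t Y hYρ
  obtain ⟨x, y, q⟩ := Y
  simp only at *
  set R := fR ρ with hRdef
  have hR : 0 < R := fR_pos hρ
  have hR1 : R ≤ 1 := by have := fR_le_one ρ; linarith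
  have hY' := hY
  rw [Prod.norm_def, Prod.norm_def] at hY'
  have hx : ‖x‖ < R := lt_of_le_of_lt (le_max_left _ _) hY'
  have hy : ‖y‖ < R := lt_of_le_of_lt ((le_max_left _ _).trans (le_max_right _ _)) hY'
  have hq : ‖q‖ < R := lt_of_le_of_lt ((le_max_right _ _).trans (le_max_right _ _)) hY'
  set A := ev σ q with hA
  set B := od σ q with hB
  have hAn : ‖A‖ < R := lt_of_le_of_lt (h.hσ.norm_ev q) hq
  have hBn : ‖B‖ < R := lt_of_le_of_lt (h.hσ.norm_od q) hq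
  have z0 : ‖(0 : ℂ)‖ < R := by simpa using hR
  have zq : ‖(0 : Q)‖ < R := by simpa using hR
  have eA : ev σ A = A := h.hσ.ev_ev q
  have eq : A + B = q := ev_add_od q
  have hx0 := norm_nonneg x
  have hy0 := norm_nonneg y
  have hq0 := norm_nonneg q
  have hA0 := norm_nonneg A
  have hB0 := norm_nonneg B
  have hbs' : 0 < 1 / bs := by positivity
  have hs' : 0 < 1 / s := by positivity
  have han : DifferentiableOn ℂ sc (ball 0 (2 * R)) := h.an.mono (ball_subset_ball (fR_le ρ))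
  -- the three functions
  have dT : DifferentiableOn ℂ (fun Y => (sc Y).1) (ball 0 (2 * R)) := han.fst
  have dZ : DifferentiableOn ℂ (fun Y => (sc Y).2) (ball 0 (2 * R)) := han.snd
  have dG : DifferentiableOn ℂ (fun Y : ℂ × ℂ × Q => (sc Y).2 - Y.2.1 / (s : ℂ)) (ball 0 (2 * R)) :=
    dZ.sub (Differentiable.differentiableOn (by fun_prop))
  have mT : ∀ Y ∈ ball (0 : ℂ × ℂ × Q) (2 * R), ‖(sc Y).1‖ ≤ 1 / bs + 2 * C := fun Y hY =>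
    (h.t_bd0 hC hbs Y hY).trans (le_of_unit (by positivity) ((mem_ball_zero_iff.1 hY).le.trans (fR_le_one ρ)))
  have mZ : ∀ Y ∈ ball (0 : ℂ × ℂ × Q) (2 * R), ‖(sc Y).2‖ ≤ 1 / s + 3 * C := fun Y hY =>
    (h.z_bd0 hC hs h0 h1 Y hY).trans (le_of_unit (by positivity) ((mem_ball_zero_iff.1 hY).le.trans (fR_le_one ρ)))
  have mG : ∀ Y ∈ ball (0 : ℂ × ℂ × Q) (2 * R), ‖(sc Y).2 - Y.2.1 / (s : ℂ)‖ ≤ 3 * C := fun Y hY =>
    (h.g_bd0 hC h0 h1 Y hY).trans (le_of_unit (by positivity) ((mem_ball_zero_iff.1 hY).le.trans (fR_le_one ρ)))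
  have pT : ∀ Y ∈ ball (0 : ℂ × ℂ × Q) (2 * R), (sc (parY σ Y)).1 = (sc Y).1 := fun Y hY => by
    rw [h.par Y (ball_subset_ball (fR_le ρ) hY)]
  have pZ : ∀ Y ∈ ball (0 : ℂ × ℂ × Q) (2 * R), (sc (parY σ Y)).2 = -(sc Y).2 := fun Y hY => by
    rw [h.par Y (ball_subset_ball (fR_le ρ) hY)]
  have pG : ∀ Y ∈ ball (0 : ℂ × ℂ × Q) (2 * R),
      (sc (parY σ Y)).2 - (parY σ Y).2.1 / (s : ℂ) = -((sc Y).2 - Y.2.1 / (s : ℂ)) := fun Y hY => by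
    rw [h.par Y (ball_subset_ball (fR_le ρ) hY)]
    simp only [parY]
    ring
  refine ⟨?_, ?_, ?_, ?_, ?_, ?_⟩
  · have := sl_odd_zero (f := fun Y => (sc Y).2) h.hσ pZ hx zq
    rwa [ev_zero] at this
  · rw [Prod.norm_def (sc (x, y, q))]
    have hn0 := norm_nonneg ((x, y, q) : ℂ × ℂ × Q)
    refine max_le (tb.trans ?_) (zb.trans ?_)
    · apply mul_le_mul_of_nonneg_right _ hn0; linarith
    · apply mul_le_mul_of_nonneg_right _ hn0; linarith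
  · have a2 : ‖x / (bs : ℂ)‖ = 1 / bs * ‖x‖ := by
      rw [norm_div_ofReal _ hbs]; ring
    have a1 : wn ((x, y, q) : ℂ × ℂ × Q) ^ 2 ≤ ‖x‖ + ‖y‖ ^ 2 := by
      simp only [wn]
      rcases le_total ‖x‖ ‖y‖ with hxy | hxy
      · rw [max_eq_right hxy]; linarith
      · rw [max_eq_left hxy]; nlinarith
    have e : (sc (x, y, q)).1 = ((sc (x, y, q)).1 - x / (bs : ℂ)) + x / (bs : ℂ) := by ring
    rw [e]
    refine (norm_add_le _ _).trans ?_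
    rw [a2]
    have a3 : C * (wn ((x, y, q) : ℂ × ℂ × Q) ^ 2 + ‖q‖) ≤ C * (‖x‖ + ‖y‖ ^ 2 + ‖q‖) := by gcongr
    have a4 : 1 / bs * ‖x‖ ≤ 1 / bs * (‖x‖ + ‖y‖ ^ 2 + ‖q‖) := by
      apply mul_le_mul_of_nonneg_left _ hbs'.le
      nlinarith
    rw [add_mul]
    linarith
  · have V1 : ‖(sc (x, y, q)).1 - (sc (x, 0, A)).1‖ ≤ 2 * (1 / bs + 2 * C) * ((‖y‖ + ‖B‖) / R) ^ 2 :=
      sl_even_v (f := fun Y => (sc Y).1) h.hσ dT mT pT hx hy hq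
    have V2 := sl_lip_q (f := fun Y => (sc Y).1) dT mT (x := x) (y := 0) (q := 0) (q' := A) hx z0 zq (by simpa using hAn)
    simp only [sub_zero] at V2
    have e : (sc (x, y, q)).1 - (sc (x, 0, 0)).1 = ((sc (x, y, q)).1 - (sc (x, 0, A)).1) + ((sc (x, 0, A)).1 - (sc (x, 0, 0)).1) := by
      ring
    rw [e]
    refine (norm_add_le _ _).trans ((add_le_add V1 V2).trans ?_)
    have hK : 0 ≤ 2 * (1 / bs + 2 * C) := by positivity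
    have e1 : 2 * (1 / bs + 2 * C) * ((‖y‖ + ‖B‖) / R) ^ 2 = 2 * (1 / bs + 2 * C) / R ^ 2 * (‖y‖ + ‖B‖) ^ 2 := by
      field_simp
    have e2 : 2 * (1 / bs + 2 * C) * (‖A‖ / R) ≤ 2 * (1 / bs + 2 * C) / R ^ 2 * ‖A‖ := by
      have : 2 * (1 / bs + 2 * C) * (‖A‖ / R) = 2 * (1 / bs + 2 * C) / R ^ 2 * (R * ‖A‖) := by field_simp
      rw [this]
      apply mul_le_mul_of_nonneg_left _ (by positivity)
      nlinarith
    have e3 : 2 * (1 / bs + 2 * C) / R ^ 2 * (‖A‖ + (‖y‖ + ‖B‖) ^ 2)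
        = 2 * (1 / bs + 2 * C) / R ^ 2 * ‖A‖ + 2 * (1 / bs + 2 * C) / R ^ 2 * (‖y‖ + ‖B‖) ^ 2 := by ring
    rw [e1, e3]
    linarith
  · have V := sl_odd_v (f := fun Y => (sc Y).2) h.hσ dZ mZ pZ hx hy hq
    refine V.trans (le_of_eq ?_)
    ring
  · have U1 := sl_lip_q (f := fun Y : ℂ × ℂ × Q => (sc Y).2 - Y.2.1 / (s : ℂ)) dG mG (x := x) (y := y) (q := A) (q' := q)
      hx hy hAn (by rw [← eq]; simpa using hBn)
    have eBq : q - A = B := by rw [← eq]; abel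
    rw [eBq] at U1
    have U2 := (sl_odd_row (f := fun Y : ℂ × ℂ × Q => (sc Y).2 - Y.2.1 / (s : ℂ)) h.hσ dG mG pG hx hy hAn).1
    rw [eA] at U2
    have U3 := h.sc_z (0, y, 0) (ball_subset_ball (fR_le ρ) (mem3 (by linarith) (by linarith) (by linarith)))
    simp only [wn, norm_zero, add_zero] at U3
    rw [max_eq_right hy0] at U3
    simp only at U1 U2
    have e : (sc (x, y, q)).2 - y / (s : ℂ) = (((sc (x, y, q)).2 - y / (s : ℂ)) - ((sc (x, y, A)).2 - y / (s : ℂ)))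
        + ((((sc (x, y, A)).2 - y / (s : ℂ)) - ((sc (0, y, 0)).2 - y / (s : ℂ))) + ((sc (0, y, 0)).2 - y / (s : ℂ))) := by ring
    rw [e]
    refine (norm_add_le _ _).trans ((add_le_add U1 ((norm_add_le _ _).trans (add_le_add U2 U3))).trans ?_)
    have hK : 0 ≤ 12 * C / R ^ 2 := by positivity
    have c1 : 2 * (3 * C) * (‖B‖ / R) ≤ 12 * C / R ^ 2 * ‖B‖ := by
      have : 2 * (3 * C) * (‖B‖ / R) = 12 * C / R ^ 2 * (R / 2 * ‖B‖) := by field_simp; ring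
      rw [this]
      apply mul_le_mul_of_nonneg_left _ hK
      nlinarith
    have c2 : 4 * (3 * C) * ((‖x‖ + ‖A‖) / R) * (‖y‖ / R) = 12 * C / R ^ 2 * ((‖x‖ + ‖A‖) * ‖y‖) := by
      field_simp
      ring
    have c3 : C * (εz * ‖y‖ + ‖y‖ ^ 2) = C * ((εz + ‖y‖) * ‖y‖) := by ring
    rw [c2, c3]
    set S := ‖B‖ + (εz + ‖x‖ + ‖y‖ + ‖A‖) * ‖y‖ with hS
    have d1 : ‖B‖ + (‖x‖ + ‖A‖) * ‖y‖ ≤ S := by
      rw [hS]; nlinarith [mul_nonneg h0 hy0, mul_nonneg hy0 hy0]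
    have d2 : (εz + ‖y‖) * ‖y‖ ≤ S := by
      rw [hS]; nlinarith [mul_nonneg hx0 hy0, mul_nonneg hA0 hy0]
    have d1' := mul_le_mul_of_nonneg_left d1 hK
    have d2' := mul_le_mul_of_nonneg_left d2 hC
    rw [add_mul]
    rw [mul_add] at d1'
    linarith

end sstep

theorem sstep_rows (ρ C bs s : ℝ) (hρ : 0 < ρ) (hC : 1 ≤ C) (hbs : 0 < bs) (hs : 0 < s) : ∃ C' r : ℝ, 1 ≤ C' ∧ 0 < r ∧ r ≤ ρ ∧
    ∀ (εz : ℝ) (Q : Type) [NormedAddCommGroup Q] [NormedSpace ℂ Q] (σ : Q →L[ℂ] Q) (sc : ℂ × ℂ × Q → ℂ × ℂ),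
      0 ≤ εz → εz ≤ 1 → SStep ρ C bs s εz σ sc → ∀ Y ∈ ball (0 : ℂ × ℂ × Q) r,
        (sc (Y.1, 0, 0)).2 = 0 ∧
        ‖sc Y‖ ≤ C' * ‖Y‖ ∧
        ‖(sc Y).1‖ ≤ C' * (‖Y.1‖ + ‖Y.2.1‖ ^ 2 + ‖Y.2.2‖) ∧
        ‖(sc Y).1 - (sc (Y.1, 0, 0)).1‖ ≤ C' * (‖ev σ Y.2.2‖ + (‖Y.2.1‖ + ‖od σ Y.2.2‖) ^ 2) ∧
        ‖(sc Y).2‖ ≤ C' * (‖Y.2.1‖ + ‖od σ Y.2.2‖) ∧
        ‖(sc Y).2 - Y.2.1 / s‖ ≤ C' * (‖od σ Y.2.2‖ + (εz + ‖Y.1‖ + ‖Y.2.1‖ + ‖ev σ Y.2.2‖) * ‖Y.2.1‖) := by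
  have hC0 : 0 ≤ C := zero_le_one.trans hC
  have hR := fR_pos hρ
  set R := fR ρ with hRd
  set C1 := 1 / bs + 1 / s + 3 * C with hC1
  set C2 := 1 / bs + C with hC2
  set C3 := 2 * (1 / bs + 2 * C) / R ^ 2 with hC3
  set C4 := (1 / s + 3 * C) / R with hC4
  set C5 := 12 * C / R ^ 2 + C with hC5
  have p1 : 0 ≤ C1 := by positivity
  have p2 : 0 ≤ C2 := by positivity
  have p3 : 0 ≤ C3 := by positivity
  have p4 : 0 ≤ C4 := by positivity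
  have p5 : 0 ≤ C5 := by positivity
  refine ⟨1 + C1 + C2 + C3 + C4 + C5, R, by linarith, hR, by have := fR_le ρ; linarith, ?_⟩
  intro εz Q _ _ σ sc h0 h1 h Y hY
  obtain ⟨r1, r2, r3, r4, r5, r6⟩ := h.rows hρ hC0 hbs hs h0 h1 (mem_ball_zero_iff.1 hY)
  refine ⟨r1, r2.trans ?_, r3.trans ?_, r4.trans ?_, r5.trans ?_, r6.trans ?_⟩ <;>
    exact mul_le_mul_of_nonneg_right (by linarith) (by positivity)

/-! ## FT-3 -/

/-- one step of the torus remainder map -/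
structure TStep (ρ θ C : ℝ) {T T' : Type} [NormedAddCommGroup T] [NormedSpace ℂ T] [NormedAddCommGroup T'] [NormedSpace ℂ T']
    (σ : T →L[ℂ] T) (σ' : T' →L[ℂ] T') (Ψ : (ℂ × ℂ) × T → T') : Prop where
  an : DifferentiableOn ℂ Ψ (ball 0 ρ)
  bd : ∀ X ∈ ball (0 : (ℂ × ℂ) × T) ρ, ‖Ψ X‖ ≤ θ * ‖X.2‖ + C * ‖X‖ ^ 2
  hσ : Invol σ
  hσ' : Invol σ'
  par : ∀ X ∈ ball (0 : (ℂ × ℂ) × T) ρ, Ψ (parX σ X) = σ' (Ψ X)

section tstep

variable {T T' G : Type} [NormedAddCommGroup T] [NormedSpace ℂ T] [NormedAddCommGroup T'] [NormedSpace ℂ T']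
  [NormedAddCommGroup G] [NormedSpace ℂ G]
  {σ : T →L[ℂ] T} {σ' : T' →L[ℂ] T'} {Ψ : (ℂ × ℂ) × T → T'} {ρ θ C : ℝ}

theorem norm3_le {x y : ℂ} {q : T} {a : ℝ} (hx : ‖x‖ ≤ a) (hy : ‖y‖ ≤ a) (hq : ‖q‖ ≤ a) :
    ‖((x, y, q) : ℂ × ℂ × T)‖ ≤ a := by
  rw [Prod.norm_def, Prod.norm_def]
  exact max_le hx (max_le hy hq)

/-- the special Lipschitz constant `(1 + θ) / 2` in the remainder direction, by Schwarz on a small ball -/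
theorem sl_special {F : ℂ × ℂ × T → G} {RT r : ℝ} (hθ0 : 0 ≤ θ) (hθ : θ < 1) (hC : 0 ≤ C) (hRT : 0 < RT)
    (hRT' : 32 * C * RT ≤ 1 - θ) (hr0 : 0 ≤ r) (hr : 8 * r ≤ RT * (1 - θ))
    (hd : DifferentiableOn ℂ F (ball 0 (2 * RT)))
    (hb : ∀ Y ∈ ball (0 : ℂ × ℂ × T) (2 * RT), ‖F Y‖ ≤ θ * ‖Y.2.2‖ + C * ‖Y‖ ^ 2)
    {x y : ℂ} {a b : T} (hx : ‖x‖ ≤ r) (hy : ‖y‖ ≤ r) (ha : ‖a‖ ≤ r) (hbn : ‖b‖ < RT) :
    ‖F (x, y, a + b) - F (x, y, a)‖ ≤ (1 + θ) / 2 * ‖b‖ := by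
  have h1θ : 0 < 1 - θ := by linarith
  have hrRT : 8 * r ≤ RT := by nlinarith
  have hmem : ∀ e ∈ ball (0 : T) RT, ((x, y, a + e) : ℂ × ℂ × T) ∈ ball (0 : ℂ × ℂ × T) (2 * RT) := by
    intro e he
    have he' := mem_ball_zero_iff.1 he
    exact mem3 (by linarith) (by linarith) (by have := norm_add_le a e; linarith)
  have key := sl_schwarz (f := fun b' : T => F (x, y, a + b') - F (x, y, a))
    (R := RT) (M := θ * RT + 2 * θ * r + 2 * C * (r + RT) ^ 2) ?_ ?_ (by simp) (mem_ball_zero_iff.2 hbn)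
  · refine key.trans ?_
    have e : (θ * RT + 2 * θ * r + 2 * C * (r + RT) ^ 2) * (‖b‖ / RT)
        = (θ * RT + 2 * θ * r + 2 * C * (r + RT) ^ 2) / RT * ‖b‖ := by ring
    rw [e]
    apply mul_le_mul_of_nonneg_right _ (norm_nonneg b)
    rw [div_le_iff₀ hRT]
    have a1 : 2 * θ * r ≤ RT * (1 - θ) / 4 := by nlinarith
    have a2 : (r + RT) ^ 2 ≤ 4 * RT ^ 2 := by nlinarith
    have a3 : 2 * C * (r + RT) ^ 2 ≤ RT * (1 - θ) / 4 := by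
      calc 2 * C * (r + RT) ^ 2 ≤ 2 * C * (4 * RT ^ 2) := by gcongr
        _ = (32 * C * RT) * RT / 4 := by ring
        _ ≤ (1 - θ) * RT / 4 := by gcongr
        _ = RT * (1 - θ) / 4 := by ring
    linarith
  · refine (hd.comp (Differentiable.differentiableOn (by fun_prop)) hmem).sub (differentiableOn_const _)
  · intro z hz
    have hz' := mem_ball_zero_iff.1 hz
    have b1 := hb _ (hmem z hz)
    have b2 := hb (x, y, a) (mem3 (by linarith) (by linarith) (by linarith))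
    simp only at b1 b2
    have n1 : ‖a + z‖ ≤ r + RT := by have := norm_add_le a z; linarith
    have n2 : ‖((x, y, a + z) : ℂ × ℂ × T)‖ ≤ r + RT := norm3_le (by linarith) (by linarith) n1
    have n3 : ‖((x, y, a) : ℂ × ℂ × T)‖ ≤ r + RT := norm3_le (by linarith) (by linarith) (by linarith)
    have c1 : θ * ‖a + z‖ + C * ‖((x, y, a + z) : ℂ × ℂ × T)‖ ^ 2 ≤ θ * (r + RT) + C * (r + RT) ^ 2 := by gcongr
    have c2 : θ * ‖a‖ + C * ‖((x, y, a) : ℂ × ℂ × T)‖ ^ 2 ≤ θ * r + C * (r + RT) ^ 2 := by gcongr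
    calc _ ≤ ‖F (x, y, a + z)‖ + ‖F (x, y, a)‖ := norm_sub_le _ _
      _ ≤ (θ * (r + RT) + C * (r + RT) ^ 2) + (θ * r + C * (r + RT) ^ 2) := add_le_add (b1.trans c1) (b2.trans c2)
      _ = _ := by ring

/-- the small radius in the remainder direction -/
noncomputable def tRT (ρ θ C : ℝ) : ℝ := min (fR ρ) ((1 - θ) / (32 * C))

/-- the final radius of the torus rows -/
noncomputable def tRad (ρ θ C : ℝ) : ℝ := tRT ρ θ C * (1 - θ) / 8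

theorem tRT_pos (hρ : 0 < ρ) (hθ : θ < 1) (hC : 1 ≤ C) : 0 < tRT ρ θ C := by
  have := fR_pos hρ
  have h1 : 0 < 1 - θ := by linarith
  unfold tRT
  exact lt_min this (by positivity)

theorem tRT_le (ρ θ C : ℝ) : tRT ρ θ C ≤ fR ρ := min_le_left _ _

theorem tRT_small (hC : 1 ≤ C) : 32 * C * tRT ρ θ C ≤ 1 - θ := by
  have h1 : tRT ρ θ C ≤ (1 - θ) / (32 * C) := min_le_right _ _
  have h2 : 0 < 32 * C := by positivity
  rw [le_div_iff₀ h2] at h1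
  linarith

theorem TStep.f_an (h : TStep ρ θ C σ σ' Ψ) : DifferentiableOn ℂ (fun Y : ℂ × ℂ × T => Ψ (as3 Y)) (ball 0 ρ) :=
  h.an.comp as3_diff.differentiableOn (fun Y hY => by
    rw [mem_ball_zero_iff, as3_norm]; exact mem_ball_zero_iff.1 hY)

theorem TStep.f_bd (h : TStep ρ θ C σ σ' Ψ) :
    ∀ Y ∈ ball (0 : ℂ × ℂ × T) ρ, ‖Ψ (as3 Y)‖ ≤ θ * ‖Y.2.2‖ + C * ‖Y‖ ^ 2 := by
  intro Y hY
  have := h.bd (as3 Y) (by rw [mem_ball_zero_iff, as3_norm]; exact mem_ball_zero_iff.1 hY)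
  rw [as3_norm] at this
  exact this

theorem TStep.f_par (h : TStep ρ θ C σ σ' Ψ) :
    ∀ Y ∈ ball (0 : ℂ × ℂ × T) ρ, Ψ (as3 (parY σ Y)) = σ' (Ψ (as3 Y)) := by
  intro Y hY
  rw [← as3_par]
  exact h.par (as3 Y) (by rw [mem_ball_zero_iff, as3_norm]; exact mem_ball_zero_iff.1 hY)

theorem TStep.f_bd1 (h : TStep ρ θ C σ σ' Ψ) (hC : 0 ≤ C) (hθ0 : 0 ≤ θ) (hθ : θ < 1) :
    ∀ Y ∈ ball (0 : ℂ × ℂ × T) (2 * fR ρ), ‖Ψ (as3 Y)‖ ≤ 1 + C := by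
  intro Y hY
  have hn : ‖Y‖ ≤ 1 := (mem_ball_zero_iff.1 hY).le.trans (fR_le_one ρ)
  refine (h.f_bd Y (ball_subset_ball (fR_le ρ) hY)).trans ?_
  have hq := (q_le_norm' Y).trans hn
  have hq0 := norm_nonneg Y.2.2
  have hn0 := norm_nonneg Y
  have a1 : θ * ‖Y.2.2‖ ≤ 1 * 1 := mul_le_mul hθ.le hq hq0 zero_le_one
  have a2 : C * ‖Y‖ ^ 2 ≤ C * 1 := by
    apply mul_le_mul_of_nonneg_left _ hC
    nlinarith
  linarith

set_option maxHeartbeats 1000000 in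
/-- **the odd row of the torus map** -/
theorem TStep.fine_o (h : TStep ρ θ C σ σ' Ψ) (hρ : 0 < ρ) (hC : 1 ≤ C) (hθ0 : 0 ≤ θ) (hθ : θ < 1)
    {Y : ℂ × ℂ × T} (hY : ‖Y‖ < tRad ρ θ C) :
    ‖od σ' (Ψ (as3 Y))‖ ≤ (1 + θ) / 2 * ‖od σ Y.2.2‖
      + (4 * (1 + C) / fR ρ ^ 2 + C) * ((‖Y.1‖ + ‖Y.2.1‖ + ‖ev σ Y.2.2‖) * ‖Y.2.1‖) := by
  obtain ⟨x, y, q⟩ := Y
  simp only
  have hC0 : 0 ≤ C := zero_le_one.trans hC
  set R := fR ρ with hRdef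
  set RT := tRT ρ θ C with hRTdef
  set r := tRad ρ θ C with hrdef
  have hR : 0 < R := fR_pos hρ
  have hRT : 0 < RT := tRT_pos hρ hθ hC
  have hRTR : RT ≤ R := tRT_le ρ θ C
  have h1θ : 0 < 1 - θ := by linarith
  have hr8 : 8 * r = RT * (1 - θ) := by rw [hrdef]; unfold tRad; ring
  have hr0 : 0 < r := by nlinarith
  have hrRT : 8 * r ≤ RT := by nlinarith
  rw [Prod.norm_def, Prod.norm_def] at hY
  have hxr : ‖x‖ < r := lt_of_le_of_lt (le_max_left _ _) hY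
  have hyr : ‖y‖ < r := lt_of_le_of_lt ((le_max_left _ _).trans (le_max_right _ _)) hY
  have hqr : ‖q‖ < r := lt_of_le_of_lt ((le_max_right _ _).trans (le_max_right _ _)) hY
  have hx : ‖x‖ < R := by linarith
  have hy : ‖y‖ < R := by linarith
  have hq : ‖q‖ < R := by linarith
  set A := ev σ q with hA
  set B := od σ q with hB
  have hAr : ‖A‖ < r := lt_of_le_of_lt (h.hσ.norm_ev q) hqr
  have hBr : ‖B‖ < r := lt_of_le_of_lt (h.hσ.norm_od q) hqr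
  have hAn : ‖A‖ < R := by linarith
  have z0 : ‖(0 : ℂ)‖ < R := by simpa using hR
  have zq : ‖(0 : T)‖ < R := by simpa using hR
  have eA : ev σ A = A := h.hσ.ev_ev q
  have eq : A + B = q := ev_add_od q
  have hx0 := norm_nonneg x
  have hy0 := norm_nonneg y
  have hA0 := norm_nonneg A
  have hB0 := norm_nonneg B
  have han : DifferentiableOn ℂ (fun Y : ℂ × ℂ × T => Ψ (as3 Y)) (ball 0 (2 * R)) :=
    h.f_an.mono (ball_subset_ball (fR_le ρ))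
  have hd : DifferentiableOn ℂ (fun Y : ℂ × ℂ × T => od σ' (Ψ (as3 Y))) (ball 0 (2 * R)) :=
    (differentiable_od (σ := σ')).comp_differentiableOn han
  have hM : ∀ Y ∈ ball (0 : ℂ × ℂ × T) (2 * R), ‖od σ' (Ψ (as3 Y))‖ ≤ 1 + C := fun Y hY =>
    (h.hσ'.norm_od _).trans (h.f_bd1 hC0 hθ0 hθ Y hY)
  have hpar : ∀ Y ∈ ball (0 : ℂ × ℂ × T) (2 * R), od σ' (Ψ (as3 (parY σ Y))) = -od σ' (Ψ (as3 Y)) := by
    intro Y hY
    rw [h.f_par Y (ball_subset_ball (fR_le ρ) hY)]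
    exact h.hσ'.od_σ _
  have sub2 : ball (0 : ℂ × ℂ × T) (2 * RT) ⊆ ball 0 (2 * R) := ball_subset_ball (by linarith)
  -- U1
  have U1 : ‖od σ' (Ψ (as3 (x, y, q))) - od σ' (Ψ (as3 (x, y, A)))‖ ≤ (1 + θ) / 2 * ‖B‖ := by
    have := sl_special (F := fun Y : ℂ × ℂ × T => od σ' (Ψ (as3 Y))) (θ := θ) (C := C) (RT := RT) (r := r) hθ0 hθ hC0 hRT
      (tRT_small hC) hr0.le hr8.le (hd.mono sub2)
      (fun Y hY => (h.hσ'.norm_od _).trans (h.f_bd Y (ball_subset_ball (fR_le ρ) (sub2 hY))))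
      (x := x) (y := y) (a := A) (b := B) hxr.le hyr.le hAr.le (by linarith)
    simpa only [eq] using this
  -- U2
  have U2 : ‖od σ' (Ψ (as3 (x, y, A))) - od σ' (Ψ (as3 (0, y, 0)))‖ ≤ 4 * (1 + C) * ((‖x‖ + ‖A‖) / R) * (‖y‖ / R) := by
    have := (sl_odd_row (f := fun Y : ℂ × ℂ × T => od σ' (Ψ (as3 Y))) h.hσ hd hM hpar hx hy hAn).1
    rwa [eA] at this
  -- U3
  have U3 : ‖od σ' (Ψ (as3 (0, y, 0)))‖ ≤ C * ‖y‖ ^ 2 := by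
    refine (h.hσ'.norm_od _).trans ?_
    have := h.f_bd (0, y, 0) (ball_subset_ball (fR_le ρ) (mem3 (by linarith) (by linarith) (by linarith)))
    have e : ‖((0, y, 0) : ℂ × ℂ × T)‖ = ‖y‖ := by
      rw [Prod.norm_def, Prod.norm_def]; simp
    rw [e] at this
    simpa using this
  have c2 : 4 * (1 + C) * ((‖x‖ + ‖A‖) / R) * (‖y‖ / R) + C * ‖y‖ ^ 2 ≤ (4 * (1 + C) / R ^ 2 + C) * ((‖x‖ + ‖y‖ + ‖A‖) * ‖y‖) := by
    have e : 4 * (1 + C) * ((‖x‖ + ‖A‖) / R) * (‖y‖ / R) = 4 * (1 + C) / R ^ 2 * ((‖x‖ + ‖A‖) * ‖y‖) := by field_simp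
    rw [e, add_mul (4 * (1 + C) / R ^ 2) C]
    apply add_le_add
    · apply mul_le_mul_of_nonneg_left _ (by positivity)
      apply mul_le_mul_of_nonneg_right _ hy0
      linarith
    · apply mul_le_mul_of_nonneg_left _ hC0
      nlinarith
  have e : od σ' (Ψ (as3 (x, y, q))) = (od σ' (Ψ (as3 (x, y, q))) - od σ' (Ψ (as3 (x, y, A))))
      + ((od σ' (Ψ (as3 (x, y, A))) - od σ' (Ψ (as3 (0, y, 0)))) + od σ' (Ψ (as3 (0, y, 0)))) := by abel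
  rw [e]
  exact (norm_add_le _ _).trans (add_le_add U1 (((norm_add_le _ _).trans (add_le_add U2 U3)).trans c2))

set_option maxHeartbeats 1000000 in
/-- **the even row of the torus map** -/
theorem TStep.fine_e (h : TStep ρ θ C σ σ' Ψ) (hρ : 0 < ρ) (hC : 1 ≤ C) (hθ0 : 0 ≤ θ) (hθ : θ < 1)
    {Y : ℂ × ℂ × T} (hY : ‖Y‖ < tRad ρ θ C) {t' : ℂ} {A' : T} (ht' : ‖t'‖ < tRad ρ θ C) (hA' : ‖A'‖ < tRad ρ θ C)
    (hσA : σ A' = A') :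
    ‖ev σ' (Ψ (as3 Y)) - Ψ (as3 (t', 0, A'))‖ ≤ (1 + θ) / 2 * ‖ev σ Y.2.2 - A'‖
      + (2 * (1 + C) / fR ρ ^ 2) * (‖Y.1 - t'‖ + (‖Y.2.1‖ + ‖od σ Y.2.2‖) ^ 2) := by
  obtain ⟨x, y, q⟩ := Y
  simp only
  have hC0 : 0 ≤ C := zero_le_one.trans hC
  set R := fR ρ with hRdef
  set RT := tRT ρ θ C with hRTdef
  set r := tRad ρ θ C with hrdef
  have hR : 0 < R := fR_pos hρ
  have hR1 : R ≤ 1 := by have := fR_le_one ρ; linarith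
  have hRT : 0 < RT := tRT_pos hρ hθ hC
  have hRTR : RT ≤ R := tRT_le ρ θ C
  have h1θ : 0 < 1 - θ := by linarith
  have hr8 : 8 * r = RT * (1 - θ) := by rw [hrdef]; unfold tRad; ring
  have hr0 : 0 < r := by nlinarith
  have hrRT : 8 * r ≤ RT := by nlinarith
  rw [Prod.norm_def, Prod.norm_def] at hY
  have hxr : ‖x‖ < r := lt_of_le_of_lt (le_max_left _ _) hY
  have hyr : ‖y‖ < r := lt_of_le_of_lt ((le_max_left _ _).trans (le_max_right _ _)) hY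
  have hqr : ‖q‖ < r := lt_of_le_of_lt ((le_max_right _ _).trans (le_max_right _ _)) hY
  have hx : ‖x‖ < R := by linarith
  have hy : ‖y‖ < R := by linarith
  have hq : ‖q‖ < R := by linarith
  set A := ev σ q with hA
  set B := od σ q with hB
  have hAr : ‖A‖ < r := lt_of_le_of_lt (h.hσ.norm_ev q) hqr
  have z0 : ‖(0 : ℂ)‖ < R := by simpa using hR
  have z0r : ‖(0 : ℂ)‖ ≤ r := by simpa using hr0.le
  have hx0 := norm_nonneg x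
  have hy0 := norm_nonneg y
  have hB0 := norm_nonneg B
  have han : DifferentiableOn ℂ (fun Y : ℂ × ℂ × T => Ψ (as3 Y)) (ball 0 (2 * R)) :=
    h.f_an.mono (ball_subset_ball (fR_le ρ))
  have hd : DifferentiableOn ℂ (fun Y : ℂ × ℂ × T => ev σ' (Ψ (as3 Y))) (ball 0 (2 * R)) :=
    (differentiable_ev (σ := σ')).comp_differentiableOn han
  have hM : ∀ Y ∈ ball (0 : ℂ × ℂ × T) (2 * R), ‖ev σ' (Ψ (as3 Y))‖ ≤ 1 + C := fun Y hY =>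
    (h.hσ'.norm_ev _).trans (h.f_bd1 hC0 hθ0 hθ Y hY)
  have hpar : ∀ Y ∈ ball (0 : ℂ × ℂ × T) (2 * R), ev σ' (Ψ (as3 (parY σ Y))) = ev σ' (Ψ (as3 Y)) := by
    intro Y hY
    rw [h.f_par Y (ball_subset_ball (fR_le ρ) hY)]
    exact h.hσ'.ev_σ _
  have sub2 : ball (0 : ℂ × ℂ × T) (2 * RT) ⊆ ball 0 (2 * R) := ball_subset_ball (by linarith)
  -- on even states `ev σ' Ψ = Ψ`
  have hfix : ev σ' (Ψ (as3 (t', 0, A'))) = Ψ (as3 (t', 0, A')) := by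
    have h1 := h.f_par (t', 0, A') (ball_subset_ball (fR_le ρ) (mem3 (by linarith) (by linarith) (by linarith)))
    have h2 : parY σ ((t', 0, A') : ℂ × ℂ × T) = (t', 0, A') := by
      simp only [parY, neg_zero, hσA]
    rw [h2] at h1
    unfold ev
    rw [← h1, ← two_smul ℂ, smul_smul]
    norm_num
  -- V1
  have V1 : ‖ev σ' (Ψ (as3 (x, y, q))) - ev σ' (Ψ (as3 (x, 0, A)))‖ ≤ 2 * (1 + C) * ((‖y‖ + ‖B‖) / R) ^ 2 :=
    sl_even_v (f := fun Y : ℂ × ℂ × T => ev σ' (Ψ (as3 Y))) h.hσ hd hM hpar hx hy hq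
  -- V2
  have V2 : ‖ev σ' (Ψ (as3 (x, 0, A))) - ev σ' (Ψ (as3 (x, 0, A')))‖ ≤ (1 + θ) / 2 * ‖A - A'‖ := by
    have := sl_special (F := fun Y : ℂ × ℂ × T => ev σ' (Ψ (as3 Y))) (θ := θ) (C := C) (RT := RT) (r := r) hθ0 hθ hC0 hRT
      (tRT_small hC) hr0.le hr8.le (hd.mono sub2)
      (fun Y hY => (h.hσ'.norm_ev _).trans (h.f_bd Y (ball_subset_ball (fR_le ρ) (sub2 hY))))
      (x := x) (y := 0) (a := A') (b := A - A') hxr.le z0r hA'.le (by have := norm_sub_le A A'; linarith)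
    simpa only [add_sub_cancel] using this
  -- V3
  have V3 : ‖ev σ' (Ψ (as3 (x, 0, A'))) - ev σ' (Ψ (as3 (t', 0, A')))‖ ≤ 2 * (1 + C) * (‖x - t'‖ / R) :=
    sl_lip_x (f := fun Y : ℂ × ℂ × T => ev σ' (Ψ (as3 Y))) hd hM (x := t') (x' := x) (y := 0) (q := A')
      (by linarith) (by have := norm_sub_le x t'; linarith) z0 (by linarith)
  have hK : 0 ≤ 2 * (1 + C) / R ^ 2 := by positivity
  have c1 : 2 * (1 + C) * ((‖y‖ + ‖B‖) / R) ^ 2 = 2 * (1 + C) / R ^ 2 * (‖y‖ + ‖B‖) ^ 2 := by field_simp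
  have c3 : 2 * (1 + C) * (‖x - t'‖ / R) ≤ 2 * (1 + C) / R ^ 2 * ‖x - t'‖ := by
    have : 2 * (1 + C) * (‖x - t'‖ / R) = 2 * (1 + C) / R ^ 2 * (R * ‖x - t'‖) := by field_simp
    rw [this]
    apply mul_le_mul_of_nonneg_left _ hK
    nlinarith [norm_nonneg (x - t')]
  have e : ev σ' (Ψ (as3 (x, y, q))) - Ψ (as3 (t', 0, A'))
      = (ev σ' (Ψ (as3 (x, 0, A))) - ev σ' (Ψ (as3 (x, 0, A'))))
        + ((ev σ' (Ψ (as3 (x, 0, A'))) - ev σ' (Ψ (as3 (t', 0, A'))))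
          + (ev σ' (Ψ (as3 (x, y, q))) - ev σ' (Ψ (as3 (x, 0, A))))) := by
    rw [hfix]; abel
  rw [e]
  refine (norm_add_le _ _).trans (add_le_add V2 ((norm_add_le _ _).trans ?_))
  rw [mul_add (2 * (1 + C) / R ^ 2)]
  exact add_le_add (V3.trans c3) (V1.trans (le_of_eq c1))

theorem tstep_eqns_cite : True := by
  have := @tRT.eq_1
  have := @tRad.eq_1
  trivial

end tstep

theorem tstep_rows (ρ θ C : ℝ) (hρ : 0 < ρ) (hθ0 : 0 ≤ θ) (hθ : θ < 1) (hC : 1 ≤ C) : ∃ C' r : ℝ, 1 ≤ C' ∧ 0 < r ∧ r ≤ ρ ∧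
    ∀ (T T' : Type) [NormedAddCommGroup T] [NormedSpace ℂ T] [NormedAddCommGroup T'] [NormedSpace ℂ T']
      (σ : T →L[ℂ] T) (σ' : T' →L[ℂ] T') (Ψ : (ℂ × ℂ) × T → T'), TStep ρ θ C σ σ' Ψ →
      ∀ X ∈ ball (0 : (ℂ × ℂ) × T) r,
        ‖od σ' (Ψ X)‖ ≤ (1 + θ) / 2 * ‖od σ X.2‖ + C' * ((‖X.1.1‖ + ‖X.1.2‖ + ‖ev σ X.2‖) * ‖X.1.2‖) ∧
        ∀ (t' : ℂ) (A' : T), ‖t'‖ < r → ‖A'‖ < r → σ A' = A' →
          ‖ev σ' (Ψ X) - Ψ ((t', 0), A')‖ ≤ (1 + θ) / 2 * ‖ev σ X.2 - A'‖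
            + C' * (‖X.1.1 - t'‖ + (‖X.1.2‖ + ‖od σ X.2‖) ^ 2) := by
  have hC0 : 0 ≤ C := zero_le_one.trans hC
  have hR := fR_pos hρ
  have hRT := tRT_pos hρ hθ hC
  have hRTR := tRT_le ρ θ C
  have h1θ : 0 < 1 - θ := by linarith
  have hr8 : 8 * tRad ρ θ C = tRT ρ θ C * (1 - θ) := by unfold tRad; ring
  have hr0 : 0 < tRad ρ θ C := by nlinarith
  have hrRT : 8 * tRad ρ θ C ≤ tRT ρ θ C := by nlinarith
  set R := fR ρ with hRd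
  set C1 := 4 * (1 + C) / R ^ 2 + C with hC1
  set C2 := 2 * (1 + C) / R ^ 2 with hC2
  have p1 : 0 ≤ C1 := by positivity
  have p2 : 0 ≤ C2 := by positivity
  refine ⟨1 + C1 + C2, tRad ρ θ C, by linarith, hr0, by have := fR_le ρ; linarith, ?_⟩
  intro T T' _ _ _ _ σ σ' Ψ h X hX
  obtain ⟨⟨t, z⟩, q⟩ := X
  have hY : ‖((t, z, q) : ℂ × ℂ × T)‖ < tRad ρ θ C := by
    rw [← as3_norm]; exact mem_ball_zero_iff.1 hX
  constructor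
  · have := h.fine_o hρ hC hθ0 hθ hY
    refine this.trans (add_le_add le_rfl (mul_le_mul_of_nonneg_right (by linarith) (by positivity)))
  · intro t' A' ht' hA' hσA
    have := h.fine_e hρ hC hθ0 hθ hY ht' hA' hσA
    refine this.trans (add_le_add le_rfl (mul_le_mul_of_nonneg_right (by linarith) (by positivity)))

/-! ## FT-4 -/

/-- a scalar read-out, even (`sg = 1`) or odd (`sg = -1`) -/
structure RStep (ρ M : ℝ) (sg : ℂ) {T : Type} [NormedAddCommGroup T] [NormedSpace ℂ T] (σ : T →L[ℂ] T) (rd : (ℂ × ℂ) × T → ℂ) : Prop where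
  an : DifferentiableOn ℂ rd (ball 0 ρ)
  bd : ∀ X ∈ ball (0 : (ℂ × ℂ) × T) ρ, ‖rd X‖ ≤ M
  hσ : Invol σ
  par : ∀ X ∈ ball (0 : (ℂ × ℂ) × T) ρ, rd (parX σ X) = sg * rd X

section ft4

variable {T G : Type} [NormedAddCommGroup T] [NormedSpace ℂ T] [NormedAddCommGroup G] [NormedSpace ℂ G] {σ : T →L[ℂ] T}

theorem ft4_as3_mem {ρ : ℝ} {Y : ℂ × ℂ × T} (hY : Y ∈ ball (0 : ℂ × ℂ × T) ρ) :
    as3 Y ∈ ball (0 : (ℂ × ℂ) × T) ρ := by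
  rw [mem_ball_zero_iff, as3_norm]
  exact mem_ball_zero_iff.1 hY

theorem ft4_an {rd : (ℂ × ℂ) × T → G} {ρ : ℝ} (h : DifferentiableOn ℂ rd (ball 0 ρ)) :
    DifferentiableOn ℂ (fun Y : ℂ × ℂ × T => rd (as3 Y)) (ball 0 ρ) :=
  h.comp as3_diff.differentiableOn (fun Y hY => ft4_as3_mem hY)

theorem ft4_comp {r : ℝ} {t z : ℂ} {q : T} (hX : (((t, z), q) : (ℂ × ℂ) × T) ∈ ball (0 : (ℂ × ℂ) × T) r) :
    ‖t‖ < r ∧ ‖z‖ < r ∧ ‖q‖ < r := by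
  have hX' := mem_ball_zero_iff.1 hX
  rw [Prod.norm_def, Prod.norm_def] at hX'
  exact ⟨lt_of_le_of_lt ((le_max_left _ _).trans (le_max_left _ _)) hX',
    lt_of_le_of_lt ((le_max_right _ _).trans (le_max_left _ _)) hX',
    lt_of_le_of_lt (le_max_right _ _) hX'⟩

end ft4

/-- even read-outs near an even state -/
theorem rstep_even (ρ M : ℝ) (hρ : 0 < ρ) (hM : 0 ≤ M) : ∃ C' r : ℝ, 1 ≤ C' ∧ 0 < r ∧ r ≤ ρ ∧
    ∀ (T : Type) [NormedAddCommGroup T] [NormedSpace ℂ T] (σ : T →L[ℂ] T) (rd : (ℂ × ℂ) × T → ℂ), RStep ρ M 1 σ rd →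
      ∀ X ∈ ball (0 : (ℂ × ℂ) × T) r, ∀ (t' : ℂ) (A' : T), ‖t'‖ < r → ‖A'‖ < r → σ A' = A' →
        ‖rd X - rd ((t', 0), A')‖ ≤ C' * (‖X.1.1 - t'‖ + ‖ev σ X.2 - A'‖ + (‖X.1.2‖ + ‖od σ X.2‖) ^ 2) := by
  obtain ⟨R, hRdef⟩ : ∃ R : ℝ, R = ρ / 2 := ⟨_, rfl⟩
  have hR : 0 < R := by rw [hRdef]; positivity
  have h2R : 2 * R = ρ := by rw [hRdef]; ring
  have hK1 : 0 ≤ 2 * M / R := by positivity
  have hK2 : 0 ≤ 2 * M / R ^ 2 := by positivity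
  refine ⟨1 + 2 * M / R + 2 * M / R ^ 2, R / 2, by linarith, by positivity, by linarith, ?_⟩
  intro T _ _ σ rd h X hX t' A' ht' hA' hσA
  obtain ⟨⟨t, z⟩, q⟩ := X
  obtain ⟨htn, hzn, hqn⟩ := ft4_comp hX
  have hd : DifferentiableOn ℂ (fun Y : ℂ × ℂ × T => rd (as3 Y)) (ball 0 (2 * R)) := by
    rw [h2R]; exact ft4_an h.an
  have hMf : ∀ Y ∈ ball (0 : ℂ × ℂ × T) (2 * R), ‖(fun Y : ℂ × ℂ × T => rd (as3 Y)) Y‖ ≤ M := by
    rw [h2R]; exact fun Y hY => h.bd _ (ft4_as3_mem hY)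
  have hpar : ∀ Y ∈ ball (0 : ℂ × ℂ × T) (2 * R),
      (fun Y : ℂ × ℂ × T => rd (as3 Y)) (parY σ Y) = (fun Y : ℂ × ℂ × T => rd (as3 Y)) Y := by
    rw [h2R]
    intro Y hY
    have := h.par _ (ft4_as3_mem hY)
    rw [as3_par, one_mul] at this
    exact this
  have z0 : ‖(0 : ℂ)‖ < R := by simpa using hR
  have hAn : ‖ev σ q‖ ≤ ‖q‖ := h.hσ.norm_ev q
  have E1 : ‖rd ((t, z), q) - rd ((t, 0), ev σ q)‖ ≤ 2 * M * ((‖z‖ + ‖od σ q‖) / R) ^ 2 :=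
    sl_even_v h.hσ hd hMf hpar (x := t) (y := z) (q := q) (by linarith) (by linarith) (by linarith)
  have E2 : ‖rd ((t, 0), ev σ q) - rd ((t, 0), A')‖ ≤ 2 * M * (‖ev σ q - A'‖ / R) :=
    sl_lip_q hd hMf (x := t) (y := 0) (q := A') (q' := ev σ q) (by linarith) z0 (by linarith)
      (by have := norm_sub_le (ev σ q) A'; linarith)
  have E3 : ‖rd ((t, 0), A') - rd ((t', 0), A')‖ ≤ 2 * M * (‖t - t'‖ / R) :=
    sl_lip_x hd hMf (x := t') (x' := t) (y := 0) (q := A') (by linarith)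
      (by have := norm_sub_le t t'; linarith) z0 (by linarith)
  show ‖rd ((t, z), q) - rd ((t', 0), A')‖
    ≤ (1 + 2 * M / R + 2 * M / R ^ 2) * (‖t - t'‖ + ‖ev σ q - A'‖ + (‖z‖ + ‖od σ q‖) ^ 2)
  have e : rd ((t, z), q) - rd ((t', 0), A') = (rd ((t, z), q) - rd ((t, 0), ev σ q))
      + ((rd ((t, 0), ev σ q) - rd ((t, 0), A')) + (rd ((t, 0), A') - rd ((t', 0), A'))) := by ring
  rw [e]
  refine (norm_add_le _ _).trans ((add_le_add E1 ((norm_add_le _ _).trans (add_le_add E2 E3))).trans ?_)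
  have e1 : 2 * M * ((‖z‖ + ‖od σ q‖) / R) ^ 2 = 2 * M / R ^ 2 * (‖z‖ + ‖od σ q‖) ^ 2 := by
    rw [div_pow]; ring
  have e2 : 2 * M * (‖ev σ q - A'‖ / R) = 2 * M / R * ‖ev σ q - A'‖ := by ring
  have e3 : 2 * M * (‖t - t'‖ / R) = 2 * M / R * ‖t - t'‖ := by ring
  rw [e1, e2, e3]
  have ha : 0 ≤ ‖t - t'‖ := norm_nonneg _
  have hb : 0 ≤ ‖ev σ q - A'‖ := norm_nonneg _
  have hc : 0 ≤ (‖z‖ + ‖od σ q‖) ^ 2 := by positivity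
  generalize 2 * M / R = K1 at *
  generalize 2 * M / R ^ 2 = K2 at *
  generalize ‖t - t'‖ = a at *
  generalize ‖ev σ q - A'‖ = b at *
  generalize (‖z‖ + ‖od σ q‖) ^ 2 = c at *
  nlinarith [mul_nonneg hK1 ha, mul_nonneg hK1 hb, mul_nonneg hK1 hc, mul_nonneg hK2 ha,
    mul_nonneg hK2 hb, mul_nonneg hK2 hc]

/-- odd read-outs: size, and expansion around the linear term `k z` (`C2` : `|rd ((0,z),0) - k z| ≤ C2 |z|²`) -/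
theorem rstep_odd (ρ M C2 : ℝ) (hρ : 0 < ρ) (hM : 0 ≤ M) (hC2 : 0 ≤ C2) : ∃ C' r : ℝ, 1 ≤ C' ∧ 0 < r ∧ r ≤ ρ ∧
    ∀ (T : Type) [NormedAddCommGroup T] [NormedSpace ℂ T] (σ : T →L[ℂ] T) (rd : (ℂ × ℂ) × T → ℂ) (k : ℂ), RStep ρ M (-1) σ rd →
      ‖k‖ ≤ M → (∀ z : ℂ, ‖z‖ < ρ → ‖rd ((0, z), 0) - k * z‖ ≤ C2 * ‖z‖ ^ 2) →
      ∀ X ∈ ball (0 : (ℂ × ℂ) × T) r,
        ‖rd X‖ ≤ C' * (‖X.1.2‖ + ‖od σ X.2‖) ∧
        ‖rd X - k * X.1.2‖ ≤ C' * (‖od σ X.2‖ + (‖X.1.1‖ + ‖X.1.2‖ + ‖ev σ X.2‖) * ‖X.1.2‖) := by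
  obtain ⟨R, hRdef⟩ : ∃ R : ℝ, R = ρ / 2 := ⟨_, rfl⟩
  have hR : 0 < R := by rw [hRdef]; positivity
  have h2R : 2 * R = ρ := by rw [hRdef]; ring
  have hK1 : 0 ≤ 2 * M / R := by positivity
  have hK2 : 0 ≤ 4 * M / R ^ 2 := by positivity
  refine ⟨1 + 2 * M / R + 4 * M / R ^ 2 + C2, R / 2, by linarith, by positivity, by linarith, ?_⟩
  intro T _ _ σ rd k h hk hlin X hX
  obtain ⟨⟨t, z⟩, q⟩ := X
  obtain ⟨htn, hzn, hqn⟩ := ft4_comp hX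
  have hd : DifferentiableOn ℂ (fun Y : ℂ × ℂ × T => rd (as3 Y)) (ball 0 (2 * R)) := by
    rw [h2R]; exact ft4_an h.an
  have hMf : ∀ Y ∈ ball (0 : ℂ × ℂ × T) (2 * R), ‖(fun Y : ℂ × ℂ × T => rd (as3 Y)) Y‖ ≤ M := by
    rw [h2R]; exact fun Y hY => h.bd _ (ft4_as3_mem hY)
  have hpar : ∀ Y ∈ ball (0 : ℂ × ℂ × T) (2 * R),
      (fun Y : ℂ × ℂ × T => rd (as3 Y)) (parY σ Y) = -(fun Y : ℂ × ℂ × T => rd (as3 Y)) Y := by
    rw [h2R]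
    intro Y hY
    have := h.par _ (ft4_as3_mem hY)
    rw [as3_par, neg_one_mul] at this
    exact this
  have hAn : ‖ev σ q‖ ≤ ‖q‖ := h.hσ.norm_ev q
  have hBn : ‖od σ q‖ ≤ ‖q‖ := h.hσ.norm_od q
  have E0 : ‖rd ((t, z), q)‖ ≤ M * ((‖z‖ + ‖od σ q‖) / R) :=
    sl_odd_v h.hσ hd hMf hpar (x := t) (y := z) (q := q) (by linarith) (by linarith) (by linarith)
  have eqo : q - ev σ q = od σ q := by
    have := ev_add_od (σ := σ) q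
    nth_rewrite 1 [← this]
    abel
  have E1 : ‖rd ((t, z), q) - rd ((t, z), ev σ q)‖ ≤ 2 * M * (‖od σ q‖ / R) := by
    have := sl_lip_q hd hMf (x := t) (y := z) (q := ev σ q) (q' := q) (by linarith) (by linarith)
      (by linarith) (by rw [eqo]; linarith)
    rw [eqo] at this
    exact this
  have E2 : ‖rd ((t, z), ev σ q) - rd ((0, z), 0)‖ ≤ 4 * M * ((‖t‖ + ‖ev σ q‖) / R) * (‖z‖ / R) := by
    have := (sl_odd_row h.hσ hd hMf hpar (x := t) (y := z) (a := ev σ q) (by linarith) (by linarith)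
      (by linarith)).1
    rw [h.hσ.ev_ev] at this
    exact this
  have E3 := hlin z (by linarith)
  have hz0 : 0 ≤ ‖z‖ := norm_nonneg _
  have ht0 : 0 ≤ ‖t‖ := norm_nonneg _
  have hA0 : 0 ≤ ‖ev σ q‖ := norm_nonneg _
  have hB0 : 0 ≤ ‖od σ q‖ := norm_nonneg _
  constructor
  · show ‖rd ((t, z), q)‖ ≤ (1 + 2 * M / R + 4 * M / R ^ 2 + C2) * (‖z‖ + ‖od σ q‖)
    refine E0.trans ?_
    have e0 : M * ((‖z‖ + ‖od σ q‖) / R) = M / R * (‖z‖ + ‖od σ q‖) := by ring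
    rw [e0]
    refine mul_le_mul_of_nonneg_right ?_ (by positivity)
    have : M / R ≤ 2 * M / R := by
      have h0 : 0 ≤ M / R := by positivity
      have e : 2 * M / R = 2 * (M / R) := by ring
      linarith
    linarith
  · show ‖rd ((t, z), q) - k * z‖
      ≤ (1 + 2 * M / R + 4 * M / R ^ 2 + C2) * (‖od σ q‖ + (‖t‖ + ‖z‖ + ‖ev σ q‖) * ‖z‖)
    have e : rd ((t, z), q) - k * z = (rd ((t, z), q) - rd ((t, z), ev σ q))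
        + ((rd ((t, z), ev σ q) - rd ((0, z), 0)) + (rd ((0, z), 0) - k * z)) := by ring
    rw [e]
    refine (norm_add_le _ _).trans ((add_le_add E1 ((norm_add_le _ _).trans (add_le_add E2 E3))).trans ?_)
    have e1 : 2 * M * (‖od σ q‖ / R) = 2 * M / R * ‖od σ q‖ := by ring
    have e2 : 4 * M * ((‖t‖ + ‖ev σ q‖) / R) * (‖z‖ / R) = 4 * M / R ^ 2 * ((‖t‖ + ‖ev σ q‖) * ‖z‖) := by
      field_simp
    rw [e1, e2]
    generalize 2 * M / R = K1 at *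
    generalize 4 * M / R ^ 2 = K2 at *
    generalize ‖od σ q‖ = B at *
    generalize ‖ev σ q‖ = A at *
    generalize ‖z‖ = zz at *
    generalize ‖t‖ = tt at *
    have p1 : 0 ≤ (tt + A) * zz := by positivity
    have p2 : 0 ≤ zz ^ 2 := by positivity
    have e3 : (tt + zz + A) * zz = (tt + A) * zz + zz ^ 2 := by ring
    rw [e3]
    generalize (tt + A) * zz = u at *
    generalize zz ^ 2 = v at *
    nlinarith [mul_nonneg hK1 hB0, mul_nonneg hK1 p1, mul_nonneg hK1 p2, mul_nonneg hK2 hB0,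
      mul_nonneg hK2 p1, mul_nonneg hK2 p2, mul_nonneg hC2 hB0, mul_nonneg hC2 p1, mul_nonneg hC2 p2]

/-- all rows for the histories of `Base/Flow.lean` -/
structure FineT (C r θ : ℝ) (κ : MapC) (H : Hist) : Prop where
  z0 : ∀ j, H.j0 ≤ j → ∀ x : ℂ, ‖x‖ < r → (H.sc j (x, 0, 0)).2 = 0
  sc_bd : ∀ j, H.j0 ≤ j → ∀ Y ∈ ball (0 : ℂ × ℂ × H.Q j) r, ‖H.sc j Y‖ ≤ C * ‖Y‖
  t_bd : ∀ j, H.j0 ≤ j → ∀ Y ∈ ball (0 : ℂ × ℂ × H.Q j) r, ‖(H.sc j Y).1‖ ≤ C * (‖Y.1‖ + ‖Y.2.1‖ ^ 2 + ‖Y.2.2‖)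
  t_row : ∀ j, H.j0 ≤ j → ∀ Y ∈ ball (0 : ℂ × ℂ × H.Q j) r,
    ‖(H.sc j Y).1 - (H.sc j (Y.1, 0, 0)).1‖ ≤ C * (‖ev (H.σQ j) Y.2.2‖ + (‖Y.2.1‖ + ‖od (H.σQ j) Y.2.2‖) ^ 2)
  z_bd : ∀ j, H.j0 ≤ j → ∀ Y ∈ ball (0 : ℂ × ℂ × H.Q j) r, ‖(H.sc j Y).2‖ ≤ C * (‖Y.2.1‖ + ‖od (H.σQ j) Y.2.2‖)
  z_row : ∀ j, H.j0 ≤ j → ∀ Y ∈ ball (0 : ℂ × ℂ × H.Q j) r,
    ‖(H.sc j Y).2 - Y.2.1 / Real.sqrt (κ.bs * κ.Hq)‖
      ≤ C * (‖od (H.σQ j) Y.2.2‖ + (Real.exp (-κ.c * j) + ‖Y.1‖ + ‖Y.2.1‖ + ‖ev (H.σQ j) Y.2.2‖) * ‖Y.2.1‖)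
  Ψo : ∀ j h, H.j0 ≤ j → j < h → ∀ X ∈ ball (0 : (ℂ × ℂ) × H.T j h) r,
    ‖od (H.σT (j + 1) h) (H.Ψ j h X)‖ ≤ θ * ‖od (H.σT j h) X.2‖ + C * ((‖X.1.1‖ + ‖X.1.2‖ + ‖ev (H.σT j h) X.2‖) * ‖X.1.2‖)
  Ψe : ∀ j h, H.j0 ≤ j → j < h → ∀ X ∈ ball (0 : (ℂ × ℂ) × H.T j h) r, ∀ (t' : ℂ) (A' : H.T j h), ‖t'‖ < r → ‖A'‖ < r →
    H.σT j h A' = A' → ‖ev (H.σT (j + 1) h) (H.Ψ j h X) - H.Ψ j h ((t', 0), A')‖
      ≤ θ * ‖ev (H.σT j h) X.2 - A'‖ + C * (‖X.1.1 - t'‖ + (‖X.1.2‖ + ‖od (H.σT j h) X.2‖) ^ 2)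
  Vrow : ∀ h, H.j0 ≤ h → ∀ X ∈ ball (0 : (ℂ × ℂ) × H.T h h) r, ∀ (t' : ℂ) (A' : H.T h h), ‖t'‖ < r → ‖A'‖ < r →
    H.σT h h A' = A' → ‖H.rV h X - H.rV h ((t', 0), A')‖
      ≤ C * (‖X.1.1 - t'‖ + ‖ev (H.σT h h) X.2 - A'‖ + (‖X.1.2‖ + ‖od (H.σT h h) X.2‖) ^ 2)
  Pup : ∀ h, H.j0 ≤ h → ∀ X ∈ ball (0 : (ℂ × ℂ) × H.T h h) r, ‖H.rP h X‖ ≤ C * (‖X.1.2‖ + ‖od (H.σT h h) X.2‖)
  Pfine : ∀ h, H.j0 ≤ h → ∀ X ∈ ball (0 : (ℂ × ℂ) × H.T h h) r,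
    ‖H.rP h X - H.kP h * X.1.2‖ ≤ C * (‖od (H.σT h h) X.2‖ + (‖X.1.1‖ + ‖X.1.2‖ + ‖ev (H.σT h h) X.2‖) * ‖X.1.2‖)
  Glip : ∀ j h, H.j0 ≤ j → j ≤ h → ∀ x x' : ℂ, ‖x‖ < r → ‖x'‖ < r → ‖H.G j h x - H.G j h x'‖ ≤ C * ‖x - x'‖

theorem ft4_bs_pos (κ : MapC) : 0 < κ.bs := by
  unfold MapC.bs
  have h1 : (1 : ℝ) < (κ.L : ℝ) := by
    have := κ.hL
    exact_mod_cast (by omega : 1 < κ.L)
  have := Real.log_pos h1
  positivity

theorem ft4_side {κ : MapC} {κe : EntC} {ρe : ℝ} {s : ℕ} {H : Hist} (hE : EntryOK κ κe ρe s H) {h : ℕ}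
    (hh : H.j0 ≤ h) : 1 ≤ κ.n h ∧ s ≤ κ.n h := by
  have hL : 1 ≤ κ.L := by have := κ.hL; omega
  have h1 : κ.L ^ H.j0 ≤ κ.L ^ h := Nat.pow_le_pow_right hL hh
  have h2 : κ.L ^ h ≤ κ.D0 * κ.L ^ h := Nat.le_mul_of_pos_left _ κ.hD
  have h3 : s ≤ κe.q0 * s := Nat.le_mul_of_pos_left _ κe.hq
  have h4 : 1 ≤ κ.L ^ h := Nat.one_le_pow _ _ hL
  unfold MapC.n
  rw [hE.side] at h3
  exact ⟨h4.trans h2, h3.trans (h1.trans h2)⟩

theorem ft4_ratio {κ : MapC} {κe : EntC} {ρe : ℝ} {s : ℕ} {H : Hist} (hE : EntryOK κ κe ρe s H) {h : ℕ}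
    (hh : H.j0 ≤ h) : 0 ≤ (s : ℝ) / κ.n h ∧ (s : ℝ) / κ.n h ≤ 1 ∧ 0 ≤ 1 / (κ.n h : ℝ) ^ 2 ∧ 1 / (κ.n h : ℝ) ^ 2 ≤ 1 := by
  obtain ⟨h1, h2⟩ := ft4_side hE hh
  have g1 : (1 : ℝ) ≤ (κ.n h : ℝ) := by exact_mod_cast h1
  have g2 : (s : ℝ) ≤ (κ.n h : ℝ) := by exact_mod_cast h2
  refine ⟨by positivity, ?_, by positivity, inv_sq_le_one _⟩
  rw [div_le_one (by linarith)]
  exact g2

theorem ft4_kV {κ : MapC} {κe : EntC} {ρe : ℝ} {s : ℕ} {H : Hist} (hS : SysOK κ κe ρe s H) {h : ℕ}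
    (hh : H.j0 ≤ h) : |H.kV h| ≤ 1 / Real.pi + 2 * κ.C := by
  obtain ⟨a1, a2, a3, a4⟩ := ft4_ratio hS.entry hh
  have hC0 : 0 ≤ κ.C := zero_le_one.trans κ.hC
  have h1 := hS.read.kV_bd h hh
  have h2 : κ.C * ((s : ℝ) / κ.n h + 1 / (κ.n h : ℝ) ^ 2) ≤ κ.C * 2 :=
    mul_le_mul_of_nonneg_left (by linarith) hC0
  have h3 : |H.kV h| ≤ |H.kV h - 1 / Real.pi| + |1 / Real.pi| := by
    have e : H.kV h = (H.kV h - 1 / Real.pi) + 1 / Real.pi := by ring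
    nth_rewrite 1 [e]
    exact abs_add_le _ _
  have h4 : |1 / Real.pi| = 1 / Real.pi := abs_of_nonneg (by positivity)
  linarith

theorem ft4_kP {κ : MapC} {κe : EntC} {ρe : ℝ} {s : ℕ} {H : Hist} (hS : SysOK κ κe ρe s H) {h : ℕ}
    (hh : H.j0 ≤ h) : |H.kP h| ≤ 1 / Real.pi + 2 * κ.C := by
  obtain ⟨a1, a2, a3, a4⟩ := ft4_ratio hS.entry hh
  have hC0 : 0 ≤ κ.C := zero_le_one.trans κ.hC
  have h1 := hS.read.kP_bd h hh
  have h2 : κ.C * ((s : ℝ) / κ.n h) ^ 2 ≤ κ.C * 1 :=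
    mul_le_mul_of_nonneg_left (pow_le_one₀ a1 a2) hC0
  have h3 : |H.kP h| ≤ |H.kP h - κ.p h| + |κ.p h| := by
    have e : H.kP h = (H.kP h - κ.p h) + κ.p h := by ring
    nth_rewrite 1 [e]
    exact abs_add_le _ _
  have h4 : |κ.p h| ≤ κ.C := by
    rw [abs_of_nonneg ((κ.hc.le).trans (κ.hp h).1)]
    exact (κ.hp h).2
  have h5 : 0 ≤ 1 / Real.pi := by positivity
  linarith

theorem ft4_rd_bd {T : Type} [NormedAddCommGroup T] [NormedSpace ℂ T] {rd : (ℂ × ℂ) × T → ℂ} {ρ C K : ℝ} {k : ℝ}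
    (hC : 0 ≤ C) (hK : |k| ≤ K) {X : (ℂ × ℂ) × T} (hX : X ∈ ball (0 : (ℂ × ℂ) × T) ρ) {v : ℂ} (hv : ‖v‖ ≤ ‖X‖)
    (h : ‖rd X - k * v‖ ≤ C * (‖X.2‖ + ‖X‖ ^ 2)) : ‖rd X‖ ≤ K + K * ρ + C * (ρ + ρ ^ 2) := by
  have hX' := (mem_ball_zero_iff.1 hX).le
  have hn := norm_nonneg X
  have hK0 : 0 ≤ K := (abs_nonneg _).trans hK
  have h2 : ‖X.2‖ ≤ ‖X‖ := by rw [Prod.norm_def]; exact le_max_right _ _
  have h3 : ‖X‖ ^ 2 ≤ ρ ^ 2 := pow_le_pow_left₀ hn hX' 2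
  have h4 : C * (‖X.2‖ + ‖X‖ ^ 2) ≤ C * (ρ + ρ ^ 2) := mul_le_mul_of_nonneg_left (by linarith) hC
  have h5 : ‖(k : ℂ) * v‖ ≤ K * ρ := by
    rw [norm_mul, Complex.norm_real, Real.norm_eq_abs]
    exact mul_le_mul hK (hv.trans hX') (norm_nonneg _) hK0
  have h6 : ‖rd X‖ ≤ ‖rd X - k * v‖ + ‖(k : ℂ) * v‖ := by
    have e : rd X = (rd X - k * v) + k * v := by ring
    nth_rewrite 1 [e]
    exact norm_add_le _ _
  linarith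

theorem ft4_up {C C' a b : ℝ} (h : a ≤ C * b) (hC : C ≤ C') (hb : 0 ≤ b) : a ≤ C' * b :=
  h.trans (mul_le_mul_of_nonneg_right hC hb)

theorem ft4_up2 {C C' a b c : ℝ} (h : a ≤ c + C * b) (hC : C ≤ C') (hb : 0 ≤ b) : a ≤ c + C' * b :=
  h.trans (add_le_add le_rfl (mul_le_mul_of_nonneg_right hC hb))

/-- assembly.  `|kV h| ≤ 1/π + 2 C`, `|kP h| ≤ 2 C` for `h ≥ j0`, because `s ≤ q0 s = L^{j0} ≤ n_h` (`EntryOK.side`); so `rV`, `rP` are bounded on the ball by `rV_bd`, `rP_bd`.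
`Glip`: `Complex` Schwarz / `Flow.cau_par_lip`-type bound for `G j h` bounded by `κ.C ρ²` on `ball 0 ρ`. -/
theorem fineT_of_coarse (κ : MapC) : ∃ C r : ℝ, 1 ≤ C ∧ 0 < r ∧ r ≤ κ.ρ ∧
    ∀ (κe : EntC) (ρe : ℝ) (s : ℕ) (H : Hist), SysOK κ κe ρe s H → FineT C r ((1 + κ.θ) / 2) κ H := by
  have hC0 : 0 ≤ κ.C := zero_le_one.trans κ.hC
  have hρ := κ.hρ
  have hbs := ft4_bs_pos κ
  have hsq : 0 < Real.sqrt (κ.bs * κ.Hq) := Real.sqrt_pos.2 (mul_pos hbs κ.hH)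
  obtain ⟨K, hKdef⟩ : ∃ K : ℝ, K = 1 / Real.pi + 2 * κ.C := ⟨_, rfl⟩
  have hK0 : 0 ≤ K := by rw [hKdef]; positivity
  obtain ⟨M, hMdef⟩ : ∃ M : ℝ, M = K + K * κ.ρ + κ.C * (κ.ρ + κ.ρ ^ 2) := ⟨_, rfl⟩
  have hM0 : 0 ≤ M := by rw [hMdef]; positivity
  have hKM : K ≤ M := by
    rw [hMdef]
    have : 0 ≤ K * κ.ρ + κ.C * (κ.ρ + κ.ρ ^ 2) := by positivity
    linarith
  obtain ⟨C1, r1, hC1, hr1, hr1ρ, S1⟩ := sstep_rows κ.ρ κ.C κ.bs (Real.sqrt (κ.bs * κ.Hq)) hρ κ.hC hbs hsq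
  obtain ⟨C2, r2, hC2, hr2, hr2ρ, S2⟩ := tstep_rows κ.ρ κ.θ κ.C hρ κ.hθ0.le κ.hθ κ.hC
  obtain ⟨C3, r3, hC3, hr3, hr3ρ, S3⟩ := rstep_even κ.ρ M hρ hM0
  obtain ⟨C4, r4, hC4, hr4, hr4ρ, S4⟩ := rstep_odd κ.ρ M κ.C hρ hM0 hC0
  obtain ⟨C5, hC5def⟩ : ∃ C5 : ℝ, C5 = 2 * (κ.C * κ.ρ ^ 2) / (κ.ρ / 2) := ⟨_, rfl⟩
  have hC5 : 0 ≤ C5 := by rw [hC5def]; positivity
  obtain ⟨r, hrdef⟩ : ∃ r : ℝ, r = min (min (min r1 r2) (min r3 r4)) (κ.ρ / 4) := ⟨_, rfl⟩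
  have hr0 : 0 < r := by
    rw [hrdef]
    exact lt_min (lt_min (lt_min hr1 hr2) (lt_min hr3 hr4)) (by positivity)
  have q1 : r ≤ r1 := by
    rw [hrdef]; exact (min_le_left _ _).trans ((min_le_left _ _).trans (min_le_left _ _))
  have q2 : r ≤ r2 := by
    rw [hrdef]; exact (min_le_left _ _).trans ((min_le_left _ _).trans (min_le_right _ _))
  have q3 : r ≤ r3 := by
    rw [hrdef]; exact (min_le_left _ _).trans ((min_le_right _ _).trans (min_le_left _ _))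
  have q4 : r ≤ r4 := by
    rw [hrdef]; exact (min_le_left _ _).trans ((min_le_right _ _).trans (min_le_right _ _))
  have q5 : r ≤ κ.ρ / 4 := by
    rw [hrdef]; exact min_le_right _ _
  refine ⟨C1 + C2 + C3 + C4 + C5, r, by linarith, hr0, q1.trans hr1ρ, ?_⟩
  intro κe ρe s H hS
  have hMp := hS.map
  have hRd := hS.read
  have u1 : C1 ≤ C1 + C2 + C3 + C4 + C5 := by linarith
  have u2 : C2 ≤ C1 + C2 + C3 + C4 + C5 := by linarith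
  have u3 : C3 ≤ C1 + C2 + C3 + C4 + C5 := by linarith
  have u4 : C4 ≤ C1 + C2 + C3 + C4 + C5 := by linarith
  have u5 : C5 ≤ C1 + C2 + C3 + C4 + C5 := by linarith
  -- the coordinate change
  have sst : ∀ j, H.j0 ≤ j →
      SStep κ.ρ κ.C κ.bs (Real.sqrt (κ.bs * κ.Hq)) (Real.exp (-κ.c * j)) (H.σQ j) (H.sc j) := fun j hj =>
    { an := hMp.sc_an j hj
      sc_t := hMp.sc_t j hj
      sc_z := hMp.sc_z j hj
      hσ := ⟨hMp.σQ_inv j, hMp.σQ_iso j⟩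
      par := hMp.sc_par j hj }
  have hexp : ∀ j : ℕ, Real.exp (-κ.c * j) ≤ 1 := by
    intro j
    rw [Real.exp_le_one_iff]
    have : 0 ≤ κ.c * j := mul_nonneg κ.hc.le (Nat.cast_nonneg _)
    linarith
  have R1 := fun (j : ℕ) (hj : H.j0 ≤ j) (Y : ℂ × ℂ × H.Q j) (hY : Y ∈ ball (0 : ℂ × ℂ × H.Q j) r) =>
    S1 (Real.exp (-κ.c * j)) (H.Q j) (H.σQ j) (H.sc j) (Real.exp_pos _).le (hexp j) (sst j hj) Y
      (ball_subset_ball q1 hY)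
  -- the torus map
  have tst : ∀ j h, H.j0 ≤ j → j < h → TStep κ.ρ κ.θ κ.C (H.σT j h) (H.σT (j + 1) h) (H.Ψ j h) :=
    fun j h hj hjh =>
    { an := hMp.Ψ_an j h hj hjh
      bd := hMp.Ψ_bd j h hj hjh
      hσ := ⟨hMp.σT_inv j h, hMp.σT_iso j h⟩
      hσ' := ⟨hMp.σT_inv (j + 1) h, hMp.σT_iso (j + 1) h⟩
      par := hMp.Ψ_par j h hj hjh }
  have R2 := fun (j h : ℕ) (hj : H.j0 ≤ j) (hjh : j < h) (X : (ℂ × ℂ) × H.T j h)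
      (hX : X ∈ ball (0 : (ℂ × ℂ) × H.T j h) r) =>
    S2 (H.T j h) (H.T (j + 1) h) (H.σT j h) (H.σT (j + 1) h) (H.Ψ j h) (tst j h hj hjh) X
      (ball_subset_ball q2 hX)
  -- the read-outs
  have n11 : ∀ {T : Type} [NormedAddCommGroup T] (X : (ℂ × ℂ) × T), ‖X.1.1‖ ≤ ‖X‖ := by
    intro T _ X
    rw [Prod.norm_def, Prod.norm_def]
    exact (le_max_left _ _).trans (le_max_left _ _)
  have n12 : ∀ {T : Type} [NormedAddCommGroup T] (X : (ℂ × ℂ) × T), ‖X.1.2‖ ≤ ‖X‖ := by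
    intro T _ X
    rw [Prod.norm_def, Prod.norm_def]
    exact (le_max_right _ _).trans (le_max_left _ _)
  have vst : ∀ h, H.j0 ≤ h → RStep κ.ρ M 1 (H.σT h h) (H.rV h) := fun h hh =>
    { an := hRd.rV_an h hh
      bd := fun X hX => by
        rw [hMdef]
        exact ft4_rd_bd hC0 (hKdef ▸ ft4_kV hS hh) hX (n11 X) (hRd.rV_bd h hh X hX)
      hσ := ⟨hMp.σT_inv h h, hMp.σT_iso h h⟩
      par := fun X hX => by rw [hRd.rV_par h hh X hX, one_mul] }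
  have pst : ∀ h, H.j0 ≤ h → RStep κ.ρ M (-1) (H.σT h h) (H.rP h) := fun h hh =>
    { an := hRd.rP_an h hh
      bd := fun X hX => by
        rw [hMdef]
        exact ft4_rd_bd hC0 (hKdef ▸ ft4_kP hS hh) hX (n12 X) (hRd.rP_bd h hh X hX)
      hσ := ⟨hMp.σT_inv h h, hMp.σT_iso h h⟩
      par := fun X hX => by rw [hRd.rP_par h hh X hX, neg_one_mul] }
  have R4 := fun (h : ℕ) (hh : H.j0 ≤ h) (X : (ℂ × ℂ) × H.T h h) (hX : X ∈ ball (0 : (ℂ × ℂ) × H.T h h) r) =>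
    S4 (H.T h h) (H.σT h h) (H.rP h) (H.kP h : ℂ) (pst h hh)
      (by
        rw [Complex.norm_real, Real.norm_eq_abs]
        exact ((hKdef ▸ ft4_kP hS hh : |H.kP h| ≤ K)).trans hKM)
      (fun z hz => by
        have hmem : (((0 : ℂ), z), (0 : H.T h h)) ∈ ball (0 : (ℂ × ℂ) × H.T h h) κ.ρ := by
          rw [mem_ball_zero_iff, Prod.norm_def, Prod.norm_def]
          simpa using hz
        have := hRd.rP_bd h hh ((0, z), 0) hmem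
        have e : ‖(((0 : ℂ), z), (0 : H.T h h))‖ = ‖z‖ := by
          rw [Prod.norm_def, Prod.norm_def]
          simp
        rw [e] at this
        simpa using this)
      X (ball_subset_ball q4 hX)
  refine
    { z0 := ?_
      sc_bd := ?_
      t_bd := ?_
      t_row := ?_
      z_bd := ?_
      z_row := ?_
      Ψo := ?_
      Ψe := ?_
      Vrow := ?_
      Pup := ?_
      Pfine := ?_
      Glip := ?_ }
  · intro j hj x hx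
    exact (R1 j hj (x, 0, 0) (mem3 hx (by simpa using hr0) (by simpa using hr0))).1
  · intro j hj Y hY
    exact ft4_up (R1 j hj Y hY).2.1 u1 (norm_nonneg _)
  · intro j hj Y hY
    exact ft4_up (R1 j hj Y hY).2.2.1 u1 (by positivity)
  · intro j hj Y hY
    exact ft4_up (R1 j hj Y hY).2.2.2.1 u1 (by positivity)
  · intro j hj Y hY
    exact ft4_up (R1 j hj Y hY).2.2.2.2.1 u1 (by positivity)
  · intro j hj Y hY
    exact ft4_up (R1 j hj Y hY).2.2.2.2.2 u1 (by positivity)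
  · intro j h hj hjh X hX
    exact ft4_up2 (R2 j h hj hjh X hX).1 u2 (by positivity)
  · intro j h hj hjh X hX t' A' ht' hA' hσ
    exact ft4_up2 ((R2 j h hj hjh X hX).2 t' A' (ht'.trans_le q2) (hA'.trans_le q2) hσ) u2 (by positivity)
  · intro h hh X hX t' A' ht' hA' hσ
    exact ft4_up (S3 (H.T h h) (H.σT h h) (H.rV h) (vst h hh) X (ball_subset_ball q3 hX) t' A'
      (ht'.trans_le q3) (hA'.trans_le q3) hσ) u3 (by positivity)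
  · intro h hh X hX
    exact ft4_up (R4 h hh X hX).1 u4 (by positivity)
  · intro h hh X hX
    exact ft4_up (R4 h hh X hX).2 u4 (by positivity)
  · intro j h hj hjh x x' hx hx'
    have hb : ‖x - x'‖ < κ.ρ / 2 := by
      have := norm_sub_le x x'
      linarith
    have key := sl_d1 (E := ℂ) (X := ℂ) (f := H.G j h) (ρ := κ.ρ) (M := κ.C * κ.ρ ^ 2) (R := κ.ρ / 2)
      (hMp.G_an j h hj hjh)
      (fun Y hY => by
        have hY' := mem_ball_zero_iff.1 hY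
        refine (hMp.G_bd j h hj hjh Y hY').trans (mul_le_mul_of_nonneg_left ?_ hC0)
        exact pow_le_pow_left₀ (norm_nonneg _) hY'.le 2)
      (φ := fun b => x' + b) (by fun_prop)
      (fun b hb' => by
        have hb'' := mem_ball_zero_iff.1 hb'
        rw [mem_ball_zero_iff]
        have := norm_add_le x' b
        linarith)
      (b := x - x') hb
    have e1 : x' + (x - x') = x := by ring
    simp only [e1, add_zero] at key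
    refine key.trans ?_
    have e2 : 2 * (κ.C * κ.ρ ^ 2) * (‖x - x'‖ / (κ.ρ / 2)) = C5 * ‖x - x'‖ := by
      rw [hC5def]; ring
    rw [e2]
    exact mul_le_mul_of_nonneg_right u5 (norm_nonneg _)

end Claimed.Agent.R285.F5
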