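import Claimed.Agent.R285.F5.Bridge
import Claimed.Agent.R285.F5.FineT

/-!
# ROW 285, [F] L5.5 = [E] P3.6 (last part): confinement and vanishing.  GLUE, proved from the leaves of `F5/Bridge.lean`, `F5/Exit.lean`.      (helper94)
-/

set_option autoImplicit false

namespace Claimed.Agent.R285.F5

open Filter Topology Claims.C0459
open Claimed.Agent.R285.Flow

noncomputable section

theorem side_pos {κ : MapC} {κe : EntC} {ρe : ℝ} {s : ℕ} {H : Hist} (h : EntryOK κ κe ρe s H) : 0 < s := by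
  rcases Nat.eq_zero_or_pos s with h0 | h0
  · exfalso
    have := h.side
    rw [h0, mul_zero] at this
    have h2 : 0 < κ.L ^ H.j0 := Nat.pow_pos (by have := κ.hL; omega)
    omega
  · exact h0

theorem crit_mem_disk {κ : MapC} {κe : EntC} {ρe : ℝ} {s : ℕ} {H : Hist} (h : EntryOK κ κe ρe s H) :
    (xyCritical : ℂ) ∈ disk κe s := by
  unfold disk
  apply Metric.mem_ball_self
  have hs : (0 : ℝ) < s := by exact_mod_cast side_pos h
  have := κe.hc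
  positivity

theorem aS_nonneg (H : Hist) (i : ℕ) : 0 ≤ aS H i := le_max_of_le_left (norm_nonneg _)
theorem qS_nonneg (H : Hist) (i : ℕ) : 0 ≤ qS H i := norm_nonneg _
theorem τS_nonneg (H : Hist) (h i : ℕ) : 0 ≤ τS H h i := norm_nonneg _

/-- **[F] L5.5, first part = [E] P3.6, last part** (first exit), for ONE history.
`E` : number of early stages; every stop in `[j0 + E, Jm]` is valid; the entry beats the early amplification `2^E`; `1 / P0 ≤ δ` keeps `kV ≥ 1/(2π)`; `J0 ≤ j0` keeps `ℓ_j ≈ 1`. -/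
theorem confine (κ : MapC) : ∃ (ρt1 : ℝ) (J0 : ℕ), 0 < ρt1 ∧ ∀ ρt : ℝ, 0 < ρt → ρt ≤ ρt1 → ∃ δ : ℝ, 0 < δ ∧
    ∀ (κe : EntC) (ρe : ℝ) (s : ℕ) (H : Hist) (E Jm : ℕ),
      SysOK κ κe ρe s H → ρe * 2 ^ E ≤ δ → 1 / (κe.P0 : ℝ) ≤ δ → J0 ≤ H.j0 →
      (∀ h, H.j0 + E ≤ h → h ≤ Jm → Valid κ κe s H h) → Diag κ κe s H δ Jm →
      ∀ i, H.j0 + i ≤ Jm → ‖H.st xyCritical i‖ < ρt ∧
        ∀ h, H.j0 + i ≤ h → h ≤ Jm → ‖H.ts xyCritical h i‖ < ρt := by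
  obtain ⟨C1, ρd1, hC1, hρd1, hCρ, hρd1', hstep⟩ := bridge_step κ
  obtain ⟨C2, ρd2, δ1, J0, hC2, hρd2, hδ1, hdiag⟩ := bridge_diag κ
  set C := max C1 C2 with hC
  set ρd := min ρd1 ρd2 with hρd
  have hC1C : C1 ≤ C := le_max_left _ _
  have hC2C : C2 ≤ C := le_max_right _ _
  have hC1' : 1 ≤ C := hC1.trans hC1C
  have hC0 : 0 < C := by linarith
  have hρdpos : 0 < ρd := lt_min hρd1 hρd2
  obtain ⟨ρ0, c1, hρ0, hc1, hexit⟩ := exit_fin κ.θ C ρd κ.hθ0.le κ.hθ hC1' hρdpos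
  refine ⟨C * min ρ0 ρd, J0, by positivity, ?_⟩
  intro ρt hρt hρt1
  set ρ := ρt / C with hρ
  have hρpos : 0 < ρ := by positivity
  have hρle : ρ ≤ min ρ0 ρd := by
    rw [hρ, div_le_iff₀ hC0]; linarith
  have hρt' : C * ρ = ρt := by rw [hρ]; field_simp
  refine ⟨min (c1 * ρ) δ1, lt_min (by positivity) hδ1, ?_⟩
  intro κe ρe s H E Jm hsys hent hP0 hJ0 hval hdg i hi
  set δ := min (c1 * ρ) δ1 with hδ
  have hbc := crit_mem_disk hsys.entry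
  have hρe0 : 0 ≤ ρe := (norm_nonneg _).trans (hsys.entry.Y0_bd _ hbc)
  obtain ⟨hs1, hs2, hs3⟩ := hstep H hsys.map
  have hY0 : ‖H.st xyCritical 0‖ ≤ ρe := hsys.entry.Y0_bd _ hbc
  rw [norm_st] at hY0
  have key := hexit ρ ρe δ E (Jm - H.j0) (aS H) (qS H) (τS H) hρpos (hρle.trans (min_le_left _ _)) hρe0
    (le_min (by positivity) hδ1.le) (hent.trans (min_le_left _ _)) (min_le_left _ _)
    (fun i => ⟨aS_nonneg H i, qS_nonneg H i⟩) (fun h i => τS_nonneg H h i)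
    ((le_max_left _ _).trans hY0) ((le_max_right _ _).trans hY0)
    (fun h _ => hsys.entry.T0_bd (H.j0 + h) (Nat.le_add_right _ _) _ hbc)
    (fun i _ ha hq => by
      obtain ⟨a1, a2⟩ := hs1 i (lt_of_lt_of_le ha (min_le_left _ _)) (lt_of_lt_of_le hq (min_le_left _ _))
      refine ⟨a1.trans ?_, a2.trans ?_⟩
      · have : 0 ≤ max (aS H i) (qS H i) ^ 2 := by positivity
        nlinarith
      · have : 0 ≤ aS H i ^ 2 := by positivity
        nlinarith)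
    (fun h i _ hih ha hq hτ => by
      have a1 := hs2 h i hih (lt_of_lt_of_le ha (min_le_left _ _)) (lt_of_lt_of_le hq (min_le_left _ _))
        (lt_of_lt_of_le hτ (min_le_left _ _))
      refine a1.trans ?_
      have : 0 ≤ max (max (aS H i) (qS H i)) (τS H h i) ^ 2 := by positivity
      nlinarith)
    (fun i hEi hiM hall => by
      have hv : Valid κ κe s H (H.j0 + i) := hval _ (by omega) (by omega)
      obtain ⟨d1, d2⟩ := hdg _ hv (by omega)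
      have a1 := hdiag κe ρe s H hsys hJ0 (hP0.trans (min_le_right _ _)) i δ hv
        (fun i' hi' => by
          obtain ⟨b1, b2, b3⟩ := hall i' hi'
          exact ⟨lt_of_lt_of_le b1 (min_le_right _ _), lt_of_lt_of_le b2 (min_le_right _ _), lt_of_lt_of_le b3 (min_le_right _ _)⟩)
        d1 d2
      refine a1.trans (mul_le_mul_of_nonneg_right hC2C ?_)
      have := τS_nonneg H i i
      have := qS_nonneg H i
      have : 0 ≤ δ := le_min (by positivity) hδ1.le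
      positivity)
  obtain ⟨k1, k2, k3⟩ := key i (by omega)
  have hρρt : ρ ≤ ρt := by
    rw [← hρt']; nlinarith
  refine ⟨?_, ?_⟩
  · rw [norm_st]
    exact lt_of_lt_of_le (max_lt k1 k2) hρρt
  · intro h hih hhJ
    obtain ⟨h', rfl⟩ : ∃ h', h = H.j0 + h' := ⟨h - H.j0, by omega⟩
    have k4 := k3 h' (by omega) (by omega)
    have hρρd : ρ ≤ ρd1 := (hρle.trans (min_le_right _ _)).trans (min_le_left _ _)
    have a1 := hs3 h' i (lt_of_lt_of_le k1 hρρd) (lt_of_lt_of_le k2 hρρd)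
    have a2 : max (max (aS H i) (qS H i)) (τS H h' i) < ρ := max_lt (max_lt k1 k2) k4
    calc _ ≤ C1 * max (max (aS H i) (qS H i)) (τS H h' i) := a1
      _ ≤ C * max (max (aS H i) (qS H i)) (τS H h' i) := by
          apply mul_le_mul_of_nonneg_right hC1C
          exact le_max_of_le_right (τS_nonneg H h' i)
      _ < C * ρ := mul_lt_mul_of_pos_left a2 hC0
      _ = ρt := hρt'

end

end Claimed.Agent.R285.F5

/-!
# ROW 285, [F] L5.5-L5.7: tubes, all sides, vanishing; ONE history on a window.      (contracts helper94; leaves GL-1, GL-2, WO-1, OC-1, OC-2, WS-1, WF-1)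

## Leaf GL-1 `conf_all`, `fam_exists`.
`confine κ` gives `ρt1, J0`, and `δc` for `ρt`.  `diag_at κ δc` gives `P1`.  Take `δ = min (δc / L) (min δc (1 / P1))`.  `E = Nat.clog L P0`: `ρe 2^E ≤ ρe L P0 ≤ L δ ≤ δc` (`early_pow`).
`1 / P0 ≤ δ ≤ 1 / P1` gives `P1 ≤ P0`, so a valid stop has `s P1 ≤ s P0 ≤ n_h`.  Eventually in `s`: `cutErr ≤ e^{-(c/2) s²} ≤ δc / 4` (`cutErr_small`), `valid_range`, and `J0 ≤ j0` because
`s ≤ L^{j0}` (`j0_bounds`, `EntryOK.side`) and `s > L^{J0}`.   `fam_exists`: `conf_all` with `Jm` from `Sk.horizon`, pulled back along `Sk.tendsto`; `Tube.mono`.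
## Leaf GL-2 `vanish`.
`bridge_step κ` (`C1 ρd1`), `bridge_diag κ` (`C2 ρd2 δ1 J0`), `C = max C1 C2`, `decay_fin κ.θ C` (`ρ0 K`); `ρt1 = min ρ0 (min ρd1 ρd2)`.  Given `c, ε`: `ε' = ε / C`; choose `m` with `ρt1 / 4^m ≤ ε'/3`, `δ'` with
`K δ' ≤ ε'/3`, `n` with `K θ^n ρt1 ≤ ε'/3`.  `P1` from `diag_at κ δ'`.  For large `k` (`asy_j0 (c/2)`, `asy_valid (c/2)`, `asy_big (c/2) P1`, `asy_err (c/2)` and `e^{-cE h} ≤ δ'/4`; `cutErr ≤ errT`):
apply `decay_fin` to `aS, qS, τS` with `i0 = ⌈(c/2) 2^k⌉₊ - j0`, `i1 = M = 4·2^k - j0`; `i0 + m n ≤ i` whenever `c 2^k ≤ j0 + i`, as soon as `(c/2) 2^k ≥ m n + 1`.  `‖st‖ = max a q` (`norm_st`), `‖ts‖ ≤ C1 max ..`.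
## Leaf WO-1 `win_of`.   `Y = st i`, `j = j0 + i`, `X = ts h i = (sc Y, tor h i)`; `(C, r)` from `fine_of_coarse`, `fineT_of_coarse`; the tube radius `r'` with `C r' (1 + r') < r`.
Reality (`EntryOK.real`): `Y.1 = xr`, `Y.2.1 = yr`, so `‖Y.1‖ = |x|` and the scalar rows are `Fine.u_map`, `z_map` verbatim; `e_map`, `o_map` verbatim.
`O_map`: `FineT.Ψo` + `|t| ≤ C (|x| + y² + e + o)` (`t_bd`, `‖Q‖ ≤ e + o`), `|z| ≤ C (|y| + o)` (`z_bd`), `‖ev T‖ ≤ E + ‖G x‖ ≤ E + C |x|`.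
`E_map`: `t' = (sc (x,0,0)).1`, `A' = G j h x` (even by `G_even`); `Ψ ((t',0), A') = G (j+1) h x` (`z0`, `G_step`); `FineT.Ψe` + `t_row` + `z_bd`; `‖G (j+1) h x - G (j+1) h x₊‖ ≤ C |x₊ - x|` (`Glip`).
`P_up`: `repP` (`Inside` from the tube) + `Pup` + `z_bd`.   `tube`: `e, o ≤ ‖Q‖`, `O ≤ ‖T‖`, `E ≤ ‖T‖ + C x² ≤ 2 δ`.
## Leaf OC-1 `on_curve_at`.   `u = x / b_*`, `|u| ≤ 1/2`.
`cV = v0 + rV X` (`repV`); `Vrow` at `t' = (sc (x,0,0)).1`, `A' = G j j x`; `G_var`: `rV (sc (x,0,0), G x) = kV u / (1 - pG u)`;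
`v0 + kV u / (1 - pG u) - 1 / (π (1 - u)) = (v0 - 1/π) + (kV - 1/π) u / (1 - pG u) - (1/π) u² (1 - pG) / ((1 - pG u)(1 - u))`, all three `≤ C errT` (`v0_bd`, `kV_bd`, `pG_bd`).
`cP = rP X` (`repP`); `Pfine`; `z_row`; `|kP - p_j| ≤ C (s/n)² ≤ C s/n` (`s ≤ n` from `Valid`); `|kP| ≤ 2 C`; `(..)(|y| + o) ≤ (..)|y| + o`.
## Leaf OC-2 `overlap_at`.   `|cV - cV'| ≤ κ.C (errT + errT') ≤ κ.C (y² + y'²)` (`cmpV'` twice; `(s/n)⁴ ≤ s/n`); `|1/(π(1-u)) - 1/(π(1-u'))| = |u - u'| / (π (1-u)(1-u')) ≥ 4 |u - u'| / (9π)`.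
`|cP - cP'| ≤ cutErr + cutErr' ≤ y² + y'²` (`cmpP`), `p_j ≥ κ.c`.
## Leaf WS-1 `win_single`.   `(C1, r1)` from `win_of`, `θ' = (1 + κ.θ)/2`, `(δ0, K0, c0)` from `win_master C1 θ'`, `(C2, r2)` from `on_curve_at`; `r ≤ min r1 (δ0/2) r2 (b_*/2) (1/4)` and `4 K' r < κ.c / √(b_* H)`.
`err`: `errT ≤ (c0 π)² ≤ y²`.  `cP`-row: `≤ C2 (o + O + (errT + |x| + |y| + e + E)|y|) ≤ K' (|x| + |y|)|y|`.  Sign: `y < 0` would give `cP ≤ |y| (-κ.c/√.. + 4 K' r) < 0 < π`.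
`ord_x`, `ord_y`: insert `e ≤ K0 y²`, `o ≤ K0 (|x| + |y|)|y|` in `WinOK.u_map`, `z_map`.
## Leaf WF-1 `win_arith`.   `η = min (λ c / 384) (cE c / 32)`, `λ = -log r0`.
-/

set_option autoImplicit false

namespace Claimed.Agent.R285.F5

open Filter Topology Claims.C0459
open Claimed.Agent.R285.Flow

noncomputable section

/-- all plane stages up to the absolute index `b`, and their torus stages behind the stops `≤ hm`, lie in the ball of radius `r` -/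
def Tube (H : Hist) (r : ℝ) (b hm : ℕ) : Prop :=
  ∀ i, H.j0 + i ≤ b → ‖H.st xyCritical i‖ < r ∧ ∀ h, H.j0 + i ≤ h → h ≤ hm → ‖H.ts xyCritical h i‖ < r

/-- on the window `a ≤ j ≤ b` they are `≤ δ` -/
def Small (H : Hist) (δ : ℝ) (a b hm : ℕ) : Prop :=
  ∀ i, a ≤ H.j0 + i → H.j0 + i ≤ b → ‖H.st xyCritical i‖ ≤ δ ∧ ∀ h, H.j0 + i ≤ h → h ≤ hm → ‖H.ts xyCritical h i‖ ≤ δ

theorem Tube.mono {H : Hist} {r r' : ℝ} {b b' hm hm' : ℕ} (h : Tube H r b hm) (hr : r ≤ r') (hb : b' ≤ b) (hh : hm' ≤ hm) :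
    Tube H r' b' hm' := fun i hi =>
  ⟨lt_of_lt_of_le (h i (hi.trans hb)).1 hr, fun h' h1 h2 => lt_of_lt_of_le ((h i (hi.trans hb)).2 h' h1 (h2.trans hh)) hr⟩

/-- a canonical family of sides `s_k ≍ 2^k`, confined to the tube `ρt` through `4·2^k` -/
structure Fam (κ : MapC) (κe : EntC) (H : ℕ → Hist) (ρt : ℝ) (sk : ℕ → ℕ) : Prop where
  sides : Sk κ κe sk
  conf : ∀ᶠ k : ℕ in atTop, Tube (H (sk k)) ρt (4 * 2 ^ k) (4 * 2 ^ k)

theorem Fam.mono {κ : MapC} {κe : EntC} {H : ℕ → Hist} {ρt ρt' : ℝ} {sk : ℕ → ℕ} (h : Fam κ κe H ρt sk) (hr : ρt ≤ ρt') :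
    Fam κ κe H ρt' sk := ⟨h.sides, h.conf.mono fun _ hk => hk.mono hr le_rfl le_rfl⟩

/-- **[E] P3.6, last part**: all admissible sides, any horizon `o(s²)` -/
theorem conf_all (κ : MapC) : ∃ ρt1 : ℝ, 0 < ρt1 ∧ ∀ ρt : ℝ, 0 < ρt → ρt ≤ ρt1 → ∃ δ : ℝ, 0 < δ ∧
    ∀ (κe : EntC) (ρe : ℝ) (H : ℕ → Hist), Hyp κ κe ρe H → ρe * κe.P0 ≤ δ → 1 / (κe.P0 : ℝ) ≤ δ →
      ∀ Jm : ℕ → ℕ, Tendsto (fun s => (Jm s : ℝ) / (s : ℝ) ^ 2) atTop (𝓝 0) →
        ∀ᶠ s : ℕ in atTop, Adm κ κe s → Tube (H s) ρt (Jm s) (Jm s) := by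
  obtain ⟨ρt1, J0, hρt1, hconf⟩ := confine κ
  refine ⟨ρt1, hρt1, fun ρt h0 h1 => ?_⟩
  obtain ⟨δc, hδc, hc⟩ := hconf ρt h0 h1
  obtain ⟨P1, hP1, hdiag⟩ := diag_at κ δc hδc
  have hL : (0 : ℝ) < κ.L := by exact_mod_cast (lt_of_lt_of_le two_pos κ.hL)
  have hP1r : (0 : ℝ) < P1 := by exact_mod_cast hP1
  refine ⟨min (δc / κ.L) (min δc (1 / P1)), lt_min (by positivity) (lt_min hδc (by positivity)), ?_⟩
  intro κe ρe H hy he hP Jm hJ
  have hexp : ∀ᶠ s : ℕ in atTop, Real.exp (-(κe.c / 2) * (s : ℝ) ^ 2) ≤ δc / 4 := by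
    have hc2 : 0 < κe.c / 2 := by have := κe.hc; positivity
    have t1 : Tendsto (fun s : ℕ => (κe.c / 2) * (s : ℝ) ^ 2) atTop atTop :=
      ((tendsto_pow_atTop two_ne_zero).comp tendsto_natCast_atTop_atTop).const_mul_atTop hc2
    have t2 : Tendsto (fun s : ℕ => Real.exp (-((κe.c / 2) * (s : ℝ) ^ 2))) atTop (𝓝 0) :=
      Real.tendsto_exp_atBot.comp (tendsto_neg_atTop_atBot.comp t1)
    filter_upwards [t2.eventually (Iic_mem_nhds (show (0 : ℝ) < δc / 4 by positivity))] with s hs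
    rw [neg_mul]
    exact hs
  filter_upwards [cutErr_small κ κe Jm hJ, valid_range κ κe Jm hJ, eventually_gt_atTop (κ.L ^ J0), hexp]
    with s hcut hval hsJ hse hadm
  have hsys := hy.sys s hadm
  have hP0r : (0 : ℝ) < κe.P0 := by exact_mod_cast κe.hP
  refine hc κe ρe s (H s) (Nat.clog κ.L κe.P0) (Jm s) hsys ?_ ?_ ?_ ?_ ?_
  · calc ρe * 2 ^ Nat.clog κ.L κe.P0 ≤ ρe * (κ.L * κe.P0) := mul_le_mul_of_nonneg_left (early_pow κ κe) hy.hρe.le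
      _ = κ.L * (ρe * κe.P0) := by ring
      _ ≤ κ.L * (δc / κ.L) := mul_le_mul_of_nonneg_left (he.trans (min_le_left _ _)) hL.le
      _ = δc := by field_simp
  · exact hP.trans ((min_le_right _ _).trans (min_le_left _ _))
  · have h1 : s ≤ κ.L ^ (H s).j0 := by
      exact_mod_cast (j0_bounds κ κe s (H s).j0 hsys.entry.side).1
    have h2 : κ.L ^ J0 < κ.L ^ (H s).j0 := lt_of_lt_of_le hsJ h1
    exact ((Nat.pow_lt_pow_iff_right (lt_of_lt_of_le one_lt_two κ.hL)).1 h2).le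
  · exact hval (H s) hsys.entry.side
  · intro h hV hh
    have hPP : P1 ≤ κe.P0 := by
      have : 1 / (κe.P0 : ℝ) ≤ 1 / (P1 : ℝ) := hP.trans ((min_le_right _ _).trans (min_le_right _ _))
      rw [one_div_le_one_div hP0r hP1r] at this
      exact_mod_cast this
    exact hdiag κe ρe s (H s) hsys h hV ((Nat.mul_le_mul_left s hPP).trans hV.2.1) ((hcut h hh).trans hse)

theorem fam_of_conf {κ : MapC} {κe : EntC} {H : ℕ → Hist} {ρt : ℝ} {sk : ℕ → ℕ} (hs : Sk κ κe sk)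
    (h : ∀ Jm : ℕ → ℕ, Tendsto (fun s => (Jm s : ℝ) / (s : ℝ) ^ 2) atTop (𝓝 0) →
        ∀ᶠ s : ℕ in atTop, Adm κ κe s → Tube (H s) ρt (Jm s) (Jm s)) : Fam κ κe H ρt sk := by
  obtain ⟨Jm, hJ, hk⟩ := hs.horizon
  exact ⟨hs, (hs.tendsto.eventually (h Jm hJ)).mono fun k hk' => (hk' (hs.adm k)).mono le_rfl (hk k) (hk k)⟩

theorem cutErr_le_errT (κ : MapC) (κe : EntC) (s : ℕ) (H : Hist) (h : ℕ) : cutErr κ κe s h ≤ errT κ κe s H h := by
  unfold errT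
  have p1 : 0 ≤ (s : ℝ) / κ.n h := by positivity
  have p2 : 0 ≤ 1 / (κ.n h : ℝ) ^ 2 := by positivity
  have p3 : 0 ≤ ((κ.L : ℝ) ^ H.j0 / κ.n h) ^ 2 := by positivity
  have p4 : 0 ≤ Real.exp (-κ.c * h) := (Real.exp_pos _).le
  linarith

/-- **[F] L5.5, second part** (trj:vanishing-ranges) -/
theorem vanish (κ : MapC) : ∃ ρt1 δ1 : ℝ, 0 < ρt1 ∧ 0 < δ1 ∧ ∀ (κe : EntC) (ρe : ℝ) (H : ℕ → Hist) (sk : ℕ → ℕ),
    Hyp κ κe ρe H → 1 / (κe.P0 : ℝ) ≤ δ1 → Fam κ κe H ρt1 sk → ∀ c ε : ℝ, 0 < c → 0 < ε →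
      ∀ᶠ k : ℕ in atTop, Small (H (sk k)) ε ⌈c * 2 ^ k⌉₊ (4 * 2 ^ k) (4 * 2 ^ k) := by
  obtain ⟨C1, ρd1, hC1, hρd1, hCρ, hρd1', hstep⟩ := bridge_step κ
  obtain ⟨C2, ρd2, δ1, J0, hC2, hρd2, hδ1, hdiag⟩ := bridge_diag κ
  obtain ⟨C, hC⟩ : ∃ C : ℝ, C = max C1 C2 := ⟨_, rfl⟩
  have hC1C : C1 ≤ C := hC ▸ le_max_left _ _
  have hC2C : C2 ≤ C := hC ▸ le_max_right _ _
  have hC1' : 1 ≤ C := hC1.trans hC1C
  have hC0 : 0 < C := by linarith
  obtain ⟨ρ0, K, hρ0, hK, hdecay⟩ := decay_fin κ.θ C κ.hθ0.le κ.hθ hC1'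
  obtain ⟨ρ, hρ⟩ : ∃ ρ : ℝ, ρ = min ρ0 (min ρd1 ρd2) := ⟨_, rfl⟩
  have hρpos : 0 < ρ := hρ ▸ lt_min hρ0 (lt_min hρd1 hρd2)
  have hρ0' : ρ ≤ ρ0 := hρ ▸ min_le_left _ _
  have hρ1 : ρ ≤ ρd1 := hρ ▸ (min_le_right _ _).trans (min_le_left _ _)
  have hρ2 : ρ ≤ ρd2 := hρ ▸ (min_le_right _ _).trans (min_le_right _ _)
  refine ⟨ρ, δ1, hρpos, hδ1, ?_⟩
  intro κe ρe H sk hy hP0 hfam c ε hc hε
  have hs := hfam.sides
  obtain ⟨ε', hε'⟩ : ∃ ε' : ℝ, ε' = ε / C := ⟨_, rfl⟩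
  have hε'pos : 0 < ε' := by rw [hε']; positivity
  have hCε : C * ε' = ε := by rw [hε']; field_simp
  have hε'ε : ε' ≤ ε := by rw [← hCε]; exact le_mul_of_one_le_left hε'pos.le hC1'
  have hK0 : 0 < K := by linarith
  obtain ⟨m, hm⟩ : ∃ m : ℕ, ρ / 4 ^ m ≤ ε' / 3 := by
    obtain ⟨m, hm⟩ := exists_pow_lt_of_lt_one (show 0 < ε' / 3 / ρ by positivity) (show (1 / 4 : ℝ) < 1 by norm_num)
    refine ⟨m, ?_⟩
    rw [lt_div_iff₀ hρpos] at hm
    have e : ρ / 4 ^ m = (1 / 4 : ℝ) ^ m * ρ := by rw [div_pow, one_pow]; ring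
    rw [e]; exact hm.le
  obtain ⟨n, hn⟩ : ∃ n : ℕ, K * (κ.θ ^ n * ρ) ≤ ε' / 3 := by
    obtain ⟨n, hn⟩ := exists_pow_lt_of_lt_one (show 0 < ε' / 3 / (K * ρ) by positivity) κ.hθ
    refine ⟨n, ?_⟩
    rw [lt_div_iff₀ (by positivity)] at hn
    have e : K * (κ.θ ^ n * ρ) = κ.θ ^ n * (K * ρ) := by ring
    rw [e]; exact hn.le
  obtain ⟨δ', hδ'⟩ : ∃ δ' : ℝ, δ' = ε' / (3 * K) := ⟨_, rfl⟩
  have hδ'pos : 0 < δ' := by rw [hδ']; positivity
  have hKδ : K * δ' = ε' / 3 := by rw [hδ']; field_simp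
  obtain ⟨P1, hP1, hdg⟩ := diag_at κ δ' hδ'pos
  have hc2 : 0 < c / 2 := by positivity
  have hpow : Tendsto (fun k : ℕ => (2 : ℝ) ^ k) atTop atTop := tendsto_pow_atTop_atTop_of_one_lt (by norm_num)
  have hlin : Tendsto (fun k : ℕ => c / 2 * (2 : ℝ) ^ k) atTop atTop := hpow.const_mul_atTop hc2
  have hexp : ∀ᶠ k : ℕ in atTop, Real.exp (-(cE κ * (c / 2 * 2 ^ k))) ≤ δ' / 4 := by
    have t2 : Tendsto (fun k : ℕ => Real.exp (-(cE κ * (c / 2 * (2 : ℝ) ^ k)))) atTop (𝓝 0) :=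
      Real.tendsto_exp_atBot.comp (tendsto_neg_atTop_atBot.comp (hlin.const_mul_atTop (cE_pos κ)))
    exact t2.eventually (Iic_mem_nhds (show (0 : ℝ) < δ' / 4 by positivity))
  have hbig : ∀ᶠ k : ℕ in atTop, ((m * n : ℕ) : ℝ) + 1 ≤ c / 2 * 2 ^ k := hlin.eventually_ge_atTop _
  filter_upwards [hfam.conf, asy_j0 hy hs (c / 2) hc2 J0, asy_valid hy hs (c / 2) hc2, asy_big hs (c / 2) hc2 P1,
    asy_err hy hs (c / 2) hc2, hexp, hbig] with k htube hj0 hval hbigP herr hexpk hmn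
  intro i hi1 hi2
  have hsys := hy.sys _ (hs.adm k)
  obtain ⟨Hk, hHk⟩ : ∃ Hk : Hist, Hk = H (sk k) := ⟨_, rfl⟩
  rw [← hHk] at htube hj0 hval herr hsys hi1 hi2 ⊢
  obtain ⟨hs1, hs2, hs3⟩ := hstep Hk hsys.map
  obtain ⟨A, hAdef⟩ : ∃ A : ℕ, A = ⌈c / 2 * (2 : ℝ) ^ k⌉₊ := ⟨_, rfl⟩
  obtain ⟨B, hBdef⟩ : ∃ B : ℕ, B = 4 * 2 ^ k := ⟨_, rfl⟩
  rw [← hBdef] at htube hval herr hi2 ⊢
  have hx0 : 0 ≤ c / 2 * (2 : ℝ) ^ k := by positivity
  have hA : c / 2 * (2 : ℝ) ^ k ≤ (A : ℝ) := hAdef ▸ Nat.le_ceil _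
  have hA' : (A : ℝ) < c / 2 * (2 : ℝ) ^ k + 1 := hAdef ▸ Nat.ceil_lt_add_one hx0
  have hj0A : Hk.j0 ≤ A := by
    have : (Hk.j0 : ℝ) ≤ A := by
      have h0 : (0 : ℝ) ≤ J0 := Nat.cast_nonneg _
      linarith [hj0.2]
    exact_mod_cast this
  have hAmn : A + m * n ≤ ⌈c * (2 : ℝ) ^ k⌉₊ := by
    have h1 : c * (2 : ℝ) ^ k ≤ (⌈c * (2 : ℝ) ^ k⌉₊ : ℝ) := Nat.le_ceil _
    have : ((A + m * n : ℕ) : ℝ) ≤ (⌈c * (2 : ℝ) ^ k⌉₊ : ℝ) := by
      push_cast at hmn ⊢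
      linarith
    exact_mod_cast this
  have hj0B : Hk.j0 ≤ B := by omega
  -- the tube
  have T1 : ∀ i, Hk.j0 + i ≤ B → aS Hk i < ρ ∧ qS Hk i < ρ := by
    intro i hi
    have := (htube i hi).1
    rw [norm_st] at this
    exact ⟨lt_of_le_of_lt (le_max_left _ _) this, lt_of_le_of_lt (le_max_right _ _) this⟩
  have T2 : ∀ h i, i ≤ h → Hk.j0 + h ≤ B → τS Hk h i < ρ := by
    intro h i hih hh
    have h1 := (htube i (by omega)).2 (Hk.j0 + h) (by omega) hh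
    have h2 : ‖(Hk.ts xyCritical (Hk.j0 + h) i).2‖ = τS Hk h i := rfl
    rw [← h2]
    exact lt_of_le_of_lt (norm_snd_le _) h1
  -- the window
  have W1 : ∀ i, A - Hk.j0 ≤ i → c / 2 * (2 : ℝ) ^ k ≤ ((Hk.j0 + i : ℕ) : ℝ) := by
    intro i hi
    have : A ≤ Hk.j0 + i := by omega
    exact hA.trans (by exact_mod_cast this)
  have key := hdecay ρ δ' n (A - Hk.j0) (B - Hk.j0) (B - Hk.j0) (aS Hk) (qS Hk) (τS Hk) hρpos hρ0' hδ'pos.le le_rfl
    (fun i => ⟨aS_nonneg Hk i, qS_nonneg Hk i⟩) (fun h i => τS_nonneg Hk h i)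
    (fun i _ hi => by
      obtain ⟨a1, a2⟩ := T1 i (by omega)
      exact ⟨a1.le, a2.le, fun h h1 h2 => (T2 h i h1 (by omega)).le⟩)
    (fun i _ hi => by
      obtain ⟨a1, a2⟩ := T1 i (by omega)
      refine (hs1 i (lt_of_lt_of_le a1 hρ1) (lt_of_lt_of_le a2 hρ1)).2.trans ?_
      have : 0 ≤ aS Hk i ^ 2 := by positivity
      nlinarith)
    (fun h i _ hi hih hh => by
      obtain ⟨a1, a2⟩ := T1 i (by omega)
      have a3 := T2 h i hih.le (by omega)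
      refine (hs2 h i hih (lt_of_lt_of_le a1 hρ1) (lt_of_lt_of_le a2 hρ1) (lt_of_lt_of_le a3 hρ1)).trans ?_
      have : 0 ≤ max (max (aS Hk i) (qS Hk i)) (τS Hk h i) ^ 2 := by positivity
      nlinarith)
    (fun i hi0 hi => by
      have hw := W1 i hi0
      have hiB : Hk.j0 + i ≤ B := by omega
      have hv : Valid κ κe (sk k) Hk (Hk.j0 + i) := hval _ hw hiB
      have hcut : cutErr κ κe (sk k) (Hk.j0 + i) ≤ δ' / 4 := by
        refine (cutErr_le_errT κ κe (sk k) Hk _).trans ((herr _ hw hiB).trans (le_trans ?_ hexpk))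
        apply Real.exp_le_exp.2
        have := mul_le_mul_of_nonneg_left hw (cE_pos κ).le
        linarith
      obtain ⟨d1, d2⟩ := hdg κe ρe (sk k) Hk hsys _ hv (hbigP _ hw) hcut
      have a1 := hdiag κe ρe (sk k) Hk hsys hj0.1 hP0 i δ' hv
        (fun i' hi' => by
          obtain ⟨b1, b2⟩ := T1 i' (by omega)
          exact ⟨lt_of_lt_of_le b1 hρ2, lt_of_lt_of_le b2 hρ2, lt_of_lt_of_le (T2 i i' hi' hiB) hρ2⟩)
        d1 d2
      refine a1.trans (mul_le_mul_of_nonneg_right hC2C ?_)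
      have := τS_nonneg Hk i i
      have := qS_nonneg Hk i
      positivity)
    m i (by omega) (by omega)
  obtain ⟨k1, k2, k3⟩ := key
  have hfin : ρ / 4 ^ m + K * (δ' + κ.θ ^ n * ρ) ≤ ε' := by
    have : K * (δ' + κ.θ ^ n * ρ) = K * δ' + K * (κ.θ ^ n * ρ) := by ring
    rw [this, hKδ]
    linarith
  refine ⟨?_, ?_⟩
  · rw [norm_st]
    exact (max_le (k1.trans hfin) (k2.trans hfin)).trans hε'ε
  · intro h hih hhB
    obtain ⟨h', rfl⟩ : ∃ h', h = Hk.j0 + h' := ⟨h - Hk.j0, by omega⟩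
    have k4 := k3 h' (by omega) (by omega)
    obtain ⟨a1, a2⟩ := T1 i hi2
    have b1 := hs3 h' i (lt_of_lt_of_le a1 hρ1) (lt_of_lt_of_le a2 hρ1)
    have b2 : max (max (aS Hk i) (qS Hk i)) (τS Hk h' i) ≤ ε' :=
      max_le (max_le (k1.trans hfin) (k2.trans hfin)) (k4.trans hfin)
    calc _ ≤ C1 * max (max (aS Hk i) (qS Hk i)) (τS Hk h' i) := b1
      _ ≤ C * ε' := mul_le_mul hC1C b2 (le_max_of_le_right (τS_nonneg Hk h' i)) hC0.le
      _ = ε := hCε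

/-! ### ONE history in absolute indices -/

def xa (H : Hist) (j : ℕ) : ℝ := xr H (j - H.j0)
def ya (H : Hist) (j : ℕ) : ℝ := yr H (j - H.j0)
def ea (H : Hist) (j : ℕ) : ℝ := qe H (j - H.j0)
def oa (H : Hist) (j : ℕ) : ℝ := qo H (j - H.j0)
def Ea (H : Hist) (h j : ℕ) : ℝ := dE H h (j - H.j0)
def Oa (H : Hist) (h j : ℕ) : ℝ := dO H h (j - H.j0)

/-- reality of the scalars of the critical history -/
theorem wo_real {κ : MapC} {κe : EntC} {ρe : ℝ} {s : ℕ} {H : Hist} (hS : SysOK κ κe ρe s H) (i : ℕ)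
    (h : ∀ i' < i, ‖H.st xyCritical i'‖ < κ.ρ) :
    H.x xyCritical i = (xr H i : ℂ) ∧ H.y xyCritical i = (yr H i : ℂ) := by
  obtain ⟨h1, h2⟩ := hS.entry.real xyCritical (br_crit_mem hS.entry) i h
  exact ⟨Complex.ext (by simp [xr]) (by simpa using h1), Complex.ext (by simp [yr]) (by simpa using h2)⟩

theorem wo_norm_le {E : Type} [NormedAddCommGroup E] (Y : ℂ × ℂ × E) : ‖Y.1‖ ≤ ‖Y‖ ∧ ‖Y.2.1‖ ≤ ‖Y‖ ∧ ‖Y.2.2‖ ≤ ‖Y‖ := by
  rw [Prod.norm_def, Prod.norm_def]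
  exact ⟨le_max_left _ _, (le_max_left _ _).trans (le_max_right _ _), (le_max_right _ _).trans (le_max_right _ _)⟩

theorem wo_normX_le {E : Type} [NormedAddCommGroup E] (X : (ℂ × ℂ) × E) : ‖X.1.1‖ ≤ ‖X‖ ∧ ‖X.1.2‖ ≤ ‖X‖ ∧ ‖X.2‖ ≤ ‖X‖ := by
  rw [Prod.norm_def, Prod.norm_def]
  exact ⟨(le_max_left _ _).trans (le_max_left _ _), (le_max_right _ _).trans (le_max_left _ _), le_max_right _ _⟩

theorem wo_invQ {κ : MapC} {H : Hist} (hM : Flow.MapOK κ H) (j : ℕ) : Invol (H.σQ j) := ⟨hM.σQ_inv j, hM.σQ_iso j⟩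

theorem wo_invT {κ : MapC} {H : Hist} (hM : Flow.MapOK κ H) (j h : ℕ) : Invol (H.σT j h) := ⟨hM.σT_inv j h, hM.σT_iso j h⟩

/-- the plane rows at the stage `i` -/
theorem wo_plane {κ : MapC} {κe : EntC} {ρe : ℝ} {s : ℕ} {H : Hist} (hS : SysOK κ κe ρe s H) {C r : ℝ} (hr : r ≤ κ.ρ)
    (hF : Fine C r ((1 + κ.θ) / 2) H) (i : ℕ) (h : ∀ i' ≤ i, ‖H.st xyCritical i'‖ < r) :
    |xr H (i + 1) - xr H i + yr H i ^ 2| ≤ C * (yr H i ^ 2 / ((H.j0 + i : ℕ) : ℝ) ^ 2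
        + (|xr H i| + |yr H i| + qe H i) * (yr H i ^ 2 + qe H i) + qo H i * (|yr H i| + qo H i)) ∧
    |yr H (i + 1) - yr H i + xr H i * yr H i| ≤ C * (|xr H i| * |yr H i| / ((H.j0 + i : ℕ) : ℝ) ^ 2
        + (xr H i ^ 2 + yr H i ^ 2 + qe H i) * |yr H i| + (|xr H i| + |yr H i| + qe H i + qo H i) * qo H i) ∧
    qe H (i + 1) ≤ (1 + κ.θ) / 2 * qe H i + C * (|yr H i| + qo H i) ^ 2 ∧
    qo H (i + 1) ≤ (1 + κ.θ) / 2 * qo H i + C * (|xr H i| + |yr H i| + qe H i) * |yr H i| := by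
  have hb : H.st xyCritical i ∈ Metric.ball (0 : ℂ × ℂ × H.Q (H.j0 + i)) r := mem_ball_zero_iff.2 (h i le_rfl)
  obtain ⟨x0, y0⟩ := wo_real hS i (fun i' hi' => lt_of_lt_of_le (h i' hi'.le) hr)
  obtain ⟨x1, y1⟩ := wo_real hS (i + 1) (fun i' hi' => lt_of_lt_of_le (h i' (by omega)) hr)
  have e1 : (H.st xyCritical i).1 = (xr H i : ℂ) := x0
  have e2 : (H.st xyCritical i).2.1 = (yr H i : ℂ) := y0
  have e3 : (H.N (H.j0 + i) (H.st xyCritical i)).1 = (xr H (i + 1) : ℂ) := x1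
  have e4 : (H.N (H.j0 + i) (H.st xyCritical i)).2.1 = (yr H (i + 1) : ℂ) := y1
  have hj : H.j0 ≤ H.j0 + i := Nat.le_add_right _ _
  refine ⟨?_, ?_, ?_, ?_⟩
  · have hu := hF.u_map (H.j0 + i) hj _ hb
    rw [e1, e2, e3] at hu
    have e5 : ((xr H (i + 1) : ℂ) - ((xr H i : ℂ) - (yr H i : ℂ) ^ 2)) = ((xr H (i + 1) - xr H i + yr H i ^ 2 : ℝ) : ℂ) := by
      push_cast; ring
    rw [e5, Complex.norm_real, Complex.norm_real, Complex.norm_real, Real.norm_eq_abs, Real.norm_eq_abs, Real.norm_eq_abs,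
      sq_abs] at hu
    exact hu
  · have hu := hF.z_map (H.j0 + i) hj _ hb
    rw [e1, e2, e4] at hu
    have e5 : ((yr H (i + 1) : ℂ) - ((yr H i : ℂ) - (xr H i : ℂ) * (yr H i : ℂ))) = ((yr H (i + 1) - yr H i + xr H i * yr H i : ℝ) : ℂ) := by
      push_cast; ring
    rw [e5, Complex.norm_real, Complex.norm_real, Complex.norm_real, Real.norm_eq_abs, Real.norm_eq_abs, Real.norm_eq_abs,
      sq_abs, sq_abs] at hu
    exact hu
  · have hu := hF.e_map (H.j0 + i) hj _ hb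
    rw [e2, Complex.norm_real, Real.norm_eq_abs] at hu
    exact hu
  · have hu := hF.o_map (H.j0 + i) hj _ hb
    rw [e1, e2, Complex.norm_real, Complex.norm_real, Real.norm_eq_abs, Real.norm_eq_abs, ← mul_assoc] at hu
    exact hu

/-- the unbalanced scalars at the stage `i` -/
theorem wo_scal {κ : MapC} {κe : EntC} {ρe : ℝ} {s : ℕ} {H : Hist} (hS : SysOK κ κe ρe s H) {C r : ℝ} (hr : r ≤ κ.ρ) (hC : 0 ≤ C)
    (hT : FineT C r ((1 + κ.θ) / 2) κ H) (i : ℕ) (h : ∀ i' ≤ i, ‖H.st xyCritical i'‖ < r) :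
    ‖(H.sc (H.j0 + i) (H.st xyCritical i)).1‖ ≤ C * (|xr H i| + yr H i ^ 2 + (qe H i + qo H i)) ∧
    ‖(H.sc (H.j0 + i) (H.st xyCritical i)).2‖ ≤ C * (|yr H i| + qo H i) ∧
    ‖(H.sc (H.j0 + i) (H.st xyCritical i)).1 - (H.sc (H.j0 + i) (H.x xyCritical i, 0, 0)).1‖
      ≤ C * (qe H i + (|yr H i| + qo H i) ^ 2) := by
  have hb : H.st xyCritical i ∈ Metric.ball (0 : ℂ × ℂ × H.Q (H.j0 + i)) r := mem_ball_zero_iff.2 (h i le_rfl)
  obtain ⟨x0, y0⟩ := wo_real hS i (fun i' hi' => lt_of_lt_of_le (h i' hi'.le) hr)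
  have e1 : ‖(H.st xyCritical i).1‖ = |xr H i| := by
    have : (H.st xyCritical i).1 = (xr H i : ℂ) := x0
    rw [this, Complex.norm_real, Real.norm_eq_abs]
  have e2 : ‖(H.st xyCritical i).2.1‖ = |yr H i| := by
    have : (H.st xyCritical i).2.1 = (yr H i : ℂ) := y0
    rw [this, Complex.norm_real, Real.norm_eq_abs]
  have hj : H.j0 ≤ H.j0 + i := Nat.le_add_right _ _
  refine ⟨?_, ?_, ?_⟩
  · have hu := hT.t_bd (H.j0 + i) hj _ hb
    rw [e1, e2, sq_abs] at hu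
    refine hu.trans (mul_le_mul_of_nonneg_left ?_ hC)
    have h3 : ‖(H.st xyCritical i).2.2‖ ≤ qe H i + qo H i := by
      have := norm_add_le (ev (H.σQ (H.j0 + i)) (H.st xyCritical i).2.2) (od (H.σQ (H.j0 + i)) (H.st xyCritical i).2.2)
      rwa [ev_add_od] at this
    linarith
  · have hu := hT.z_bd (H.j0 + i) hj _ hb
    rw [e2] at hu
    exact hu
  · have hu := hT.t_row (H.j0 + i) hj _ hb
    rw [e2] at hu
    exact hu

/-- the odd torus row at the stage `i` behind the stop `h` -/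
theorem wo_O {κ : MapC} {κe : EntC} {ρe : ℝ} {s : ℕ} {H : Hist} (hS : SysOK κ κe ρe s H) {C r δ : ℝ} (hr : r ≤ κ.ρ)
    (hC : 1 ≤ C) (hT : FineT C r ((1 + κ.θ) / 2) κ H) (hδr : δ ≤ r) (hr1 : δ ≤ 1) (i h : ℕ)
    (hst0 : ∀ i' ≤ i, ‖H.st xyCritical i'‖ < δ) (hih : H.j0 + i < h)
    (hX0 : ‖H.ts xyCritical h i‖ < δ) :
    dO H h (i + 1) ≤ (1 + κ.θ) / 2 * dO H h i
      + C ^ 2 * (2 * C + κ.C) * (|xr H i| + |yr H i| + qe H i + qo H i + dE H h i) * (|yr H i| + qo H i) := by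
  have hC0 : 0 ≤ C := by linarith
  have hκC : 0 ≤ κ.C := zero_le_one.trans κ.hC
  have hst : ∀ i' ≤ i, ‖H.st xyCritical i'‖ < r := fun i' hi' => lt_of_lt_of_le (hst0 i' hi') hδr
  have hX : ‖H.ts xyCritical h i‖ < r := lt_of_lt_of_le hX0 hδr
  obtain ⟨s1, s2, -⟩ := wo_scal hS hr hC0 hT i hst
  obtain ⟨x0, y0⟩ := wo_real hS i (fun i' hi' => lt_of_lt_of_le (hst i' hi'.le) hr)
  have hj : H.j0 ≤ H.j0 + i := Nat.le_add_right _ _
  have hu := hT.Ψo (H.j0 + i) h hj hih (H.ts xyCritical h i) (mem_ball_zero_iff.2 hX)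
  obtain ⟨n1, n2, -⟩ := wo_norm_le (H.st xyCritical i)
  have hY := hst i le_rfl
  have ex : ‖H.x xyCritical i‖ = |xr H i| := by rw [x0, Complex.norm_real, Real.norm_eq_abs]
  have ey : ‖H.y xyCritical i‖ = |yr H i| := by rw [y0, Complex.norm_real, Real.norm_eq_abs]
  have hx1 : |xr H i| ≤ 1 := by
    rw [← ex]
    exact (n1.trans (hst0 i le_rfl).le).trans hr1
  have hy1 : |yr H i| ≤ 1 := by
    rw [← ey]
    exact (n2.trans (hst0 i le_rfl).le).trans hr1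
  have hxρ : ‖H.x xyCritical i‖ < κ.ρ := lt_of_le_of_lt n1 (lt_of_lt_of_le hY hr)
  have hG := hS.map.G_bd (H.j0 + i) h hj hih.le _ hxρ
  rw [ex] at hG
  have hA : ‖ev (H.σT (H.j0 + i) h) (H.tor xyCritical h i)‖ ≤ dE H h i + κ.C * |xr H i| := by
    have h1 : ev (H.σT (H.j0 + i) h) (H.tor xyCritical h i)
        = (ev (H.σT (H.j0 + i) h) (H.tor xyCritical h i) - H.G (H.j0 + i) h (H.x xyCritical i)) + H.G (H.j0 + i) h (H.x xyCritical i) := by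
      abel
    rw [h1]
    refine (norm_add_le _ _).trans (add_le_add le_rfl (hG.trans (mul_le_mul_of_nonneg_left ?_ hκC)))
    have := abs_nonneg (xr H i)
    nlinarith
  obtain ⟨x, hx⟩ : ∃ x, x = |xr H i| := ⟨_, rfl⟩
  obtain ⟨y, hy⟩ : ∃ y, y = |yr H i| := ⟨_, rfl⟩
  have hx0 : 0 ≤ x := by rw [hx]; exact abs_nonneg _
  have hy0 : 0 ≤ y := by rw [hy]; exact abs_nonneg _
  have he0 : 0 ≤ qe H i := norm_nonneg _
  have ho0 : 0 ≤ qo H i := norm_nonneg _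
  have hE0 : 0 ≤ dE H h i := norm_nonneg _
  have hysq : yr H i ^ 2 ≤ y := by
    rw [← sq_abs, ← hy]
    rw [← hy] at hy1
    nlinarith
  rw [← hx] at s1 hA ⊢
  rw [← hy] at s2 ⊢
  have hsum : ‖(H.ts xyCritical h i).1.1‖ + ‖(H.ts xyCritical h i).1.2‖ + ‖ev (H.σT (H.j0 + i) h) (H.ts xyCritical h i).2‖
      ≤ (2 * C + κ.C) * (x + y + qe H i + qo H i + dE H h i) := by
    have t1 : ‖(H.ts xyCritical h i).1.1‖ ≤ C * (x + yr H i ^ 2 + (qe H i + qo H i)) := s1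
    have t2 : ‖(H.ts xyCritical h i).1.2‖ ≤ C * (y + qo H i) := s2
    have t3 : ‖ev (H.σT (H.j0 + i) h) (H.ts xyCritical h i).2‖ ≤ dE H h i + κ.C * x := hA
    have t4 : C * (x + yr H i ^ 2 + (qe H i + qo H i)) ≤ C * (x + y + (qe H i + qo H i)) :=
      mul_le_mul_of_nonneg_left (by linarith) hC0
    have t5 : dE H h i ≤ C * dE H h i := le_mul_of_one_le_left hE0 hC
    have t6 : 0 ≤ κ.C * (y + qe H i + qo H i + dE H h i) := by positivity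
    have t7 : 0 ≤ C * (x + qe H i + dE H h i) := by positivity
    nlinarith
  have hz : ‖(H.ts xyCritical h i).1.2‖ ≤ C * (y + qo H i) := s2
  have hprod := mul_le_mul hsum hz (norm_nonneg _) (by positivity)
  have hfin : dO H h (i + 1) ≤ (1 + κ.θ) / 2 * dO H h i + C * ((‖(H.ts xyCritical h i).1.1‖ + ‖(H.ts xyCritical h i).1.2‖
      + ‖ev (H.σT (H.j0 + i) h) (H.ts xyCritical h i).2‖) * ‖(H.ts xyCritical h i).1.2‖) := hu
  refine hfin.trans (add_le_add le_rfl ?_)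
  refine (mul_le_mul_of_nonneg_left hprod hC0).trans (le_of_eq ?_)
  ring

/-- the even torus row at the stage `i` behind the stop `h` -/
theorem wo_E {κ : MapC} {κe : EntC} {ρe : ℝ} {s : ℕ} {H : Hist} (hS : SysOK κ κe ρe s H) {C r δ : ℝ} (hr : r ≤ κ.ρ)
    (hC : 1 ≤ C) (hT : FineT C r ((1 + κ.θ) / 2) κ H) (hδr : δ ≤ r) (hδ1 : δ ≤ 1) (hδC : C * δ ≤ r) (hδκ : κ.C * δ ≤ r) (i h : ℕ)
    (hst : ∀ i' ≤ i + 1, ‖H.st xyCritical i'‖ < δ) (hih : H.j0 + i < h) (hX : ‖H.ts xyCritical h i‖ < δ) :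
    dE H h (i + 1) ≤ (1 + κ.θ) / 2 * dE H h i
      + (C ^ 2 + C ^ 3) * (qe H i + (|yr H i| + qo H i + dO H h i) ^ 2 + |xr H (i + 1) - xr H i|) := by
  have hC0 : 0 ≤ C := by linarith
  have hκC : 0 < κ.C := lt_of_lt_of_le zero_lt_one κ.hC
  have hst' : ∀ i' ≤ i, ‖H.st xyCritical i'‖ < r := fun i' hi' => lt_of_lt_of_le (hst i' (by omega)) hδr
  obtain ⟨-, s2, s3⟩ := wo_scal hS hr hC0 hT i hst'
  obtain ⟨x0, -⟩ := wo_real hS i (fun i' hi' => lt_of_lt_of_le (hst' i' hi'.le) hr)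
  obtain ⟨x1, -⟩ := wo_real hS (i + 1) (fun i' hi' => lt_of_lt_of_le (hst' i' (by omega)) hr)
  have hj : H.j0 ≤ H.j0 + i := Nat.le_add_right _ _
  have hxδ : ‖H.x xyCritical i‖ < δ := lt_of_le_of_lt (wo_norm_le (H.st xyCritical i)).1 (hst i (by omega))
  have hx1δ : ‖H.x xyCritical (i + 1)‖ < δ := lt_of_le_of_lt (wo_norm_le (H.st xyCritical (i + 1))).1 (hst (i + 1) le_rfl)
  have hδ0 : 0 < δ := lt_of_le_of_lt (norm_nonneg _) hxδ
  have hxr : ‖H.x xyCritical i‖ < r := lt_of_lt_of_le hxδ hδr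
  have hxρ : ‖H.x xyCritical i‖ < κ.ρ := lt_of_lt_of_le hxr hr
  -- the reference state
  have hz0 := hT.z0 (H.j0 + i) hj _ hxr
  have hsc : H.sc (H.j0 + i) (H.x xyCritical i, 0, 0) = ((H.sc (H.j0 + i) (H.x xyCritical i, 0, 0)).1, 0) := Prod.ext rfl hz0
  have hstep := hS.map.G_step (H.j0 + i) h hj hih _ hxρ
  rw [hsc] at hstep
  have hn3 : ‖((H.x xyCritical i, 0, 0) : ℂ × ℂ × H.Q (H.j0 + i))‖ = ‖H.x xyCritical i‖ := by
    rw [Prod.norm_def, Prod.norm_def]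
    simp
  have ht' : ‖(H.sc (H.j0 + i) (H.x xyCritical i, 0, 0)).1‖ < r := by
    have h1 := hT.sc_bd (H.j0 + i) hj (H.x xyCritical i, 0, 0) (mem_ball_zero_iff.2 (by rw [hn3]; exact hxr))
    rw [hn3] at h1
    have h2 : ‖(H.sc (H.j0 + i) (H.x xyCritical i, 0, 0)).1‖ ≤ ‖H.sc (H.j0 + i) (H.x xyCritical i, 0, 0)‖ := by
      rw [Prod.norm_def]
      exact le_max_left _ _
    have h3 : C * ‖H.x xyCritical i‖ < C * δ := mul_lt_mul_of_pos_left hxδ (by linarith)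
    linarith
  have hA' : ‖H.G (H.j0 + i) h (H.x xyCritical i)‖ < r := by
    have h1 := hS.map.G_bd (H.j0 + i) h hj hih.le _ hxρ
    have h2 : ‖H.x xyCritical i‖ ^ 2 ≤ ‖H.x xyCritical i‖ := by
      calc ‖H.x xyCritical i‖ ^ 2 = ‖H.x xyCritical i‖ * ‖H.x xyCritical i‖ := sq _
        _ ≤ ‖H.x xyCritical i‖ * 1 := mul_le_mul_of_nonneg_left (hxδ.le.trans hδ1) (norm_nonneg _)
        _ = _ := mul_one _
    have h3 : κ.C * ‖H.x xyCritical i‖ < κ.C * δ := mul_lt_mul_of_pos_left hxδ hκC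
    have h4 : κ.C * ‖H.x xyCritical i‖ ^ 2 ≤ κ.C * ‖H.x xyCritical i‖ := mul_le_mul_of_nonneg_left h2 hκC.le
    linarith
  have hev := hS.map.G_even (H.j0 + i) h hj hih.le _ hxρ
  have hu := hT.Ψe (H.j0 + i) h hj hih (H.ts xyCritical h i) (mem_ball_zero_iff.2 (lt_of_lt_of_le hX hδr)) _ _ ht' hA' hev
  rw [hstep] at hu
  have hl := hT.Glip (H.j0 + i + 1) h (by omega) hih (H.x xyCritical i) (H.x xyCritical (i + 1)) hxr (lt_of_lt_of_le hx1δ hδr)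
  have exx : ‖H.x xyCritical i - H.x xyCritical (i + 1)‖ = |xr H (i + 1) - xr H i| := by
    rw [x0, x1, ← Complex.ofReal_sub, Complex.norm_real, Real.norm_eq_abs, abs_sub_comm]
  rw [exx] at hl
  -- triangle inequality
  have htri : dE H h (i + 1) ≤ ‖ev (H.σT (H.j0 + i + 1) h) (H.Ψ (H.j0 + i) h (H.ts xyCritical h i)) - H.G (H.j0 + i + 1) h (H.x xyCritical i)‖
      + ‖H.G (H.j0 + i + 1) h (H.x xyCritical i) - H.G (H.j0 + i + 1) h (H.x xyCritical (i + 1))‖ := by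
    have := norm_add_le (ev (H.σT (H.j0 + i + 1) h) (H.Ψ (H.j0 + i) h (H.ts xyCritical h i)) - H.G (H.j0 + i + 1) h (H.x xyCritical i))
      (H.G (H.j0 + i + 1) h (H.x xyCritical i) - H.G (H.j0 + i + 1) h (H.x xyCritical (i + 1)))
    rw [sub_add_sub_cancel] at this
    exact this
  obtain ⟨y, hy⟩ : ∃ y, y = |yr H i| := ⟨_, rfl⟩
  have hy0 : 0 ≤ y := by rw [hy]; exact abs_nonneg _
  have he0 : 0 ≤ qe H i := norm_nonneg _
  have ho0 : 0 ≤ qo H i := norm_nonneg _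
  have hO0 : 0 ≤ dO H h i := norm_nonneg _
  obtain ⟨Δ, hΔ⟩ : ∃ Δ, Δ = |xr H (i + 1) - xr H i| := ⟨_, rfl⟩
  have hΔ0 : 0 ≤ Δ := by rw [hΔ]; exact abs_nonneg _
  rw [← hy] at s2 s3 ⊢
  rw [← hΔ] at hl ⊢
  have u1 : ‖ev (H.σT (H.j0 + i + 1) h) (H.Ψ (H.j0 + i) h (H.ts xyCritical h i)) - H.G (H.j0 + i + 1) h (H.x xyCritical i)‖
      ≤ (1 + κ.θ) / 2 * dE H h i + C * (‖(H.ts xyCritical h i).1.1 - (H.sc (H.j0 + i) (H.x xyCritical i, 0, 0)).1‖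
        + (‖(H.ts xyCritical h i).1.2‖ + dO H h i) ^ 2) := hu
  have t1 : ‖(H.ts xyCritical h i).1.1 - (H.sc (H.j0 + i) (H.x xyCritical i, 0, 0)).1‖ ≤ C * (qe H i + (y + qo H i) ^ 2) := s3
  have t2 : ‖(H.ts xyCritical h i).1.2‖ ≤ C * (y + qo H i) := s2
  have t3 : (‖(H.ts xyCritical h i).1.2‖ + dO H h i) ^ 2 ≤ (C * (y + qo H i + dO H h i)) ^ 2 := by
    refine pow_le_pow_left₀ (by positivity) ?_ 2
    have h9 : dO H h i ≤ C * dO H h i := le_mul_of_one_le_left hO0 hC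
    have e9 : C * (y + qo H i + dO H h i) = C * (y + qo H i) + C * dO H h i := by ring
    rw [e9]
    linarith
  have t4 : (y + qo H i) ^ 2 ≤ (y + qo H i + dO H h i) ^ 2 := pow_le_pow_left₀ (by positivity) (by linarith) 2
  obtain ⟨W, hW⟩ : ∃ W, W = (y + qo H i + dO H h i) ^ 2 := ⟨_, rfl⟩
  have hW0 : 0 ≤ W := by rw [hW]; positivity
  rw [mul_pow, ← hW] at t3
  rw [← hW] at t4 ⊢
  have t5 : C * (‖(H.ts xyCritical h i).1.1 - (H.sc (H.j0 + i) (H.x xyCritical i, 0, 0)).1‖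
        + (‖(H.ts xyCritical h i).1.2‖ + dO H h i) ^ 2) ≤ C * (C * (qe H i + W) + C ^ 2 * W) := by
    refine mul_le_mul_of_nonneg_left (add_le_add (t1.trans (mul_le_mul_of_nonneg_left (by linarith) hC0)) t3) hC0
  have hC2 : C ≤ C ^ 2 := le_self_pow₀ hC (by norm_num)
  have hC3 : 0 ≤ C ^ 3 := by positivity
  have t6 : C * Δ ≤ (C ^ 2 + C ^ 3) * Δ := mul_le_mul_of_nonneg_right (by linarith) hΔ0
  have t7 : C * (C * (qe H i + W) + C ^ 2 * W) ≤ (C ^ 2 + C ^ 3) * (qe H i + W) := by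
    have h9 : 0 ≤ C ^ 3 * qe H i := by positivity
    have e7 : (C ^ 2 + C ^ 3) * (qe H i + W) = C * (C * (qe H i + W) + C ^ 2 * W) + C ^ 3 * qe H i := by ring
    rw [e7]
    linarith
  have t8 : (C ^ 2 + C ^ 3) * (qe H i + W + Δ) = (C ^ 2 + C ^ 3) * (qe H i + W) + (C ^ 2 + C ^ 3) * Δ := by ring
  rw [t8]
  linarith

/-- the terminal phase bound at the stop `j0 + i` -/
theorem wo_P {κ : MapC} {κe : EntC} {ρe : ℝ} {s : ℕ} {H : Hist} (hS : SysOK κ κe ρe s H) {C r : ℝ} (hr : r ≤ κ.ρ)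
    (hC : 1 ≤ C) (hT : FineT C r ((1 + κ.θ) / 2) κ H) (i : ℕ) (hv : Valid κ κe s H (H.j0 + i))
    (hin : ∀ i' ≤ i, ‖H.st xyCritical i'‖ < r ∧ ‖H.ts xyCritical (H.j0 + i) i'‖ < r) :
    |H.cP (H.j0 + i) xyCritical| ≤ C ^ 2 * (|yr H i| + qo H i + dO H (H.j0 + i) i) := by
  have hC0 : 0 ≤ C := by linarith
  obtain ⟨-, s2, -⟩ := wo_scal hS hr hC0 hT i (fun i' hi' => (hin i' hi').1)
  have hrep := hS.read.repP xyCritical i (br_crit_mem hS.entry) hv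
    (fun i' hi' => ⟨lt_of_lt_of_le (hin i' hi').1 hr, lt_of_lt_of_le (hin i' hi').2 hr⟩)
  have hu := hT.Pup (H.j0 + i) (Nat.le_add_right _ _) (H.ts xyCritical (H.j0 + i) i) (mem_ball_zero_iff.2 (hin i le_rfl).2)
  rw [← hrep, Complex.norm_real, Real.norm_eq_abs] at hu
  have hO0 : 0 ≤ dO H (H.j0 + i) i := norm_nonneg _
  have u1 : |H.cP (H.j0 + i) xyCritical| ≤ C * (‖(H.ts xyCritical (H.j0 + i) i).1.2‖ + dO H (H.j0 + i) i) := hu
  have t2 : ‖(H.ts xyCritical (H.j0 + i) i).1.2‖ ≤ C * (|yr H i| + qo H i) := s2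
  have t3 : dO H (H.j0 + i) i ≤ C * dO H (H.j0 + i) i := le_mul_of_one_le_left hO0 hC
  refine u1.trans ?_
  have : C * (‖(H.ts xyCritical (H.j0 + i) i).1.2‖ + dO H (H.j0 + i) i) ≤ C * (C * (|yr H i| + qo H i) + C * dO H (H.j0 + i) i) :=
    mul_le_mul_of_nonneg_left (by linarith) hC0
  refine this.trans (le_of_eq ?_)
  ring

theorem xa_add (H : Hist) (i : ℕ) : xa H (H.j0 + i) = xr H i := by unfold xa; rw [Nat.add_sub_cancel_left]

theorem ya_add (H : Hist) (i : ℕ) : ya H (H.j0 + i) = yr H i := by unfold ya; rw [Nat.add_sub_cancel_left]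

theorem ea_add (H : Hist) (i : ℕ) : ea H (H.j0 + i) = qe H i := by unfold ea; rw [Nat.add_sub_cancel_left]

theorem oa_add (H : Hist) (i : ℕ) : oa H (H.j0 + i) = qo H i := by unfold oa; rw [Nat.add_sub_cancel_left]

theorem Ea_add (H : Hist) (h i : ℕ) : Ea H h (H.j0 + i) = dE H h i := by unfold Ea; rw [Nat.add_sub_cancel_left]

theorem Oa_add (H : Hist) (h i : ℕ) : Oa H h (H.j0 + i) = dO H h i := by unfold Oa; rw [Nat.add_sub_cancel_left]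

/-- the rows of `WinOK` for a history in a small tube -/
theorem win_of (κ : MapC) : ∃ C r : ℝ, 1 ≤ C ∧ 0 < r ∧
    ∀ (κe : EntC) (ρe : ℝ) (s : ℕ) (H : Hist) (a b hm : ℕ) (δ : ℝ), SysOK κ κe ρe s H → H.j0 ≤ a → b ≤ hm → δ ≤ r →
      Tube H δ b hm → (∀ h, a ≤ h → h ≤ b → Valid κ κe s H h) →
      WinOK C ((1 + κ.θ) / 2) (2 * δ) a b hm (xa H) (ya H) (ea H) (oa H) (Ea H) (Oa H) (fun h => H.cP h xyCritical) := by
  obtain ⟨C1, r1, hC1, hr1, hr1ρ, hF⟩ := fine_of_coarse κ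
  obtain ⟨C2, r2, hC2, hr2, hr2ρ, hT⟩ := fineT_of_coarse κ
  have hκC : 0 < κ.C := lt_of_lt_of_le zero_lt_one κ.hC
  have hC20 : 0 < C2 := by linarith
  obtain ⟨CO, hCO⟩ : ∃ CO, CO = C2 ^ 2 * (2 * C2 + κ.C) := ⟨_, rfl⟩
  obtain ⟨CE, hCE⟩ : ∃ CE, CE = C2 ^ 2 + C2 ^ 3 := ⟨_, rfl⟩
  have hCO0 : 0 ≤ CO := by rw [hCO]; positivity
  have hCE0 : 0 ≤ CE := by rw [hCE]; positivity
  have hC2E : C2 ^ 2 ≤ CE := by
    rw [hCE]
    have : 0 ≤ C2 ^ 3 := by positivity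
    linarith
  refine ⟨C1 + CO + CE, min (min r1 r2) (min (min 1 (r2 / C2)) (min (r2 / κ.C) (1 / κ.C))), by linarith,
    lt_min (lt_min hr1 hr2) (lt_min (lt_min one_pos (by positivity)) (lt_min (by positivity) (by positivity))), ?_⟩
  intro κe ρe s H a b hm δ hS ha hb hδ hTube hval
  have d1 : δ ≤ r1 := hδ.trans ((min_le_left _ _).trans (min_le_left _ _))
  have d2 : δ ≤ r2 := hδ.trans ((min_le_left _ _).trans (min_le_right _ _))
  have d3 : δ ≤ 1 := hδ.trans ((min_le_right _ _).trans ((min_le_left _ _).trans (min_le_left _ _)))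
  have d4 : C2 * δ ≤ r2 := by
    have := hδ.trans ((min_le_right _ _).trans ((min_le_left _ _).trans (min_le_right _ _)))
    rw [le_div_iff₀ hC20] at this
    linarith
  have d5 : κ.C * δ ≤ r2 := by
    have := hδ.trans ((min_le_right _ _).trans ((min_le_right _ _).trans (min_le_left _ _)))
    rw [le_div_iff₀ hκC] at this
    linarith
  have d6 : κ.C * δ ≤ 1 := by
    have := hδ.trans ((min_le_right _ _).trans ((min_le_right _ _).trans (min_le_right _ _)))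
    rw [le_div_iff₀ hκC] at this
    linarith
  have hst : ∀ i, H.j0 + i ≤ b → ‖H.st xyCritical i‖ < δ := fun i hi => (hTube i hi).1
  have hts : ∀ i h, H.j0 + i ≤ b → H.j0 + i ≤ h → h ≤ hm → ‖H.ts xyCritical h i‖ < δ := fun i h hi => (hTube i hi).2 h
  have hFH := hF H hS.map
  have hTH := hT κe ρe s H hS
  have hle1 : C1 ≤ C1 + CO + CE := by linarith
  have hleO : CO ≤ C1 + CO + CE := by linarith
  have hleE : CE ≤ C1 + CO + CE := by linarith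
  refine
    { hb := hb
      e0 := fun j => norm_nonneg _
      o0 := fun j => norm_nonneg _
      E0 := fun h j => norm_nonneg _
      O0 := fun h j => norm_nonneg _
      tube := ?_
      tubeT := ?_
      u_map := ?_
      z_map := ?_
      e_map := ?_
      o_map := ?_
      O_map := ?_
      E_map := ?_
      P_up := ?_ }
  · intro j haj hjb
    obtain ⟨i, rfl⟩ := Nat.exists_eq_add_of_le (ha.trans haj)
    rw [xa_add, ya_add, ea_add, oa_add]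
    have hY := hst i hjb
    have hδ0 : 0 < δ := lt_of_le_of_lt (norm_nonneg _) hY
    obtain ⟨n1, n2, n3⟩ := wo_norm_le (H.st xyCritical i)
    refine ⟨?_, ?_, ?_, ?_⟩
    · have : |xr H i| ≤ ‖(H.st xyCritical i).1‖ := Complex.abs_re_le_norm _
      linarith
    · have : |yr H i| ≤ ‖(H.st xyCritical i).2.1‖ := Complex.abs_re_le_norm _
      linarith
    · have : qe H i ≤ ‖(H.st xyCritical i).2.2‖ := (wo_invQ hS.map _).norm_ev _
      linarith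
    · have : qo H i ≤ ‖(H.st xyCritical i).2.2‖ := (wo_invQ hS.map _).norm_od _
      linarith
  · intro h j haj hjb hjh hhm
    obtain ⟨i, rfl⟩ := Nat.exists_eq_add_of_le (ha.trans haj)
    rw [Ea_add, Oa_add]
    have hY := hst i hjb
    have hX := hts i h hjb hjh hhm
    have hδ0 : 0 < δ := lt_of_le_of_lt (norm_nonneg _) hY
    obtain ⟨n1, -, -⟩ := wo_norm_le (H.st xyCritical i)
    obtain ⟨-, -, m3⟩ := wo_normX_le (H.ts xyCritical h i)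
    have hxδ : ‖H.x xyCritical i‖ < δ := lt_of_le_of_lt n1 hY
    have hG := hS.map.G_bd (H.j0 + i) h (Nat.le_add_right _ _) hjh _ (lt_of_lt_of_le hxδ (d2.trans hr2ρ))
    constructor
    · have h1 : dE H h i ≤ ‖ev (H.σT (H.j0 + i) h) (H.tor xyCritical h i)‖ + ‖H.G (H.j0 + i) h (H.x xyCritical i)‖ := norm_sub_le _ _
      have h2 : ‖ev (H.σT (H.j0 + i) h) (H.tor xyCritical h i)‖ ≤ ‖(H.ts xyCritical h i).2‖ := (wo_invT hS.map _ _).norm_ev _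
      have h3 : ‖H.x xyCritical i‖ ^ 2 ≤ δ * δ := by
        rw [sq]
        exact mul_le_mul hxδ.le hxδ.le (norm_nonneg _) hδ0.le
      have h4 : κ.C * ‖H.x xyCritical i‖ ^ 2 ≤ κ.C * (δ * δ) := mul_le_mul_of_nonneg_left h3 hκC.le
      have h5 : κ.C * (δ * δ) ≤ 1 * δ := by
        rw [← mul_assoc]
        exact mul_le_mul_of_nonneg_right d6 hδ0.le
      linarith
    · have h2 : dO H h i ≤ ‖(H.ts xyCritical h i).2‖ := (wo_invT hS.map _ _).norm_od _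
      linarith
  · intro j haj hjb
    obtain ⟨i, rfl⟩ := Nat.exists_eq_add_of_le (ha.trans haj)
    rw [add_assoc, xa_add, xa_add, ya_add, ea_add, oa_add]
    obtain ⟨p1, -, -, -⟩ := wo_plane hS hr1ρ hFH i (fun i' hi' => lt_of_lt_of_le (hst i' (by omega)) d1)
    refine p1.trans (mul_le_mul_of_nonneg_right hle1 ?_)
    have he0 : 0 ≤ qe H i := norm_nonneg _
    have ho0 : 0 ≤ qo H i := norm_nonneg _
    positivity
  · intro j haj hjb
    obtain ⟨i, rfl⟩ := Nat.exists_eq_add_of_le (ha.trans haj)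
    rw [add_assoc, ya_add, xa_add, ya_add, ea_add, oa_add]
    obtain ⟨-, p2, -, -⟩ := wo_plane hS hr1ρ hFH i (fun i' hi' => lt_of_lt_of_le (hst i' (by omega)) d1)
    refine p2.trans (mul_le_mul_of_nonneg_right hle1 ?_)
    have he0 : 0 ≤ qe H i := norm_nonneg _
    have ho0 : 0 ≤ qo H i := norm_nonneg _
    positivity
  · intro j haj hjb
    obtain ⟨i, rfl⟩ := Nat.exists_eq_add_of_le (ha.trans haj)
    rw [add_assoc, ea_add, ea_add, ya_add, oa_add]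
    obtain ⟨-, -, p3, -⟩ := wo_plane hS hr1ρ hFH i (fun i' hi' => lt_of_lt_of_le (hst i' (by omega)) d1)
    refine p3.trans (add_le_add le_rfl (mul_le_mul_of_nonneg_right hle1 (by positivity)))
  · intro j haj hjb
    obtain ⟨i, rfl⟩ := Nat.exists_eq_add_of_le (ha.trans haj)
    rw [add_assoc, oa_add, oa_add, xa_add, ya_add, ea_add]
    obtain ⟨-, -, -, p4⟩ := wo_plane hS hr1ρ hFH i (fun i' hi' => lt_of_lt_of_le (hst i' (by omega)) d1)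
    have he0 : 0 ≤ qe H i := norm_nonneg _
    refine p4.trans (add_le_add le_rfl ?_)
    rw [mul_assoc, mul_assoc]
    exact mul_le_mul_of_nonneg_right hle1 (by positivity)
  · intro h j haj hjb hjh hhm
    obtain ⟨i, rfl⟩ := Nat.exists_eq_add_of_le (ha.trans haj)
    rw [add_assoc, Oa_add, Oa_add, xa_add, ya_add, ea_add, oa_add, Ea_add]
    have p := wo_O hS hr2ρ hC2 hTH d2 d3 i h (fun i' hi' => hst i' (by omega)) hjh (hts i h hjb.le hjh.le hhm)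
    rw [← hCO] at p
    have he0 : 0 ≤ qe H i := norm_nonneg _
    have ho0 : 0 ≤ qo H i := norm_nonneg _
    have hE0 : 0 ≤ dE H h i := norm_nonneg _
    refine p.trans (add_le_add le_rfl ?_)
    rw [mul_assoc, mul_assoc]
    exact mul_le_mul_of_nonneg_right hleO (by positivity)
  · intro h j haj hjb hjh hhm
    obtain ⟨i, rfl⟩ := Nat.exists_eq_add_of_le (ha.trans haj)
    rw [add_assoc, Ea_add, Ea_add, ea_add, ya_add, oa_add, Oa_add, xa_add, xa_add]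
    have p := wo_E hS hr2ρ hC2 hTH d2 d3 d4 d5 i h (fun i' hi' => hst i' (by omega)) hjh (hts i h hjb.le hjh.le hhm)
    rw [← hCE] at p
    have he0 : 0 ≤ qe H i := norm_nonneg _
    have ho0 : 0 ≤ qo H i := norm_nonneg _
    have hO0 : 0 ≤ dO H h i := norm_nonneg _
    refine p.trans (add_le_add le_rfl ?_)
    exact mul_le_mul_of_nonneg_right hleE (by positivity)
  · intro h hah hhb
    obtain ⟨i, rfl⟩ := Nat.exists_eq_add_of_le (ha.trans hah)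
    rw [ya_add, oa_add, Oa_add]
    have p := wo_P hS hr2ρ hC2 hTH i (hval _ hah hhb)
      (fun i' hi' => ⟨lt_of_lt_of_le (hst i' (by omega)) d2, lt_of_lt_of_le (hts i' (H.j0 + i) (by omega) (by omega) (hhb.trans hb)) d2⟩)
    have ho0 : 0 ≤ qo H i := norm_nonneg _
    have hO0 : 0 ≤ dO H (H.j0 + i) i := norm_nonneg _
    refine p.trans (mul_le_mul_of_nonneg_right (hC2E.trans hleE) (by positivity))

theorem oc_scalV {u v0 kV pG e1 e2 K : ℝ} (hu : |u| ≤ 1 / 2) (hp0 : 0 ≤ pG) (hp1 : pG ≤ 1) (hK : 0 ≤ K) (he1 : 0 ≤ e1) (he2 : 0 ≤ e2)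
    (h1 : |v0 - 1 / Real.pi| ≤ K * e1) (h2 : |kV - 1 / Real.pi| ≤ K * e1) (h3 : 1 - pG ≤ K * e2) :
    |v0 + kV * u / (1 - pG * u) - 1 / (Real.pi * (1 - u))| ≤ 3 * K * (e1 + e2) := by
  obtain ⟨u1, u2⟩ := abs_le.1 hu
  have hd1 : 1 / 2 ≤ 1 - u := by linarith
  have hd2 : 1 / 2 ≤ 1 - pG * u := by nlinarith
  have hπ : 0 < Real.pi := Real.pi_pos
  have ha0 : 0 ≤ 1 / Real.pi := by positivity
  have ha1 : 1 / Real.pi ≤ 1 := by
    rw [div_le_one hπ]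
    linarith [Real.pi_gt_three]
  have e : v0 + kV * u / (1 - pG * u) - 1 / (Real.pi * (1 - u)) = (v0 - 1 / Real.pi) + (kV - 1 / Real.pi) * (u / (1 - pG * u))
      - 1 / Real.pi * (u ^ 2 * (1 - pG) / ((1 - pG * u) * (1 - u))) := by
    have key : ∀ d1 d2 : ℝ, d1 ≠ 0 → d2 ≠ 0 → d1 = 1 - u → d2 = 1 - pG * u →
        v0 + kV * u / d2 - 1 / (Real.pi * d1) = (v0 - 1 / Real.pi) + (kV - 1 / Real.pi) * (u / d2)
          - 1 / Real.pi * (u ^ 2 * (1 - pG) / (d2 * d1)) := by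
      intro d1 d2 n1 n2 q1 q2
      have hπ0 : Real.pi ≠ 0 := hπ.ne'
      field_simp
      rw [q1, q2]
      ring
    exact key _ _ (by linarith) (by linarith) rfl rfl
  have b1 : |u / (1 - pG * u)| ≤ 1 := by
    rw [abs_div, abs_of_pos (by linarith : 0 < 1 - pG * u), div_le_one (by linarith)]
    linarith
  have b2 : |u ^ 2 * (1 - pG) / ((1 - pG * u) * (1 - u))| ≤ 1 - pG := by
    have hden : 1 / 4 ≤ (1 - pG * u) * (1 - u) := by nlinarith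
    have hu2 : u ^ 2 ≤ 1 / 4 := by
      rw [← sq_abs]
      have := abs_nonneg u
      nlinarith
    rw [abs_div, abs_of_pos (by linarith : 0 < (1 - pG * u) * (1 - u)), abs_of_nonneg (mul_nonneg (sq_nonneg _) (by linarith)),
      div_le_iff₀ (by linarith)]
    have hq : 0 ≤ 1 - pG := by linarith
    calc u ^ 2 * (1 - pG) ≤ 1 / 4 * (1 - pG) := mul_le_mul_of_nonneg_right hu2 hq
      _ = (1 - pG) * (1 / 4) := by ring
      _ ≤ (1 - pG) * ((1 - pG * u) * (1 - u)) := mul_le_mul_of_nonneg_left hden hq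
  rw [e]
  have t1 := abs_sub (v0 - 1 / Real.pi + (kV - 1 / Real.pi) * (u / (1 - pG * u))) (1 / Real.pi * (u ^ 2 * (1 - pG) / ((1 - pG * u) * (1 - u))))
  have t2 := abs_add_le (v0 - 1 / Real.pi) ((kV - 1 / Real.pi) * (u / (1 - pG * u)))
  have t3 : |(kV - 1 / Real.pi) * (u / (1 - pG * u))| ≤ K * e1 * 1 := by
    rw [abs_mul]
    exact mul_le_mul h2 b1 (abs_nonneg _) (by positivity)
  have t4 : |1 / Real.pi * (u ^ 2 * (1 - pG) / ((1 - pG * u) * (1 - u)))| ≤ 1 * (K * e2) := by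
    rw [abs_mul, abs_of_nonneg ha0]
    exact mul_le_mul ha1 (b2.trans h3) (abs_nonneg _) zero_le_one
  have p1 : 0 ≤ K * e1 := by positivity
  have p2 : 0 ≤ K * e2 := by positivity
  have e3 : 3 * K * (e1 + e2) = 3 * (K * e1) + 3 * (K * e2) := by ring
  rw [e3]
  linarith

theorem oc_errT {κ : MapC} {κe : EntC} {ρe : ℝ} {s : ℕ} {H : Hist} (hS : SysOK κ κe ρe s H) {h : ℕ} (hh : H.j0 ≤ h) :
    0 ≤ (s : ℝ) / κ.n h + 1 / (κ.n h : ℝ) ^ 2 ∧ 0 ≤ ((κ.L : ℝ) ^ H.j0 / κ.n h) ^ 2 ∧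
    (s : ℝ) / κ.n h + 1 / (κ.n h : ℝ) ^ 2 + ((κ.L : ℝ) ^ H.j0 / κ.n h) ^ 2 ≤ errT κ κe s H h ∧
    (s : ℝ) / κ.n h ≤ errT κ κe s H h ∧ Real.exp (-κ.c * h) ≤ errT κ κe s H h ∧ 0 ≤ errT κ κe s H h := by
  obtain ⟨a1, a2, a3, a4⟩ := ft4_ratio hS.entry hh
  have c0 : 0 ≤ cutErr κ κe s h := by
    unfold cutErr
    have := κe.hC
    positivity
  have e0 : 0 ≤ Real.exp (-κ.c * h) := (Real.exp_pos _).le
  have q0 : 0 ≤ ((κ.L : ℝ) ^ H.j0 / κ.n h) ^ 2 := sq_nonneg _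
  unfold errT
  refine ⟨by linarith, q0, by linarith, by linarith, by linarith, by linarith⟩

/-- the sum of the three even sizes of the torus state -/
theorem wo_sum {κ : MapC} {κe : EntC} {ρe : ℝ} {s : ℕ} {H : Hist} (hS : SysOK κ κe ρe s H) {C r δ : ℝ} (hr : r ≤ κ.ρ)
    (hC : 1 ≤ C) (hT : FineT C r ((1 + κ.θ) / 2) κ H) (hδr : δ ≤ r) (hr1 : δ ≤ 1) (i h : ℕ)
    (hst0 : ∀ i' ≤ i, ‖H.st xyCritical i'‖ < δ) (hih : H.j0 + i ≤ h) :
    ‖(H.ts xyCritical h i).1.1‖ + ‖(H.ts xyCritical h i).1.2‖ + ‖ev (H.σT (H.j0 + i) h) (H.ts xyCritical h i).2‖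
      ≤ (2 * C + κ.C) * (|xr H i| + |yr H i| + qe H i + qo H i + dE H h i) := by
  have hC0 : 0 ≤ C := by linarith
  have hκC : 0 ≤ κ.C := zero_le_one.trans κ.hC
  have hst : ∀ i' ≤ i, ‖H.st xyCritical i'‖ < r := fun i' hi' => lt_of_lt_of_le (hst0 i' hi') hδr
  obtain ⟨s1, s2, -⟩ := wo_scal hS hr hC0 hT i hst
  obtain ⟨x0, y0⟩ := wo_real hS i (fun i' hi' => lt_of_lt_of_le (hst i' hi'.le) hr)
  have hj : H.j0 ≤ H.j0 + i := Nat.le_add_right _ _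
  obtain ⟨n1, n2, -⟩ := wo_norm_le (H.st xyCritical i)
  have hY := hst i le_rfl
  have ex : ‖H.x xyCritical i‖ = |xr H i| := by rw [x0, Complex.norm_real, Real.norm_eq_abs]
  have ey : ‖H.y xyCritical i‖ = |yr H i| := by rw [y0, Complex.norm_real, Real.norm_eq_abs]
  have hx1 : |xr H i| ≤ 1 := by
    rw [← ex]
    exact (n1.trans (hst0 i le_rfl).le).trans hr1
  have hy1 : |yr H i| ≤ 1 := by
    rw [← ey]
    exact (n2.trans (hst0 i le_rfl).le).trans hr1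
  have hxρ : ‖H.x xyCritical i‖ < κ.ρ := lt_of_le_of_lt n1 (lt_of_lt_of_le hY hr)
  have hG := hS.map.G_bd (H.j0 + i) h hj hih _ hxρ
  rw [ex] at hG
  have hA : ‖ev (H.σT (H.j0 + i) h) (H.tor xyCritical h i)‖ ≤ dE H h i + κ.C * |xr H i| := by
    have h1 : ev (H.σT (H.j0 + i) h) (H.tor xyCritical h i)
        = (ev (H.σT (H.j0 + i) h) (H.tor xyCritical h i) - H.G (H.j0 + i) h (H.x xyCritical i)) + H.G (H.j0 + i) h (H.x xyCritical i) := by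
      abel
    rw [h1]
    refine (norm_add_le _ _).trans (add_le_add le_rfl (hG.trans (mul_le_mul_of_nonneg_left ?_ hκC)))
    have := abs_nonneg (xr H i)
    nlinarith
  obtain ⟨x, hx⟩ : ∃ x, x = |xr H i| := ⟨_, rfl⟩
  obtain ⟨y, hy⟩ : ∃ y, y = |yr H i| := ⟨_, rfl⟩
  have hx0 : 0 ≤ x := by rw [hx]; exact abs_nonneg _
  have hy0 : 0 ≤ y := by rw [hy]; exact abs_nonneg _
  have he0 : 0 ≤ qe H i := norm_nonneg _
  have ho0 : 0 ≤ qo H i := norm_nonneg _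
  have hE0 : 0 ≤ dE H h i := norm_nonneg _
  have hysq : yr H i ^ 2 ≤ y := by
    rw [← sq_abs, ← hy]
    rw [← hy] at hy1
    nlinarith
  rw [← hx] at s1 hA ⊢
  rw [← hy] at s2 ⊢
  have t1 : ‖(H.ts xyCritical h i).1.1‖ ≤ C * (x + yr H i ^ 2 + (qe H i + qo H i)) := s1
  have t2 : ‖(H.ts xyCritical h i).1.2‖ ≤ C * (y + qo H i) := s2
  have t3 : ‖ev (H.σT (H.j0 + i) h) (H.ts xyCritical h i).2‖ ≤ dE H h i + κ.C * x := hA
  have t4 : C * (x + yr H i ^ 2 + (qe H i + qo H i)) ≤ C * (x + y + (qe H i + qo H i)) :=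
    mul_le_mul_of_nonneg_left (by linarith) hC0
  have t5 : dE H h i ≤ C * dE H h i := le_mul_of_one_le_left hE0 hC
  have t6 : 0 ≤ κ.C * (y + qe H i + qo H i + dE H h i) := by positivity
  have t7 : 0 ≤ C * (x + qe H i + dE H h i) := by positivity
  nlinarith

/-- the variance row at the stop `j0 + i` -/
theorem oc_V {κ : MapC} {κe : EntC} {ρe : ℝ} {s : ℕ} {H : Hist} (hS : SysOK κ κe ρe s H) {C r δ : ℝ} (hr : r ≤ κ.ρ)
    (hC : 1 ≤ C) (hT : FineT C r ((1 + κ.θ) / 2) κ H) (hδr : δ ≤ r) (hδ1 : δ ≤ 1) (hδC : C * δ ≤ r) (hδκ : κ.C * δ ≤ r)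
    (hδb : δ ≤ κ.bs / 2) (i : ℕ) (hv : Valid κ κe s H (H.j0 + i))
    (hin : ∀ i' ≤ i, ‖H.st xyCritical i'‖ < δ ∧ ‖H.ts xyCritical (H.j0 + i) i'‖ < δ) :
    |H.cV (H.j0 + i) xyCritical - 1 / (Real.pi * (1 - xr H i / κ.bs))|
      ≤ (C ^ 2 + C ^ 3 + 3 * κ.C) * (qe H i + dE H (H.j0 + i) i + (|yr H i| + qo H i + dO H (H.j0 + i) i) ^ 2
        + errT κ κe s H (H.j0 + i)) := by
  have hC0 : 0 ≤ C := by linarith
  have hκC : 0 < κ.C := lt_of_lt_of_le zero_lt_one κ.hC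
  have hst' : ∀ i' ≤ i, ‖H.st xyCritical i'‖ < r := fun i' hi' => lt_of_lt_of_le (hin i' hi').1 hδr
  obtain ⟨-, s2, s3⟩ := wo_scal hS hr hC0 hT i hst'
  obtain ⟨x0, -⟩ := wo_real hS i (fun i' hi' => lt_of_lt_of_le (hst' i' hi'.le) hr)
  have hj : H.j0 ≤ H.j0 + i := Nat.le_add_right _ _
  have hxδ : ‖H.x xyCritical i‖ < δ := lt_of_le_of_lt (wo_norm_le (H.st xyCritical i)).1 (hin i le_rfl).1
  have hδ0 : 0 < δ := lt_of_le_of_lt (norm_nonneg _) hxδ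
  have hxr : ‖H.x xyCritical i‖ < r := lt_of_lt_of_le hxδ hδr
  have hxρ : ‖H.x xyCritical i‖ < κ.ρ := lt_of_lt_of_le hxr hr
  have hz0 := hT.z0 (H.j0 + i) hj _ hxr
  have hsc : H.sc (H.j0 + i) (H.x xyCritical i, 0, 0) = ((H.sc (H.j0 + i) (H.x xyCritical i, 0, 0)).1, 0) := Prod.ext rfl hz0
  have hn3 : ‖((H.x xyCritical i, 0, 0) : ℂ × ℂ × H.Q (H.j0 + i))‖ = ‖H.x xyCritical i‖ := by
    rw [Prod.norm_def, Prod.norm_def]
    simp
  have ht' : ‖(H.sc (H.j0 + i) (H.x xyCritical i, 0, 0)).1‖ < r := by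
    have h1 := hT.sc_bd (H.j0 + i) hj (H.x xyCritical i, 0, 0) (mem_ball_zero_iff.2 (by rw [hn3]; exact hxr))
    rw [hn3] at h1
    have h2 : ‖(H.sc (H.j0 + i) (H.x xyCritical i, 0, 0)).1‖ ≤ ‖H.sc (H.j0 + i) (H.x xyCritical i, 0, 0)‖ := by
      rw [Prod.norm_def]
      exact le_max_left _ _
    have h3 : C * ‖H.x xyCritical i‖ < C * δ := mul_lt_mul_of_pos_left hxδ (by linarith)
    linarith
  have hA' : ‖H.G (H.j0 + i) (H.j0 + i) (H.x xyCritical i)‖ < r := by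
    have h1 := hS.map.G_bd (H.j0 + i) (H.j0 + i) hj le_rfl _ hxρ
    have h2 : ‖H.x xyCritical i‖ ^ 2 ≤ ‖H.x xyCritical i‖ := by
      calc ‖H.x xyCritical i‖ ^ 2 = ‖H.x xyCritical i‖ * ‖H.x xyCritical i‖ := sq _
        _ ≤ ‖H.x xyCritical i‖ * 1 := mul_le_mul_of_nonneg_left (hxδ.le.trans hδ1) (norm_nonneg _)
        _ = _ := mul_one _
    have h3 : κ.C * ‖H.x xyCritical i‖ < κ.C * δ := mul_lt_mul_of_pos_left hxδ hκC
    have h4 : κ.C * ‖H.x xyCritical i‖ ^ 2 ≤ κ.C * ‖H.x xyCritical i‖ := mul_le_mul_of_nonneg_left h2 hκC.le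
    linarith
  have hev := hS.map.G_even (H.j0 + i) (H.j0 + i) hj le_rfl _ hxρ
  have hu := hT.Vrow (H.j0 + i) hj (H.ts xyCritical (H.j0 + i) i) (mem_ball_zero_iff.2 (lt_of_lt_of_le (hin i le_rfl).2 hδr)) _ _ ht' hA' hev
  rw [← hsc, hS.read.G_var (H.j0 + i) hj _ hxρ] at hu
  have hrep := hS.read.repV xyCritical i (br_crit_mem hS.entry) hv
    (fun i' hi' => ⟨lt_of_lt_of_le (hin i' hi').1 (hδr.trans hr), lt_of_lt_of_le (hin i' hi').2 (hδr.trans hr)⟩)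
  -- the scalar part
  have hbs := ft4_bs_pos κ
  have hu2 : |xr H i / κ.bs| ≤ 1 / 2 := by
    rw [abs_div, abs_of_pos hbs, div_le_iff₀ hbs]
    have : |xr H i| = ‖H.x xyCritical i‖ := by rw [x0, Complex.norm_real, Real.norm_eq_abs]
    rw [this]
    linarith
  obtain ⟨g1, g2, g3, -, -, g6⟩ := oc_errT hS hj (κe := κe)
  obtain ⟨p0, p1, p2⟩ := hS.read.pG_bd (H.j0 + i) hj
  have hsV := oc_scalV hu2 p0 p1 hκC.le g1 g2 (hS.read.v0_bd _ hj) (hS.read.kV_bd _ hj) p2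
  have hD : ((H.cV (H.j0 + i) xyCritical - 1 / (Real.pi * (1 - xr H i / κ.bs)) : ℝ) : ℂ)
      = (H.rV (H.j0 + i) (H.ts xyCritical (H.j0 + i) i)
          - (H.kV (H.j0 + i) : ℂ) * (H.x xyCritical i / κ.bs) / (1 - H.pG (H.j0 + i) * (H.x xyCritical i / κ.bs)))
        + ((H.v0 (H.j0 + i) + H.kV (H.j0 + i) * (xr H i / κ.bs) / (1 - H.pG (H.j0 + i) * (xr H i / κ.bs))
          - 1 / (Real.pi * (1 - xr H i / κ.bs)) : ℝ) : ℂ) := by
    rw [x0]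
    push_cast
    rw [hrep]
    ring
  have hn : |H.cV (H.j0 + i) xyCritical - 1 / (Real.pi * (1 - xr H i / κ.bs))|
      ≤ ‖H.rV (H.j0 + i) (H.ts xyCritical (H.j0 + i) i)
          - (H.kV (H.j0 + i) : ℂ) * (H.x xyCritical i / κ.bs) / (1 - H.pG (H.j0 + i) * (H.x xyCritical i / κ.bs))‖
        + |H.v0 (H.j0 + i) + H.kV (H.j0 + i) * (xr H i / κ.bs) / (1 - H.pG (H.j0 + i) * (xr H i / κ.bs))
          - 1 / (Real.pi * (1 - xr H i / κ.bs))| := by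
    rw [← Real.norm_eq_abs, ← Complex.norm_real, hD, ← Real.norm_eq_abs (H.v0 _ + _ - _), ← Complex.norm_real]
    exact norm_add_le _ _
  obtain ⟨y, hy⟩ : ∃ y, y = |yr H i| := ⟨_, rfl⟩
  have hy0 : 0 ≤ y := by rw [hy]; exact abs_nonneg _
  have he0 : 0 ≤ qe H i := norm_nonneg _
  have ho0 : 0 ≤ qo H i := norm_nonneg _
  have hO0 : 0 ≤ dO H (H.j0 + i) i := norm_nonneg _
  have hE0 : 0 ≤ dE H (H.j0 + i) i := norm_nonneg _
  rw [← hy] at s2 s3 ⊢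
  have u1 : ‖H.rV (H.j0 + i) (H.ts xyCritical (H.j0 + i) i)
          - (H.kV (H.j0 + i) : ℂ) * (H.x xyCritical i / κ.bs) / (1 - H.pG (H.j0 + i) * (H.x xyCritical i / κ.bs))‖
      ≤ C * (‖(H.ts xyCritical (H.j0 + i) i).1.1 - (H.sc (H.j0 + i) (H.x xyCritical i, 0, 0)).1‖ + dE H (H.j0 + i) i
        + (‖(H.ts xyCritical (H.j0 + i) i).1.2‖ + dO H (H.j0 + i) i) ^ 2) := hu
  have t1 : ‖(H.ts xyCritical (H.j0 + i) i).1.1 - (H.sc (H.j0 + i) (H.x xyCritical i, 0, 0)).1‖ ≤ C * (qe H i + (y + qo H i) ^ 2) := s3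
  have t2 : ‖(H.ts xyCritical (H.j0 + i) i).1.2‖ ≤ C * (y + qo H i) := s2
  have t3 : (‖(H.ts xyCritical (H.j0 + i) i).1.2‖ + dO H (H.j0 + i) i) ^ 2 ≤ (C * (y + qo H i + dO H (H.j0 + i) i)) ^ 2 := by
    refine pow_le_pow_left₀ (by positivity) ?_ 2
    have h9 : dO H (H.j0 + i) i ≤ C * dO H (H.j0 + i) i := le_mul_of_one_le_left hO0 hC
    have e9 : C * (y + qo H i + dO H (H.j0 + i) i) = C * (y + qo H i) + C * dO H (H.j0 + i) i := by ring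
    rw [e9]
    linarith
  have t4 : (y + qo H i) ^ 2 ≤ (y + qo H i + dO H (H.j0 + i) i) ^ 2 := pow_le_pow_left₀ (by positivity) (by linarith) 2
  obtain ⟨W, hW⟩ : ∃ W, W = (y + qo H i + dO H (H.j0 + i) i) ^ 2 := ⟨_, rfl⟩
  have hW0 : 0 ≤ W := by rw [hW]; positivity
  rw [mul_pow, ← hW] at t3
  rw [← hW] at t4 ⊢
  have t5 : C * (‖(H.ts xyCritical (H.j0 + i) i).1.1 - (H.sc (H.j0 + i) (H.x xyCritical i, 0, 0)).1‖ + dE H (H.j0 + i) i
        + (‖(H.ts xyCritical (H.j0 + i) i).1.2‖ + dO H (H.j0 + i) i) ^ 2) ≤ C * (C * (qe H i + W) + dE H (H.j0 + i) i + C ^ 2 * W) := by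
    refine mul_le_mul_of_nonneg_left (add_le_add (add_le_add (t1.trans (mul_le_mul_of_nonneg_left (by linarith) hC0)) le_rfl) t3) hC0
  have hC2 : C ≤ C ^ 2 := le_self_pow₀ hC (by norm_num)
  have hC3 : 0 ≤ C ^ 3 := by positivity
  have t6 : C * dE H (H.j0 + i) i ≤ (C ^ 2 + C ^ 3) * dE H (H.j0 + i) i := mul_le_mul_of_nonneg_right (by linarith) hE0
  have t7 : 3 * κ.C * ((s : ℝ) / κ.n (H.j0 + i) + 1 / (κ.n (H.j0 + i) : ℝ) ^ 2 + ((κ.L : ℝ) ^ H.j0 / κ.n (H.j0 + i)) ^ 2)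
      ≤ 3 * κ.C * errT κ κe s H (H.j0 + i) := mul_le_mul_of_nonneg_left g3 (by positivity)
  have h9 : 0 ≤ C ^ 3 * qe H i := by positivity
  have h10 : 0 ≤ (C ^ 2 + C ^ 3) * errT κ κe s H (H.j0 + i) := by positivity
  have h11 : 0 ≤ 3 * κ.C * (qe H i + dE H (H.j0 + i) i + W) := by positivity
  have e7 : (C ^ 2 + C ^ 3 + 3 * κ.C) * (qe H i + dE H (H.j0 + i) i + W + errT κ κe s H (H.j0 + i))
      = (C * (C * (qe H i + W) + C ^ 2 * W) + C ^ 3 * qe H i) + (C ^ 2 + C ^ 3) * dE H (H.j0 + i) i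
        + (C ^ 2 + C ^ 3) * errT κ κe s H (H.j0 + i) + 3 * κ.C * (qe H i + dE H (H.j0 + i) i + W)
        + 3 * κ.C * errT κ κe s H (H.j0 + i) := by ring
  have e8 : C * (C * (qe H i + W) + dE H (H.j0 + i) i + C ^ 2 * W) = C * (C * (qe H i + W) + C ^ 2 * W) + C * dE H (H.j0 + i) i := by ring
  rw [e7]
  rw [e8] at t5
  linarith

theorem oc_arith {x y e o E O err ex C K1 Kp Ks A1 A2 A3 Sg z : ℝ} (hx : 0 ≤ x) (hy : 0 ≤ y) (he : 0 ≤ e) (ho : 0 ≤ o) (hE : 0 ≤ E)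
    (hO : 0 ≤ O) (herr : 0 ≤ err) (hC : 0 ≤ C) (hK1 : 0 ≤ K1) (hKp : 0 ≤ Kp) (hKs : 0 ≤ Ks) (hz0 : 0 ≤ z)
    (x1 : x ≤ 1) (y1 : y ≤ 1) (e1 : e ≤ 1) (o1 : o ≤ 1) (E2 : E ≤ 2)
    (a1 : A1 ≤ C * (O + Sg * z)) (hSg : Sg ≤ K1 * (x + y + e + o + E)) (hz : z ≤ C * (y + o))
    (a2 : A2 ≤ C * (o + (ex + x + y + e) * y)) (hex : ex ≤ err) (a3 : A3 ≤ Ks * (err * y)) :
    A1 + Kp * A2 + A3 ≤ (C * (1 + 7 * (K1 * C)) + Kp * C + Ks) * (o + O + (err + x + y + e + E) * y) := by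
  obtain ⟨B, hB⟩ : ∃ B, B = o + O + (err + x + y + e + E) * y := ⟨_, rfl⟩
  rw [← hB]
  have q1 : 0 ≤ err * y := mul_nonneg herr hy
  have q2 : 0 ≤ (x + y + e + E) * y := mul_nonneg (by linarith) hy
  have eB : B = o + O + err * y + (x + y + e + E) * y := by rw [hB]; ring
  have hB0 : 0 ≤ B := by rw [eB]; linarith
  have s1 : (x + y + e + o + E) * (y + o) ≤ 7 * B := by
    have w1 : (x + y + e + o + E) * o ≤ 6 * o := mul_le_mul_of_nonneg_right (by linarith) ho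
    have w2 : o * y ≤ o * 1 := mul_le_mul_of_nonneg_left y1 ho
    have w3 : (x + y + e + o + E) * (y + o) = (x + y + e + E) * y + o * y + (x + y + e + o + E) * o := by ring
    rw [w3, eB]
    linarith
  have s2 : Sg * z ≤ K1 * C * (7 * B) := by
    have w0 : 0 ≤ K1 * (x + y + e + o + E) := mul_nonneg hK1 (by linarith)
    have w1 : Sg * z ≤ K1 * (x + y + e + o + E) * (C * (y + o)) := by
      calc Sg * z ≤ K1 * (x + y + e + o + E) * z := mul_le_mul_of_nonneg_right hSg hz0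
        _ ≤ K1 * (x + y + e + o + E) * (C * (y + o)) := mul_le_mul_of_nonneg_left hz w0
    have w2 : K1 * (x + y + e + o + E) * (C * (y + o)) = K1 * C * ((x + y + e + o + E) * (y + o)) := by ring
    rw [w2] at w1
    exact w1.trans (mul_le_mul_of_nonneg_left s1 (mul_nonneg hK1 hC))
  have s3 : A1 ≤ C * (1 + 7 * (K1 * C)) * B := by
    have w1 : O + Sg * z ≤ B + K1 * C * (7 * B) := by
      have : O ≤ B := by rw [eB]; linarith
      linarith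
    refine a1.trans ((mul_le_mul_of_nonneg_left w1 hC).trans (le_of_eq ?_))
    ring
  have s4 : A2 ≤ C * B := by
    refine a2.trans (mul_le_mul_of_nonneg_left ?_ hC)
    have w1 : (ex + x + y + e) * y ≤ (err + x + y + e + E) * y := mul_le_mul_of_nonneg_right (by linarith) hy
    rw [hB]
    linarith
  have s5 : A3 ≤ Ks * B := by
    refine a3.trans (mul_le_mul_of_nonneg_left ?_ hKs)
    rw [eB]
    linarith
  have s6 : Kp * A2 ≤ Kp * (C * B) := mul_le_mul_of_nonneg_left s4 hKp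
  have e9 : (C * (1 + 7 * (K1 * C)) + Kp * C + Ks) * B = C * (1 + 7 * (K1 * C)) * B + Kp * (C * B) + Ks * B := by ring
  rw [e9]
  linarith

/-- the phase row at the stop `j0 + i` -/
theorem oc_P {κ : MapC} {κe : EntC} {ρe : ℝ} {s : ℕ} {H : Hist} (hS : SysOK κ κe ρe s H) {C r δ : ℝ} (hr : r ≤ κ.ρ)
    (hC : 1 ≤ C) (hT : FineT C r ((1 + κ.θ) / 2) κ H) (hδr : δ ≤ r) (hδ1 : δ ≤ 1) (hδκ : κ.C * δ ≤ 1)
    (i : ℕ) (hv : Valid κ κe s H (H.j0 + i))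
    (hin : ∀ i' ≤ i, ‖H.st xyCritical i'‖ < δ ∧ ‖H.ts xyCritical (H.j0 + i) i'‖ < δ) :
    |H.cP (H.j0 + i) xyCritical - κ.p (H.j0 + i) * yr H i / Real.sqrt (κ.bs * κ.Hq)|
      ≤ (C * (1 + 7 * ((2 * C + κ.C) * C)) + (1 / Real.pi + 2 * κ.C) * C + κ.C / Real.sqrt (κ.bs * κ.Hq))
        * (qo H i + dO H (H.j0 + i) i
          + (errT κ κe s H (H.j0 + i) + |xr H i| + |yr H i| + qe H i + dE H (H.j0 + i) i) * |yr H i|) := by
  have hC0 : 0 ≤ C := by linarith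
  have hκC : 0 < κ.C := lt_of_lt_of_le zero_lt_one κ.hC
  have hst' : ∀ i' ≤ i, ‖H.st xyCritical i'‖ < r := fun i' hi' => lt_of_lt_of_le (hin i' hi').1 hδr
  obtain ⟨-, s2, -⟩ := wo_scal hS hr hC0 hT i hst'
  obtain ⟨x0, y0⟩ := wo_real hS i (fun i' hi' => lt_of_lt_of_le (hst' i' hi'.le) hr)
  have hj : H.j0 ≤ H.j0 + i := Nat.le_add_right _ _
  obtain ⟨n1, n2, n3⟩ := wo_norm_le (H.st xyCritical i)
  obtain ⟨-, -, m3⟩ := wo_normX_le (H.ts xyCritical (H.j0 + i) i)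
  have hY := (hin i le_rfl).1
  have hX := (hin i le_rfl).2
  have hδ0 : 0 < δ := lt_of_le_of_lt (norm_nonneg _) hY
  have ex : ‖H.x xyCritical i‖ = |xr H i| := by rw [x0, Complex.norm_real, Real.norm_eq_abs]
  have ey : ‖H.y xyCritical i‖ = |yr H i| := by rw [y0, Complex.norm_real, Real.norm_eq_abs]
  have hxδ : ‖H.x xyCritical i‖ < δ := lt_of_le_of_lt n1 hY
  have hx1 : |xr H i| ≤ 1 := by
    rw [← ex]
    exact hxδ.le.trans hδ1
  have hy1 : |yr H i| ≤ 1 := by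
    rw [← ey]
    exact (n2.trans hY.le).trans hδ1
  have he1 : qe H i ≤ 1 := ((wo_invQ hS.map _).norm_ev _).trans ((n3.trans hY.le).trans hδ1)
  have ho1 : qo H i ≤ 1 := ((wo_invQ hS.map _).norm_od _).trans ((n3.trans hY.le).trans hδ1)
  have hE2 : dE H (H.j0 + i) i ≤ 2 := by
    have hG := hS.map.G_bd (H.j0 + i) (H.j0 + i) hj le_rfl _ (lt_of_lt_of_le hxδ (hδr.trans hr))
    have h1 : dE H (H.j0 + i) i ≤ ‖ev (H.σT (H.j0 + i) (H.j0 + i)) (H.tor xyCritical (H.j0 + i) i)‖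
        + ‖H.G (H.j0 + i) (H.j0 + i) (H.x xyCritical i)‖ := norm_sub_le _ _
    have h2 : ‖ev (H.σT (H.j0 + i) (H.j0 + i)) (H.tor xyCritical (H.j0 + i) i)‖ ≤ ‖(H.ts xyCritical (H.j0 + i) i).2‖ :=
      (wo_invT hS.map _ _).norm_ev _
    have h3 : ‖H.x xyCritical i‖ ^ 2 ≤ δ * δ := by
      rw [sq]
      exact mul_le_mul hxδ.le hxδ.le (norm_nonneg _) hδ0.le
    have h4 : κ.C * ‖H.x xyCritical i‖ ^ 2 ≤ κ.C * (δ * δ) := mul_le_mul_of_nonneg_left h3 hκC.le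
    have h5 : κ.C * (δ * δ) ≤ 1 * δ := by
      rw [← mul_assoc]
      exact mul_le_mul_of_nonneg_right hδκ hδ0.le
    linarith
  have hsum := wo_sum hS hr hC hT hδr hδ1 i (H.j0 + i) (fun i' hi' => (hin i' hi').1) le_rfl
  have hrep := hS.read.repP xyCritical i (br_crit_mem hS.entry) hv
    (fun i' hi' => ⟨lt_of_lt_of_le (hin i' hi').1 (hδr.trans hr), lt_of_lt_of_le (hin i' hi').2 (hδr.trans hr)⟩)
  have hPf := hT.Pfine (H.j0 + i) hj (H.ts xyCritical (H.j0 + i) i) (mem_ball_zero_iff.2 (lt_of_lt_of_le hX hδr))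
  have hzr := hT.z_row (H.j0 + i) hj (H.st xyCritical i) (mem_ball_zero_iff.2 (hst' i le_rfl))
  have hkP := hS.read.kP_bd (H.j0 + i) hj
  have hKp := ft4_kP hS hj
  obtain ⟨a1, a2, -, -⟩ := ft4_ratio hS.entry hj
  obtain ⟨-, -, -, g4, g5, g6⟩ := oc_errT hS hj (κe := κe)
  have hq : 0 < Real.sqrt (κ.bs * κ.Hq) := Real.sqrt_pos.2 (mul_pos (ft4_bs_pos κ) κ.hH)
  have hD : ((H.cP (H.j0 + i) xyCritical - κ.p (H.j0 + i) * yr H i / Real.sqrt (κ.bs * κ.Hq) : ℝ) : ℂ)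
      = (H.rP (H.j0 + i) (H.ts xyCritical (H.j0 + i) i) - H.kP (H.j0 + i) * (H.ts xyCritical (H.j0 + i) i).1.2)
        + (H.kP (H.j0 + i) : ℂ) * ((H.sc (H.j0 + i) (H.st xyCritical i)).2 - (H.st xyCritical i).2.1 / Real.sqrt (κ.bs * κ.Hq))
        + (((H.kP (H.j0 + i) - κ.p (H.j0 + i)) * (yr H i / Real.sqrt (κ.bs * κ.Hq)) : ℝ) : ℂ) := by
    have y0' : (H.st xyCritical i).2.1 = (yr H i : ℂ) := y0
    have z0' : (H.ts xyCritical (H.j0 + i) i).1.2 = (H.sc (H.j0 + i) (H.st xyCritical i)).2 := rfl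
    rw [y0', z0']
    push_cast
    rw [hrep]
    ring
  have hn : |H.cP (H.j0 + i) xyCritical - κ.p (H.j0 + i) * yr H i / Real.sqrt (κ.bs * κ.Hq)|
      ≤ ‖H.rP (H.j0 + i) (H.ts xyCritical (H.j0 + i) i) - H.kP (H.j0 + i) * (H.ts xyCritical (H.j0 + i) i).1.2‖
        + (1 / Real.pi + 2 * κ.C) * ‖(H.sc (H.j0 + i) (H.st xyCritical i)).2 - (H.st xyCritical i).2.1 / Real.sqrt (κ.bs * κ.Hq)‖
        + |(H.kP (H.j0 + i) - κ.p (H.j0 + i)) * (yr H i / Real.sqrt (κ.bs * κ.Hq))| := by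
    rw [← Real.norm_eq_abs, ← Complex.norm_real, hD, ← Real.norm_eq_abs (_ * _), ← Complex.norm_real]
    refine (norm_add_le _ _).trans (add_le_add ((norm_add_le _ _).trans (add_le_add le_rfl ?_)) le_rfl)
    rw [norm_mul, Complex.norm_real, Real.norm_eq_abs]
    exact mul_le_mul_of_nonneg_right hKp (norm_nonneg _)
  have h3 : |(H.kP (H.j0 + i) - κ.p (H.j0 + i)) * (yr H i / Real.sqrt (κ.bs * κ.Hq))|
      ≤ κ.C / Real.sqrt (κ.bs * κ.Hq) * (errT κ κe s H (H.j0 + i) * |yr H i|) := by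
    rw [abs_mul, abs_div, abs_of_pos hq]
    have w1 : ((s : ℝ) / κ.n (H.j0 + i)) ^ 2 ≤ errT κ κe s H (H.j0 + i) := by
      have : ((s : ℝ) / κ.n (H.j0 + i)) ^ 2 ≤ (s : ℝ) / κ.n (H.j0 + i) := by
        rw [sq]
        exact mul_le_of_le_one_left a1 a2
      linarith
    have w2 : |H.kP (H.j0 + i) - κ.p (H.j0 + i)| ≤ κ.C * errT κ κe s H (H.j0 + i) :=
      hkP.trans (mul_le_mul_of_nonneg_left w1 hκC.le)
    refine (mul_le_mul_of_nonneg_right w2 (by positivity)).trans (le_of_eq ?_)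
    ring
  have e1' : ‖(H.st xyCritical i).1‖ = |xr H i| := ex
  have e2' : ‖(H.st xyCritical i).2.1‖ = |yr H i| := ey
  rw [e1', e2'] at hzr
  refine hn.trans ?_
  exact oc_arith (abs_nonneg _) (abs_nonneg _) (norm_nonneg _) (norm_nonneg _) (norm_nonneg _) (norm_nonneg _) g6 hC0
    (by positivity) (by positivity) (by positivity) (norm_nonneg _) hx1 hy1 he1 ho1 hE2 hPf hsum s2 hzr g5 h3

/-- **[F] (trj:common-variance), (trj:phase-on-curve)** before the window bounds are inserted; also reality -/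
theorem on_curve_at (κ : MapC) : ∃ C r : ℝ, 1 ≤ C ∧ 0 < r ∧
    ∀ (κe : EntC) (ρe : ℝ) (s : ℕ) (H : Hist) (i : ℕ), SysOK κ κe ρe s H → Valid κ κe s H (H.j0 + i) →
      (∀ i' ≤ i, ‖H.st xyCritical i'‖ < r ∧ ‖H.ts xyCritical (H.j0 + i) i'‖ < r) →
      H.x xyCritical i = (xr H i : ℂ) ∧ H.y xyCritical i = (yr H i : ℂ) ∧
      |H.cV (H.j0 + i) xyCritical - 1 / (Real.pi * (1 - xr H i / κ.bs))|
        ≤ C * (qe H i + dE H (H.j0 + i) i + (|yr H i| + qo H i + dO H (H.j0 + i) i) ^ 2 + errT κ κe s H (H.j0 + i)) ∧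
      |H.cP (H.j0 + i) xyCritical - κ.p (H.j0 + i) * yr H i / Real.sqrt (κ.bs * κ.Hq)|
        ≤ C * (qo H i + dO H (H.j0 + i) i
          + (errT κ κe s H (H.j0 + i) + |xr H i| + |yr H i| + qe H i + dE H (H.j0 + i) i) * |yr H i|) := by
  obtain ⟨C2, r2, hC2, hr2, hr2ρ, hT⟩ := fineT_of_coarse κ
  have hκC : 0 < κ.C := lt_of_lt_of_le zero_lt_one κ.hC
  have hC20 : 0 < C2 := by linarith
  have hbs := ft4_bs_pos κ
  have hq : 0 < Real.sqrt (κ.bs * κ.Hq) := Real.sqrt_pos.2 (mul_pos hbs κ.hH)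
  obtain ⟨CV, hCV⟩ : ∃ CV, CV = C2 ^ 2 + C2 ^ 3 + 3 * κ.C := ⟨_, rfl⟩
  obtain ⟨CP, hCP⟩ : ∃ CP, CP = C2 * (1 + 7 * ((2 * C2 + κ.C) * C2)) + (1 / Real.pi + 2 * κ.C) * C2 + κ.C / Real.sqrt (κ.bs * κ.Hq) :=
    ⟨_, rfl⟩
  have hCV0 : 0 ≤ CV := by rw [hCV]; positivity
  have hCP0 : 0 ≤ CP := by rw [hCP]; positivity
  refine ⟨1 + CV + CP, min (min r2 1) (min (min (r2 / C2) (r2 / κ.C)) (min (κ.bs / 2) (1 / κ.C))), by linarith,
    lt_min (lt_min hr2 one_pos) (lt_min (lt_min (by positivity) (by positivity)) (lt_min (by positivity) (by positivity))), ?_⟩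
  intro κe ρe s H i hS hv hin
  obtain ⟨δ, hδ⟩ : ∃ δ, δ = min (min r2 1) (min (min (r2 / C2) (r2 / κ.C)) (min (κ.bs / 2) (1 / κ.C))) := ⟨_, rfl⟩
  rw [← hδ] at hin
  have d2 : δ ≤ r2 := hδ.le.trans ((min_le_left _ _).trans (min_le_left _ _))
  have d3 : δ ≤ 1 := hδ.le.trans ((min_le_left _ _).trans (min_le_right _ _))
  have d4 : C2 * δ ≤ r2 := by
    have := hδ.le.trans ((min_le_right _ _).trans ((min_le_left _ _).trans (min_le_left _ _)))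
    rw [le_div_iff₀ hC20] at this
    linarith
  have d5 : κ.C * δ ≤ r2 := by
    have := hδ.le.trans ((min_le_right _ _).trans ((min_le_left _ _).trans (min_le_right _ _)))
    rw [le_div_iff₀ hκC] at this
    linarith
  have d7 : δ ≤ κ.bs / 2 := hδ.le.trans ((min_le_right _ _).trans ((min_le_right _ _).trans (min_le_left _ _)))
  have d6 : κ.C * δ ≤ 1 := by
    have := hδ.le.trans ((min_le_right _ _).trans ((min_le_right _ _).trans (min_le_right _ _)))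
    rw [le_div_iff₀ hκC] at this
    linarith
  have hTH := hT κe ρe s H hS
  obtain ⟨x0, y0⟩ := wo_real hS i (fun i' hi' => lt_of_lt_of_le (hin i' hi'.le).1 (d2.trans hr2ρ))
  have pV := oc_V hS hr2ρ hC2 hTH d2 d3 d4 d5 d7 i hv hin
  have pP := oc_P hS hr2ρ hC2 hTH d2 d3 d6 i hv hin
  rw [← hCV] at pV
  rw [← hCP] at pP
  obtain ⟨-, -, -, -, -, g6⟩ := oc_errT hS (Nat.le_add_right H.j0 i) (κe := κe)
  have he0 : 0 ≤ qe H i := norm_nonneg _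
  have ho0 : 0 ≤ qo H i := norm_nonneg _
  have hO0 : 0 ≤ dO H (H.j0 + i) i := norm_nonneg _
  have hE0 : 0 ≤ dE H (H.j0 + i) i := norm_nonneg _
  refine ⟨x0, y0, pV.trans (mul_le_mul_of_nonneg_right (by linarith) (by positivity)),
    pP.trans (mul_le_mul_of_nonneg_right (by linarith) (by positivity))⟩

/-- everything we know about one history on the window `a ≤ j ≤ b` of absolute indices, stops `≤ hm` -/
structure WinC (K : ℝ) (κ : MapC) (κe : EntC) (s : ℕ) (H : Hist) (a b hm : ℕ) : Prop where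
  ha : H.j0 ≤ a
  valid : ∀ j, a ≤ j → j ≤ b → Valid κ κe s H j
  real : ∀ j, a ≤ j → j ≤ b → H.x xyCritical (j - H.j0) = (xa H j : ℂ) ∧ H.y xyCritical (j - H.j0) = (ya H j : ℂ)
  x_small : ∀ j, a ≤ j → j ≤ b → |xa H j| ≤ κ.bs / 2 ∧ |xa H j| < κ.ρ
  y_pos : ∀ j, a ≤ j → j ≤ b → 0 < ya H j
  e_bd : ∀ j, a ≤ j → j ≤ b → ea H j ≤ K * ya H j ^ 2
  o_bd : ∀ j, a ≤ j → j ≤ b → oa H j ≤ K * (|xa H j| + ya H j) * ya H j
  E_bd : ∀ j h, a ≤ j → j ≤ b → j ≤ h → h ≤ hm → Ea H h j ≤ K * ya H j ^ 2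
  O_bd : ∀ j h, a ≤ j → j ≤ b → j ≤ h → h ≤ hm → Oa H h j ≤ K * (|xa H j| + ya H j) * ya H j
  err : ∀ j, a ≤ j → j ≤ b → errT κ κe s H j ≤ ya H j ^ 2
  ord_x : ∀ j, a ≤ j → j < b →
    |xa H (j + 1) - xa H j + ya H j ^ 2| ≤ K * ya H j ^ 2 * (1 / (j : ℝ) ^ 2 + |xa H j| + ya H j)
  ord_y : ∀ j, a ≤ j → j < b →
    |ya H (j + 1) - ya H j + xa H j * ya H j| ≤ K * ya H j * (|xa H j| / (j : ℝ) ^ 2 + xa H j ^ 2 + ya H j ^ 2)
  cV : ∀ j, a ≤ j → j ≤ b → |H.cV j xyCritical - 1 / (Real.pi * (1 - xa H j / κ.bs))| ≤ K * ya H j ^ 2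
  cP : ∀ j, a ≤ j → j ≤ b →
    |H.cP j xyCritical - κ.p j * ya H j / Real.sqrt (κ.bs * κ.Hq)| ≤ K * (|xa H j| + ya H j) * ya H j

theorem WinC.mono {K : ℝ} {κ : MapC} {κe : EntC} {s : ℕ} {H : Hist} {a a' b b' hm hm' : ℕ} (h : WinC K κ κe s H a b hm)
    (ha : a ≤ a') (hb : b' ≤ b) (hh : hm' ≤ hm) : WinC K κ κe s H a' b' hm' where
  ha := h.ha.trans ha
  valid j h1 h2 := h.valid j (ha.trans h1) (h2.trans hb)
  real j h1 h2 := h.real j (ha.trans h1) (h2.trans hb)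
  x_small j h1 h2 := h.x_small j (ha.trans h1) (h2.trans hb)
  y_pos j h1 h2 := h.y_pos j (ha.trans h1) (h2.trans hb)
  e_bd j h1 h2 := h.e_bd j (ha.trans h1) (h2.trans hb)
  o_bd j h1 h2 := h.o_bd j (ha.trans h1) (h2.trans hb)
  E_bd j h' h1 h2 h3 h4 := h.E_bd j h' (ha.trans h1) (h2.trans hb) h3 (h4.trans hh)
  O_bd j h' h1 h2 h3 h4 := h.O_bd j h' (ha.trans h1) (h2.trans hb) h3 (h4.trans hh)
  err j h1 h2 := h.err j (ha.trans h1) (h2.trans hb)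
  ord_x j h1 h2 := h.ord_x j (ha.trans h1) (lt_of_lt_of_le h2 hb)
  ord_y j h1 h2 := h.ord_y j (ha.trans h1) (lt_of_lt_of_le h2 hb)
  cV j h1 h2 := h.cV j (ha.trans h1) (h2.trans hb)
  cP j h1 h2 := h.cP j (ha.trans h1) (h2.trans hb)

/-! pure-real lemmas for `win_single` -/

/-- common consequences of the window bounds -/
theorem ws_basic {K0 X y e o : ℝ} (hK0 : 0 ≤ K0) (hX : 0 ≤ X) (hy0 : 0 ≤ y) (hXy : X + y ≤ 1)
    (he : e ≤ K0 * y ^ 2) (ho : o ≤ K0 * (X + y) * y) :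
    e ≤ K0 * y ∧ o ≤ K0 * y ∧ y ^ 2 ≤ y ∧ e ≤ K0 * (X + y) := by
  have hy1 : y ≤ 1 := by linarith
  have h1 : y ^ 2 ≤ y := by nlinarith
  have h2 : K0 * y ^ 2 ≤ K0 * y := mul_le_mul_of_nonneg_left h1 hK0
  have h3 : K0 * (X + y) * y ≤ K0 * y := by
    have : K0 * (X + y) * y = (K0 * y) * (X + y) := by ring
    rw [this]
    exact mul_le_of_le_one_right (by positivity) hXy
  have h4 : K0 * y ≤ K0 * (X + y) := mul_le_mul_of_nonneg_left (by linarith) hK0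
  exact ⟨he.trans h2, ho.trans h3, h1, (he.trans h2).trans h4⟩

theorem ws_ordx {C1 K0 X y e o J : ℝ} (hC1 : 0 ≤ C1) (hK0 : 0 ≤ K0) (hX : 0 ≤ X) (hy0 : 0 ≤ y) (hXy : X + y ≤ 1)
    (he0 : 0 ≤ e) (he : e ≤ K0 * y ^ 2) (ho0 : 0 ≤ o) (ho : o ≤ K0 * (X + y) * y) (hJ : 0 ≤ J) :
    C1 * (y ^ 2 * J + (X + y + e) * (y ^ 2 + e) + o * (y + o)) ≤ C1 * (1 + 2 * K0) ^ 2 * y ^ 2 * (J + X + y) := by
  obtain ⟨b1, b2, b3, b4⟩ := ws_basic hK0 hX hy0 hXy he ho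
  have hS : 0 ≤ X + y := by linarith
  have hy2 : 0 ≤ y ^ 2 := by positivity
  have a1 : (X + y + e) * (y ^ 2 + e) ≤ ((1 + K0) * (X + y)) * ((1 + K0) * y ^ 2) :=
    mul_le_mul (by linarith) (by linarith) (by positivity) (by positivity)
  have a2 : o * (y + o) ≤ (K0 * (X + y) * y) * ((1 + K0) * y) :=
    mul_le_mul ho (by linarith) (by positivity) (by positivity)
  have a3 : y ^ 2 * J + (X + y + e) * (y ^ 2 + e) + o * (y + o) ≤ (1 + 2 * K0) ^ 2 * y ^ 2 * (J + X + y) := by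
    have e1 : ((1 + K0) * (X + y)) * ((1 + K0) * y ^ 2) + (K0 * (X + y) * y) * ((1 + K0) * y)
        = (1 + K0) * (1 + 2 * K0) * (y ^ 2 * (X + y)) := by ring
    have e2 : (1 + K0) * (1 + 2 * K0) * (y ^ 2 * (X + y)) ≤ (1 + 2 * K0) ^ 2 * (y ^ 2 * (X + y)) := by
      apply mul_le_mul_of_nonneg_right _ (by positivity)
      nlinarith
    have e3 : y ^ 2 * J ≤ (1 + 2 * K0) ^ 2 * (y ^ 2 * J) := by
      apply le_mul_of_one_le_left (by positivity)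
      nlinarith
    nlinarith
  calc C1 * (y ^ 2 * J + (X + y + e) * (y ^ 2 + e) + o * (y + o)) ≤ C1 * ((1 + 2 * K0) ^ 2 * y ^ 2 * (J + X + y)) :=
        mul_le_mul_of_nonneg_left a3 hC1
    _ = _ := by ring

theorem ws_ordy {C1 K0 X y e o J : ℝ} (hC1 : 0 ≤ C1) (hK0 : 0 ≤ K0) (hX : 0 ≤ X) (hy0 : 0 ≤ y) (hXy : X + y ≤ 1)
    (he0 : 0 ≤ e) (he : e ≤ K0 * y ^ 2) (ho0 : 0 ≤ o) (ho : o ≤ K0 * (X + y) * y) (hJ : 0 ≤ J) :
    C1 * (X * y * J + (X ^ 2 + y ^ 2 + e) * y + (X + y + e + o) * o) ≤ C1 * (1 + 2 * K0) ^ 2 * y * (X * J + X ^ 2 + y ^ 2) := by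
  obtain ⟨b1, b2, b3, b4⟩ := ws_basic hK0 hX hy0 hXy he ho
  have hS : 0 ≤ X + y := by linarith
  have hq : 0 ≤ X ^ 2 + y ^ 2 := by positivity
  have a1 : (X ^ 2 + y ^ 2 + e) * y ≤ ((1 + K0) * (X ^ 2 + y ^ 2)) * y := by
    apply mul_le_mul_of_nonneg_right _ hy0
    have : K0 * y ^ 2 ≤ K0 * (X ^ 2 + y ^ 2) := mul_le_mul_of_nonneg_left (by nlinarith) hK0
    linarith
  have a2 : (X + y + e + o) * o ≤ ((1 + 2 * K0) * (X + y)) * (K0 * (X + y) * y) := by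
    apply mul_le_mul _ ho ho0 (by positivity)
    have : K0 * y ≤ K0 * (X + y) := mul_le_mul_of_nonneg_left (by linarith) hK0
    linarith
  have a3 : (X + y) ^ 2 ≤ 2 * (X ^ 2 + y ^ 2) := by nlinarith [sq_nonneg (X - y)]
  have a4 : ((1 + 2 * K0) * (X + y)) * (K0 * (X + y) * y) ≤ (1 + 2 * K0) * K0 * (2 * (X ^ 2 + y ^ 2)) * y := by
    have : ((1 + 2 * K0) * (X + y)) * (K0 * (X + y) * y) = (1 + 2 * K0) * K0 * (X + y) ^ 2 * y := by ring
    rw [this]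
    gcongr
  have a5 : X * y * J + (X ^ 2 + y ^ 2 + e) * y + (X + y + e + o) * o ≤ (1 + 2 * K0) ^ 2 * y * (X * J + X ^ 2 + y ^ 2) := by
    have e1 : ((1 + K0) * (X ^ 2 + y ^ 2)) * y + (1 + 2 * K0) * K0 * (2 * (X ^ 2 + y ^ 2)) * y
        = ((1 + K0) + 2 * K0 * (1 + 2 * K0)) * (y * (X ^ 2 + y ^ 2)) := by ring
    have e2 : ((1 + K0) + 2 * K0 * (1 + 2 * K0)) * (y * (X ^ 2 + y ^ 2)) ≤ (1 + 2 * K0) ^ 2 * (y * (X ^ 2 + y ^ 2)) := by
      apply mul_le_mul_of_nonneg_right _ (by positivity)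
      nlinarith
    have e3 : X * y * J ≤ (1 + 2 * K0) ^ 2 * (X * y * J) := by
      apply le_mul_of_one_le_left (by positivity)
      nlinarith
    nlinarith
  calc C1 * (X * y * J + (X ^ 2 + y ^ 2 + e) * y + (X + y + e + o) * o) ≤ C1 * ((1 + 2 * K0) ^ 2 * y * (X * J + X ^ 2 + y ^ 2)) :=
        mul_le_mul_of_nonneg_left a5 hC1
    _ = _ := by ring

theorem ws_cV {C2 K0 X y e o E O t : ℝ} (hC2 : 0 ≤ C2) (hK0 : 0 ≤ K0) (hX : 0 ≤ X) (hy0 : 0 ≤ y) (hXy : X + y ≤ 1)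
    (he : e ≤ K0 * y ^ 2) (ho0 : 0 ≤ o) (ho : o ≤ K0 * (X + y) * y) (hE : E ≤ K0 * y ^ 2) (hO0 : 0 ≤ O) (hO : O ≤ K0 * (X + y) * y)
    (ht : t ≤ y ^ 2) :
    C2 * (e + E + (y + o + O) ^ 2 + t) ≤ 2 * C2 * (1 + 2 * K0) ^ 2 * y ^ 2 := by
  obtain ⟨b1, b2, b3, b4⟩ := ws_basic hK0 hX hy0 hXy he ho
  obtain ⟨_, b2', _, _⟩ := ws_basic hK0 hX hy0 hXy he hO
  have a1 : (y + o + O) ^ 2 ≤ ((1 + 2 * K0) * y) ^ 2 := pow_le_pow_left₀ (by positivity) (by linarith) 2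
  have a2 : e + E + (y + o + O) ^ 2 + t ≤ 2 * (1 + 2 * K0) ^ 2 * y ^ 2 := by
    have hy2 : 0 ≤ y ^ 2 := by positivity
    have e1 : ((1 + 2 * K0) * y) ^ 2 = (1 + 2 * K0) ^ 2 * y ^ 2 := by ring
    have e2 : (1 + 2 * K0) * y ^ 2 ≤ (1 + 2 * K0) ^ 2 * y ^ 2 := by
      apply mul_le_mul_of_nonneg_right _ hy2
      nlinarith
    nlinarith
  calc C2 * (e + E + (y + o + O) ^ 2 + t) ≤ C2 * (2 * (1 + 2 * K0) ^ 2 * y ^ 2) := mul_le_mul_of_nonneg_left a2 hC2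
    _ = _ := by ring

theorem ws_cP {C2 K0 X y e o E O t : ℝ} (hC2 : 0 ≤ C2) (hK0 : 0 ≤ K0) (hX : 0 ≤ X) (hy0 : 0 ≤ y) (hXy : X + y ≤ 1)
    (he : e ≤ K0 * y ^ 2) (ho : o ≤ K0 * (X + y) * y) (hE : E ≤ K0 * y ^ 2) (hO : O ≤ K0 * (X + y) * y)
    (ht : t ≤ y ^ 2) :
    C2 * (o + O + (t + X + y + e + E) * y) ≤ 2 * C2 * (1 + 2 * K0) * ((X + y) * y) := by
  obtain ⟨b1, b2, b3, b4⟩ := ws_basic hK0 hX hy0 hXy he ho
  obtain ⟨b1', _, _, b4'⟩ := ws_basic hK0 hX hy0 hXy hE ho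
  have a1 : (t + X + y + e + E) * y ≤ ((2 + 2 * K0) * (X + y)) * y := by
    apply mul_le_mul_of_nonneg_right _ hy0
    nlinarith
  have a2 : o + O + (t + X + y + e + E) * y ≤ 2 * (1 + 2 * K0) * ((X + y) * y) := by nlinarith
  calc C2 * (o + O + (t + X + y + e + E) * y) ≤ C2 * (2 * (1 + 2 * K0) * ((X + y) * y)) := mul_le_mul_of_nonneg_left a2 hC2
    _ = _ := by ring

theorem ws_sign {cP p y S K' X c r : ℝ} (h : |cP - p * y / S| ≤ K' * ((X + |y|) * |y|)) (hπ : 0 < cP) (hp : c ≤ p) (hS : 0 < S)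
    (hXy : X + |y| ≤ 4 * r) (hr : K' * (4 * r) < c / S) (hy : y ≠ 0) (hK' : 0 ≤ K') : 0 < y := by
  by_contra hcon
  have hy' : y < 0 := lt_of_le_of_ne (not_lt.mp hcon) hy
  have habs : |y| = -y := abs_of_neg hy'
  obtain ⟨Y, hY⟩ : ∃ Y : ℝ, Y = -y := ⟨_, rfl⟩
  have hY0 : 0 < Y := by linarith
  rw [habs, ← hY] at h hXy
  have hyY : y = -Y := by linarith
  have h1 := (abs_le.mp h).2
  have h2 : p * y / S = -(p / S * Y) := by rw [hyY]; ring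
  have h3 : c / S * Y ≤ p / S * Y := by gcongr
  have h4 : K' * ((X + Y) * Y) ≤ K' * (4 * r) * Y := by
    have : K' * ((X + Y) * Y) = K' * (X + Y) * Y := by ring
    rw [this]
    gcongr
  have h5 : K' * (4 * r) * Y < c / S * Y := mul_lt_mul_of_pos_right hr hY0
  rw [h2] at h1
  linarith

set_option maxHeartbeats 1000000 in
/-- **[F] L5.6 + (trj:moving-torus) + (trj:common-variance), (trj:phase-on-curve) + sign of `Z`**, for ONE history, deterministic: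
`π` = lower bound of the cutoff phase on `[a, b]`; `ℓ` = length of the four burn-in stretches. -/
theorem win_single (κ : MapC) : ∃ K r c0 : ℝ, 1 ≤ K ∧ 0 < r ∧ 0 < c0 ∧
    ∀ (κe : EntC) (ρe : ℝ) (s : ℕ) (H : Hist) (a ℓ b hm : ℕ) (π : ℝ), SysOK κ κe ρe s H → H.j0 ≤ a → b ≤ hm →
      Tube H r b hm → (∀ h, a ≤ h → h ≤ b → Valid κ κe s H h) → 0 < π → π ≤ 1 →
      (∀ h, a ≤ h → h ≤ b → π ≤ H.cP h xyCritical) → ((3 + (1 + κ.θ) / 2) / 4) ^ ℓ ≤ c0 * π ^ 3 →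
      (∀ j, a + 4 * ℓ ≤ j → j ≤ b → errT κ κe s H j ≤ (c0 * π) ^ 2) →
      WinC K κ κe s H (a + 4 * ℓ) b hm := by
  obtain ⟨C1, r1, hC1, hr1, hwin⟩ := win_of κ
  have hθ0 := κ.hθ0
  have hθ1 := κ.hθ
  obtain ⟨δ0, K0, c0, hδ0, hK0, hc0, hmaster⟩ := win_master C1 ((1 + κ.θ) / 2) hC1 (by linarith) (by linarith)
  obtain ⟨C2, r2, hC2, hr2, hcurve⟩ := on_curve_at κ
  have hbs := br_bs_pos κ
  obtain ⟨S, hSdef⟩ : ∃ S : ℝ, S = Real.sqrt (κ.bs * κ.Hq) := ⟨_, rfl⟩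
  have hS : 0 < S := by rw [hSdef]; exact Real.sqrt_pos.mpr (mul_pos hbs κ.hH)
  obtain ⟨M, hM⟩ : ∃ M : ℝ, M = 1 + 2 * K0 := ⟨_, rfl⟩
  have hM1 : 1 ≤ M := by rw [hM]; linarith
  obtain ⟨K', hK'⟩ : ∃ K' : ℝ, K' = 2 * C2 * M := ⟨_, rfl⟩
  have hK'0 : 0 < K' := by rw [hK']; positivity
  obtain ⟨K, hK⟩ : ∃ K : ℝ, K = 4 * (C1 + C2) * M ^ 2 := ⟨_, rfl⟩
  have hM2 : M ≤ M ^ 2 := by nlinarith
  have hKK0 : K0 ≤ K := by
    rw [hK]
    have : 1 * M ≤ 4 * (C1 + C2) * M ^ 2 := by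
      have : (1 : ℝ) ≤ 4 * (C1 + C2) := by linarith
      nlinarith
    rw [hM] at this ⊢
    linarith
  have hK1 : 1 ≤ K := hK0.trans hKK0
  have hKC1 : C1 * M ^ 2 ≤ K := by
    rw [hK]
    have : 0 ≤ M ^ 2 := by positivity
    nlinarith
  have hKC2 : 2 * C2 * M ^ 2 ≤ K := by
    rw [hK]
    have : 0 ≤ M ^ 2 := by positivity
    nlinarith
  have hKK' : K' ≤ K := by
    rw [hK']
    refine le_trans ?_ hKC2
    have : 0 ≤ 2 * C2 := by linarith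
    nlinarith
  have hκc := κ.hc
  have hκρ := κ.hρ
  obtain ⟨r, hr⟩ : ∃ r : ℝ, r = min (min (min r1 (δ0 / 2)) (min r2 (κ.bs / 4))) (min (min (κ.ρ / 4) (1 / 8)) (κ.c / S / (8 * K'))) := ⟨_, rfl⟩
  have hr0 : 0 < r := by
    rw [hr]
    refine lt_min (lt_min (lt_min hr1 (by positivity)) (lt_min hr2 (by positivity))) (lt_min (lt_min (by positivity) (by norm_num)) (by positivity))
  have hrr1 : r ≤ r1 := by rw [hr]; exact ((min_le_left _ _).trans (min_le_left _ _)).trans (min_le_left _ _)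
  have hrδ : r ≤ δ0 / 2 := by rw [hr]; exact ((min_le_left _ _).trans (min_le_left _ _)).trans (min_le_right _ _)
  have hrr2 : r ≤ r2 := by rw [hr]; exact ((min_le_left _ _).trans (min_le_right _ _)).trans (min_le_left _ _)
  have hrbs : r ≤ κ.bs / 4 := by rw [hr]; exact ((min_le_left _ _).trans (min_le_right _ _)).trans (min_le_right _ _)
  have hrρ : r ≤ κ.ρ / 4 := by rw [hr]; exact ((min_le_right _ _).trans (min_le_left _ _)).trans (min_le_left _ _)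
  have hr8 : r ≤ 1 / 8 := by rw [hr]; exact ((min_le_right _ _).trans (min_le_left _ _)).trans (min_le_right _ _)
  have hrc : r ≤ κ.c / S / (8 * K') := by rw [hr]; exact (min_le_right _ _).trans (min_le_right _ _)
  have hrc' : K' * (4 * r) < κ.c / S := by
    have h1 : r * (8 * K') ≤ κ.c / S := by rwa [le_div_iff₀ (by positivity)] at hrc
    have h2 : 0 < κ.c / S := by positivity
    nlinarith
  refine ⟨K, r, c0, hK1, hr0, hc0, ?_⟩
  intro κe ρe s H a ℓ b hm π hsys ha hbm htube hvalid hπ0 hπ1 hP hℓ herr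
  have hW := hwin κe ρe s H a b hm r hsys ha hbm hrr1 htube hvalid
  have hmast := hmaster (2 * r) π a ℓ b hm _ _ _ _ _ _ _ hW (by linarith) hπ0 hπ1
    (fun h h1 h2 => (hP h h1 h2).trans (le_abs_self _)) hℓ
  -- the facts at one index
  have key : ∀ j, a + 4 * ℓ ≤ j → j ≤ b →
      (H.x xyCritical (j - H.j0) = (xa H j : ℂ) ∧ H.y xyCritical (j - H.j0) = (ya H j : ℂ)) ∧ 0 < ya H j ∧
      |xa H j| + ya H j ≤ 4 * r ∧ errT κ κe s H j ≤ ya H j ^ 2 ∧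
      |H.cV j xyCritical - 1 / (Real.pi * (1 - xa H j / κ.bs))| ≤ K * ya H j ^ 2 ∧
      |H.cP j xyCritical - κ.p j * ya H j / Real.sqrt (κ.bs * κ.Hq)| ≤ K * (|xa H j| + ya H j) * ya H j := by
    intro j hj1 hj2
    have hja : a ≤ j := by omega
    have hij : H.j0 + (j - H.j0) = j := by omega
    obtain ⟨m1, m2, m3, _, m5⟩ := hmast j hj1 hj2
    obtain ⟨m5E, m5O⟩ := m5 j le_rfl (hj2.trans hbm)
    obtain ⟨t1, t2, _, _⟩ := hW.tube j hja hj2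
    have hc := hcurve κe ρe s H (j - H.j0) hsys (by rw [hij]; exact hvalid j hja hj2) (by
      intro i' hi'
      have h1 := htube i' (by omega)
      exact ⟨lt_of_lt_of_le h1.1 hrr2, lt_of_lt_of_le (h1.2 _ (by omega) (by omega)) hrr2⟩)
    rw [hij] at hc
    obtain ⟨c1, c2, c3', c4'⟩ := hc
    have c3 : |H.cV j xyCritical - 1 / (Real.pi * (1 - xa H j / κ.bs))|
        ≤ C2 * (ea H j + Ea H j j + (|ya H j| + oa H j + Oa H j j) ^ 2 + errT κ κe s H j) := c3'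
    have c4 : |H.cP j xyCritical - κ.p j * ya H j / Real.sqrt (κ.bs * κ.Hq)|
        ≤ C2 * (oa H j + Oa H j j + (errT κ κe s H j + |xa H j| + |ya H j| + ea H j + Ea H j j) * |ya H j|) := c4'
    have hXY : |xa H j| + |ya H j| ≤ 4 * r := by linarith
    have hXY1 : |xa H j| + |ya H j| ≤ 1 := by linarith
    have hY0 : 0 < |ya H j| := lt_of_lt_of_le (by positivity) m1
    have herrj : errT κ κe s H j ≤ |ya H j| ^ 2 := (herr j hj1 hj2).trans (pow_le_pow_left₀ (by positivity) m1 2)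
    have m2' : ea H j ≤ K0 * |ya H j| ^ 2 := by rw [sq_abs]; exact m2
    have m5E' : Ea H j j ≤ K0 * |ya H j| ^ 2 := by rw [sq_abs]; exact m5E
    have hcP := c4.trans (ws_cP (by linarith) (by linarith) (abs_nonneg _) (abs_nonneg _) hXY1 m2' m3 m5E' m5O herrj)
    rw [← hM, ← hK', ← hSdef] at hcP
    have hypos : 0 < ya H j := ws_sign hcP (lt_of_lt_of_le hπ0 (hP j hja hj2)) (κ.hp j).1 hS hXY hrc' (abs_pos.mp hY0) hK'0.le
    have hyabs : |ya H j| = ya H j := abs_of_pos hypos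
    rw [hyabs] at hXY hXY1 herrj m2' m5E' m3 m5O hcP
    refine ⟨⟨c1, c2⟩, hypos, hXY, herrj, ?_, ?_⟩
    · rw [hyabs] at c3
      refine (c3.trans (ws_cV (by linarith) (by linarith) (abs_nonneg _) hypos.le hXY1 m2' (hW.o0 j) m3 m5E' (hW.O0 j j) m5O herrj)).trans ?_
      rw [← hM]
      exact mul_le_mul_of_nonneg_right hKC2 (by positivity)
    · rw [← hSdef]
      refine hcP.trans ?_
      rw [mul_assoc K]
      exact mul_le_mul_of_nonneg_right hKK' (by positivity)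
  exact
    { ha := by omega
      valid := fun j h1 h2 => hvalid j (by omega) h2
      real := fun j h1 h2 => (key j h1 h2).1
      x_small := fun j h1 h2 => by
        have := (hW.tube j (by omega) h2).1
        exact ⟨by linarith, by linarith⟩
      y_pos := fun j h1 h2 => (key j h1 h2).2.1
      e_bd := fun j h1 h2 => (hmast j h1 h2).2.1.trans (mul_le_mul_of_nonneg_right hKK0 (by positivity))
      o_bd := fun j h1 h2 => by
        have hy := (key j h1 h2).2.1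
        have h3 := (hmast j h1 h2).2.2.1
        rw [abs_of_pos hy] at h3
        refine h3.trans ?_
        rw [mul_assoc, mul_assoc]
        exact mul_le_mul_of_nonneg_right hKK0 (by positivity)
      E_bd := fun j h h1 h2 h3 h4 => ((hmast j h1 h2).2.2.2.2 h h3 h4).1.trans (mul_le_mul_of_nonneg_right hKK0 (by positivity))
      O_bd := fun j h h1 h2 h3 h4 => by
        have hy := (key j h1 h2).2.1
        have h5 := ((hmast j h1 h2).2.2.2.2 h h3 h4).2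
        rw [abs_of_pos hy] at h5
        refine h5.trans ?_
        rw [mul_assoc, mul_assoc]
        exact mul_le_mul_of_nonneg_right hKK0 (by positivity)
      err := fun j h1 h2 => (key j h1 h2).2.2.2.1
      ord_x := fun j h1 h2 => by
        obtain ⟨_, hy, hXY, _, _, _⟩ := key j h1 h2.le
        obtain ⟨_, m2, m3, _, _⟩ := hmast j h1 h2.le
        have hu := hW.u_map j (by omega) h2
        rw [abs_of_pos hy] at m3 hu
        rw [div_eq_mul_one_div (ya H j ^ 2)] at hu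
        refine (hu.trans (ws_ordx (by linarith) (by linarith) (abs_nonneg _) hy.le (by linarith) (hW.e0 j) m2 (hW.o0 j) m3 (by positivity))).trans ?_
        rw [← hM, mul_assoc (C1 * M ^ 2), mul_assoc K]
        exact mul_le_mul_of_nonneg_right hKC1 (by positivity)
      ord_y := fun j h1 h2 => by
        obtain ⟨_, hy, hXY, _, _, _⟩ := key j h1 h2.le
        obtain ⟨_, m2, m3, _, _⟩ := hmast j h1 h2.le
        have hz := hW.z_map j (by omega) h2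
        rw [abs_of_pos hy] at m3 hz
        rw [div_eq_mul_one_div (|xa H j| * ya H j), ← sq_abs (xa H j)] at hz
        refine (hz.trans (ws_ordy (by linarith) (by linarith) (abs_nonneg _) hy.le (by linarith) (hW.e0 j) m2 (hW.o0 j) m3 (by positivity))).trans ?_
        rw [← hM, mul_assoc (C1 * M ^ 2), mul_assoc K, sq_abs, div_eq_mul_one_div (|xa H j|)]
        exact mul_le_mul_of_nonneg_right hKC1 (by positivity)
      cV := fun j h1 h2 => (key j h1 h2).2.2.2.2.1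
      cP := fun j h1 h2 => (key j h1 h2).2.2.2.2.2 }

/-- one history against the physical torus on its window -/
theorem ov_one {κ : MapC} {κe : EntC} {ρe K : ℝ} {s : ℕ} {H : Hist} {a b hm j : ℕ} (hS : SysOK κ κe ρe s H)
    (hW : WinC K κ κe s H a b hm) (h1 : a ≤ j) (h2 : j ≤ b) :
    |torVar xyCritical (κ.n j) - H.cV j xyCritical| ≤ κ.C * ya H j ^ 2 ∧
      |torPhase xyCritical (κ.n j) - H.cP j xyCritical| ≤ ya H j ^ 2 := by
  have hV := hW.valid j h1 h2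
  have hb := br_crit_mem hS.entry
  have c1 := hS.read.cmpV' xyCritical j hb hV
  have c2 := hS.read.cmpP xyCritical j hb hV
  have herr := hW.err j h1 h2
  obtain ⟨r1, -, r0, -⟩ := br_ratio (br_side_pos hS.entry) κe.hP hV.2.1
  have hC := κ.hC
  have hP0 : (1 : ℝ) ≤ κe.P0 := by exact_mod_cast κe.hP
  obtain ⟨x, hx⟩ : ∃ x : ℝ, x = (s : ℝ) / κ.n j := ⟨_, rfl⟩
  rw [← hx] at r1 r0 c1
  have hx1 : x ≤ 1 := r1.trans (by rw [div_le_one (by linarith)]; exact hP0)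
  have hx4 : x ^ 4 ≤ x := by
    calc x ^ 4 = x ^ 3 * x := by ring
      _ ≤ 1 * x := mul_le_mul_of_nonneg_right (pow_le_one₀ r0 hx1) r0
      _ = x := one_mul x
  have hcut0 : 0 ≤ cutErr κ κe s j := by
    unfold cutErr
    have h1 : 0 ≤ κe.C := by linarith [κe.hC]
    have h2 : 0 ≤ (κ.n j : ℝ) ^ κe.C := Real.rpow_nonneg (Nat.cast_nonneg _) _
    have h3 := (Real.exp_pos (-κe.c * (s : ℝ) ^ 2)).le
    positivity
  have hlow : x + cutErr κ κe s j ≤ errT κ κe s H j := by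
    unfold errT
    rw [← hx]
    have p2 : 0 ≤ 1 / (κ.n j : ℝ) ^ 2 := by positivity
    have p3 : 0 ≤ ((κ.L : ℝ) ^ H.j0 / κ.n j) ^ 2 := by positivity
    have p4 : 0 ≤ Real.exp (-κ.c * j) := (Real.exp_pos _).le
    linarith
  constructor
  · calc _ ≤ κ.C * x ^ 4 + cutErr κ κe s j := c1
      _ ≤ κ.C * x + κ.C * cutErr κ κe s j :=
        add_le_add (mul_le_mul_of_nonneg_left hx4 (by linarith)) (le_mul_of_one_le_left hcut0 hC)
      _ = κ.C * (x + cutErr κ κe s j) := by ring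
      _ ≤ κ.C * ya H j ^ 2 := mul_le_mul_of_nonneg_left (hlow.trans herr) (by linarith)
  · exact c2.trans (by linarith)

/-- inversion of `u ↦ 1/(π(1-u))` on `|u| ≤ 1/2` -/
theorem ov_inv {bs x x' D : ℝ} (hbs : 0 < bs) (hx : |x| ≤ bs / 2) (hx' : |x'| ≤ bs / 2)
    (h : |1 / (Real.pi * (1 - x / bs)) - 1 / (Real.pi * (1 - x' / bs))| ≤ D) :
    |x - x'| ≤ bs * (9 * Real.pi / 4) * D := by
  have hπ := Real.pi_pos
  obtain ⟨u, hu⟩ : ∃ u : ℝ, u = x / bs := ⟨_, rfl⟩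
  obtain ⟨u', hu'⟩ : ∃ u' : ℝ, u' = x' / bs := ⟨_, rfl⟩
  rw [← hu, ← hu'] at h
  have hub : |u| ≤ 1 / 2 := by
    rw [hu, abs_div, abs_of_pos hbs, div_le_iff₀ hbs]; linarith
  have hub' : |u'| ≤ 1 / 2 := by
    rw [hu', abs_div, abs_of_pos hbs, div_le_iff₀ hbs]; linarith
  obtain ⟨l1, l2⟩ := abs_le.1 hub
  obtain ⟨l1', l2'⟩ := abs_le.1 hub'
  have w0 : 0 < 1 - u := by linarith
  have w0' : 0 < 1 - u' := by linarith
  have hD0 : 0 ≤ D := (abs_nonneg _).trans h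
  have e : u - u' = (1 / (Real.pi * (1 - u)) - 1 / (Real.pi * (1 - u'))) * (Real.pi * ((1 - u) * (1 - u'))) := by
    field_simp
    ring
  have hww : (1 - u) * (1 - u') ≤ 9 / 4 := by nlinarith
  have huu : |u - u'| ≤ D * (Real.pi * (9 / 4)) := by
    rw [e, abs_mul, abs_of_pos (show 0 < Real.pi * ((1 - u) * (1 - u')) by positivity)]
    exact mul_le_mul h (mul_le_mul_of_nonneg_left hww hπ.le) (by positivity) hD0
  have e2 : x - x' = bs * (u - u') := by rw [hu, hu']; field_simp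
  rw [e2, abs_mul, abs_of_pos hbs]
  calc bs * |u - u'| ≤ bs * (D * (Real.pi * (9 / 4))) := mul_le_mul_of_nonneg_left huu hbs.le
    _ = _ := by ring

/-- four-term triangle inequality -/
theorem ov_tri {cA cB t fA fB e1 e2 e3 e4 : ℝ} (h1 : |cA - fA| ≤ e1) (h2 : |t - cA| ≤ e2) (h3 : |t - cB| ≤ e3)
    (h4 : |cB - fB| ≤ e4) : |fA - fB| ≤ e1 + e2 + e3 + e4 := by
  rw [abs_le] at h1 h2 h3 h4 ⊢
  constructor <;> linarith [h1.1, h1.2, h2.1, h2.2, h3.1, h3.2, h4.1, h4.2]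

/-- the phase part in real variables -/
theorem ov_phase {p c st K x x' y y' : ℝ} (hc : 0 < c) (hp : c ≤ p) (hst0 : 0 < st) (hy : 0 < y) (hy' : 0 < y')
    (hD : |p * y / st - p * y' / st| ≤ K * (|x| + y) * y + y ^ 2 + y' ^ 2 + K * (|x'| + y') * y') :
    |y - y'| ≤ st / c * (K + 1) * ((|x| + y) * y + (|x'| + y') * y') := by
  have hp0 : 0 < p := lt_of_lt_of_le hc hp
  have q1 : y ^ 2 ≤ (|x| + y) * y := by nlinarith [abs_nonneg x]
  have q2 : y' ^ 2 ≤ (|x'| + y') * y' := by nlinarith [abs_nonneg x']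
  have hD' : |p * y / st - p * y' / st| ≤ (K + 1) * ((|x| + y) * y + (|x'| + y') * y') := by
    refine hD.trans (le_of_sub_nonneg ?_)
    have : (K + 1) * ((|x| + y) * y + (|x'| + y') * y') - (K * (|x| + y) * y + y ^ 2 + y' ^ 2 + K * (|x'| + y') * y')
        = ((|x| + y) * y - y ^ 2) + ((|x'| + y') * y' - y' ^ 2) := by ring
    rw [this]
    linarith
  have e2 : p * y / st - p * y' / st = p / st * (y - y') := by ring
  rw [e2, abs_mul, abs_of_pos (show 0 < p / st by positivity)] at hD'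
  have h3 : c / st * |y - y'| ≤ p / st * |y - y'| :=
    mul_le_mul_of_nonneg_right (div_le_div_of_nonneg_right hp hst0.le) (abs_nonneg _)
  have h5 := h3.trans hD'
  have e3 : |y - y'| = st / c * (c / st * |y - y'|) := by field_simp
  rw [e3, mul_assoc]
  exact mul_le_mul_of_nonneg_left h5 (by positivity)

/-- **[F] L5.7** (comparison of two histories at a common index) -/
theorem overlap_at (κ : MapC) (K : ℝ) (hK : 1 ≤ K) : ∃ C : ℝ, 1 ≤ C ∧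
    ∀ (κe : EntC) (ρe : ℝ) (s s' : ℕ) (H H' : Hist) (a b hm a' b' hm' j : ℕ),
      SysOK κ κe ρe s H → SysOK κ κe ρe s' H' → WinC K κ κe s H a b hm → WinC K κ κe s' H' a' b' hm' →
      a ≤ j → j ≤ b → a' ≤ j → j ≤ b' →
      |xa H j - xa H' j| ≤ C * (ya H j ^ 2 + ya H' j ^ 2) ∧
      |ya H j - ya H' j| ≤ C * ((|xa H j| + ya H j) * ya H j + (|xa H' j| + ya H' j) * ya H' j) := by
  have hbs := br_bs_pos κ
  have hπ := Real.pi_pos
  have hC := κ.hC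
  have hc := κ.hc
  obtain ⟨st, hst⟩ : ∃ st : ℝ, st = Real.sqrt (κ.bs * κ.Hq) := ⟨_, rfl⟩
  have hst0 : 0 < st := hst ▸ Real.sqrt_pos.mpr (mul_pos hbs κ.hH)
  have hA0 : 0 ≤ κ.bs * (9 * Real.pi / 4) * (K + κ.C) := by
    have : 0 ≤ K + κ.C := by linarith
    positivity
  have hB0 : 0 ≤ st / κ.c * (K + 1) := by
    have : 0 ≤ K + 1 := by linarith
    positivity
  refine ⟨1 + κ.bs * (9 * Real.pi / 4) * (K + κ.C) + st / κ.c * (K + 1), by linarith, ?_⟩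
  intro κe ρe s s' H H' a b hm a' b' hm' j hS hS' hW hW' h1 h2 h1' h2'
  obtain ⟨v1, p1⟩ := ov_one hS hW h1 h2
  obtain ⟨v2, p2⟩ := ov_one hS' hW' h1' h2'
  have cV1 := hW.cV j h1 h2
  have cV2 := hW'.cV j h1' h2'
  have cP1 := hW.cP j h1 h2
  have cP2 := hW'.cP j h1' h2'
  have hy := hW.y_pos j h1 h2
  have hy' := hW'.y_pos j h1' h2'
  have hxs := (hW.x_small j h1 h2).1
  have hxs' := (hW'.x_small j h1' h2').1
  rw [← hst] at cP1 cP2
  have hS2 : 0 ≤ ya H j ^ 2 + ya H' j ^ 2 := by positivity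
  have hT0 : 0 ≤ (|xa H j| + ya H j) * ya H j + (|xa H' j| + ya H' j) * ya H' j := by positivity
  constructor
  · have hD := ov_tri cV1 v1 v2 cV2
    refine (ov_inv hbs hxs hxs' hD).trans ?_
    have : κ.bs * (9 * Real.pi / 4) * (K * ya H j ^ 2 + κ.C * ya H j ^ 2 + κ.C * ya H' j ^ 2 + K * ya H' j ^ 2)
        = κ.bs * (9 * Real.pi / 4) * (K + κ.C) * (ya H j ^ 2 + ya H' j ^ 2) := by ring
    rw [this]
    exact mul_le_mul_of_nonneg_right (by linarith) hS2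
  · have hD := ov_tri cP1 p1 p2 cP2
    refine (ov_phase hc (κ.hp j).1 hst0 hy hy' hD).trans ?_
    exact mul_le_mul_of_nonneg_right (by linarith) hT0

theorem win_arith (r0 c0 cE c : ℝ) (hr0 : 0 < r0) (hr1 : r0 < 1) (hc0 : 0 < c0) (hcE : 0 < cE) (hc : 0 < c) :
    ∃ η : ℝ, 0 < η ∧ ∀ᶠ k : ℕ in atTop,
      ⌈c / 2 * 2 ^ k⌉₊ + 4 * ⌊c / 16 * 2 ^ k⌋₊ ≤ ⌈c * 2 ^ k⌉₊ ∧
      r0 ^ ⌊c / 16 * 2 ^ k⌋₊ ≤ c0 * Real.exp (-η * (4 * 2 ^ k)) ^ 3 ∧
      Real.exp (-cE * (c / 2 * 2 ^ k)) ≤ (c0 * Real.exp (-η * (4 * 2 ^ k))) ^ 2 := by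
  set L : ℝ := -Real.log r0 with hL
  have hLpos : 0 < L := by
    have := Real.log_neg hr0 hr1
    simp only [hL]; linarith
  refine ⟨min (L * c / 384) (cE * c / 32), lt_min (by positivity) (by positivity), ?_⟩
  set η : ℝ := min (L * c / 384) (cE * c / 32) with hη
  have hη1 : η ≤ L * c / 384 := min_le_left _ _
  have hη2 : η ≤ cE * c / 32 := min_le_right _ _
  have htend : Tendsto (fun k : ℕ => (2 : ℝ) ^ k) atTop atTop :=
    tendsto_pow_atTop_atTop_of_one_lt (by norm_num)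
  have e1 : ∀ᶠ k : ℕ in atTop, 4 / c ≤ (2 : ℝ) ^ k := htend.eventually_ge_atTop _
  have e2 : ∀ᶠ k : ℕ in atTop, (L - Real.log c0) / (L * c / 32) ≤ (2 : ℝ) ^ k := htend.eventually_ge_atTop _
  have e3 : ∀ᶠ k : ℕ in atTop, (-2 * Real.log c0) / (cE * c / 4) ≤ (2 : ℝ) ^ k := htend.eventually_ge_atTop _
  filter_upwards [e1, e2, e3] with k h1 h2 h3
  set X : ℝ := (2 : ℝ) ^ k with hX
  have hXpos : 0 < X := by positivity
  rw [div_le_iff₀ hc] at h1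
  rw [div_le_iff₀ (by positivity)] at h2 h3
  refine ⟨?_, ?_, ?_⟩
  · have a1 : ((⌈c / 2 * X⌉₊ : ℕ) : ℝ) < c / 2 * X + 1 := Nat.ceil_lt_add_one (by positivity)
    have a2 : ((⌊c / 16 * X⌋₊ : ℕ) : ℝ) ≤ c / 16 * X := Nat.floor_le (by positivity)
    have a3 : c * X ≤ ((⌈c * X⌉₊ : ℕ) : ℝ) := Nat.le_ceil _
    have : ((⌈c / 2 * X⌉₊ + 4 * ⌊c / 16 * X⌋₊ : ℕ) : ℝ) ≤ ((⌈c * X⌉₊ : ℕ) : ℝ) := by
      push_cast
      nlinarith
    exact_mod_cast this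
  · have a2 : c / 16 * X - 1 < ((⌊c / 16 * X⌋₊ : ℕ) : ℝ) := by
      have := Nat.lt_floor_add_one (c / 16 * X)
      linarith
    have b1 : r0 ^ ⌊c / 16 * X⌋₊ = Real.exp (-L * ((⌊c / 16 * X⌋₊ : ℕ) : ℝ)) := by
      rw [hL, neg_neg, mul_comm (Real.log r0), Real.exp_nat_mul, Real.exp_log hr0]
    have b2 : c0 * Real.exp (-η * (4 * X)) ^ 3 = Real.exp (Real.log c0 + 3 * (-η * (4 * X))) := by
      rw [Real.exp_add, Real.exp_log hc0, ← Real.exp_nat_mul]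
      norm_num
    rw [b1, b2, Real.exp_le_exp]
    have : η * X ≤ L * c / 384 * X := mul_le_mul_of_nonneg_right hη1 hXpos.le
    nlinarith
  · have b2 : (c0 * Real.exp (-η * (4 * X))) ^ 2 = Real.exp (2 * Real.log c0 + 2 * (-η * (4 * X))) := by
      have e : Real.exp (2 * Real.log c0) = c0 ^ 2 := by
        have := Real.exp_nat_mul (Real.log c0) 2
        rw [Real.exp_log hc0] at this
        exact_mod_cast this
      rw [mul_pow, Real.exp_add, e, ← Real.exp_nat_mul]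
      norm_num
    rw [b2, Real.exp_le_exp]
    have : η * X ≤ cE * c / 32 * X := mul_le_mul_of_nonneg_right hη2 hXpos.le
    nlinarith

end

end Claimed.Agent.R285.F5
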