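import Mathlib

/-!
# ROW 285, [F] s5.4: the scalar recurrence with dyadic switches, DEFINITIONS (owner helper94).  Paper-free: imports Mathlib only.
-/

set_option autoImplicit false

namespace Claimed.Agent.R285.F5

open Filter Topology

/-! ## A. The scalar recurrence with dyadic switches ([F] s5.4), normalised: `x = b_* u`, `y = √(b_* H) Y` -/

/-- the step `j → j + 1` changes the history -/
def IsSw (j : ℕ) : Prop := ∃ k : ℕ, j + 1 = 2 ^ k

/-- (trj:reduced-u), (trj:reduced-y) + switch errors; `ax j = H_j / H`, `ay j = b_j / b_*` -/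
structure RecOK (C : ℝ) (ax ay x y : ℕ → ℝ) (j1 : ℕ) : Prop where
  y_pos : ∀ j, j1 ≤ j → 0 < y j
  x_lim : Tendsto x atTop (𝓝 0)
  y_lim : Tendsto y atTop (𝓝 0)
  ax_bd : ∀ j, |ax j| ≤ C
  ay_bd : ∀ j, |ay j| ≤ C
  ax_sum : ∀ j j', j1 ≤ j → j ≤ j' → j' ≤ 2 * j → |∑ i ∈ Finset.Ico j j', (ax i - 1)| ≤ C
  ay_sum : ∀ j j', j1 ≤ j → j ≤ j' → j' ≤ 2 * j → |∑ i ∈ Finset.Ico j j', (ay i - 1)| ≤ C
  ord_x : ∀ j, j1 ≤ j → ¬ IsSw j → |x (j + 1) - x j + ax j * y j ^ 2| ≤ C * y j ^ 2 * (|x j| + y j)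
  ord_y : ∀ j, j1 ≤ j → ¬ IsSw j → |y (j + 1) - y j + ay j * x j * y j| ≤ C * y j * (x j ^ 2 + y j ^ 2)
  sw_x : ∀ j, j1 ≤ j → IsSw j → |x (j + 1) - x j| ≤ C * y j ^ 2
  sw_y : ∀ j, j1 ≤ j → IsSw j → |y (j + 1) - y j| ≤ C * y j * (|x j| + y j)

end Claimed.Agent.R285.F5

/-!
# ROW 285, [F] s5.4, leaf REC-1: one-step and `K`-step control of the spliced recurrence.  Paper-free.      (contract helper94)

`rec_step`: ordinary step `|x₊ - x| ≤ |a| y² + C y² (|x| + y) ≤ 3 C y²`; `|y₊ - y| ≤ C |x| y + C y (x² + y²) ≤ 2 C y (|x| + y)`; switch steps are even better.  (`0 ≤ C` from `ax_bd`.)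
`rec_multi`: put `D = 3 C`.  Far in the tail `|x_i|, y_i ≤ η` with `2 D η K ≤ 1/2`: the step ratios lie in `[1 - 2Dη, 1 + 2Dη]`, hence `y_j / 2 ≤ y_{j+m} ≤ 2 y_j` for `m ≤ K`
(induction on `m`), then `|x_{j+m} - x_j| ≤ 4 D K y_j²` and `|y_{j+m} - y_j| ≤ ∑ D y_i (|x_i| + y_i) ≤ 2 D K y_j (|x_j| + 4 D K y_j² + 2 y_j)`.
-/

set_option autoImplicit false

namespace Claimed.Agent.R285.F5

open Filter Topology

theorem rec_C_nonneg {C : ℝ} {ax ay x y : ℕ → ℝ} {j1 : ℕ} (h : RecOK C ax ay x y j1) : 0 ≤ C :=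
  (abs_nonneg _).trans (h.ax_bd 0)

theorem rec_step {C : ℝ} {ax ay x y : ℕ → ℝ} {j1 : ℕ} (h : RecOK C ax ay x y j1) (j : ℕ) (hj : j1 ≤ j)
    (hx : |x j| ≤ 1) (hy : y j ≤ 1) :
    |x (j + 1) - x j| ≤ 3 * C * y j ^ 2 ∧ |y (j + 1) - y j| ≤ 3 * C * y j * (|x j| + y j) := by
  have hC := rec_C_nonneg h
  have hy0 := h.y_pos j hj
  have hx0 : 0 ≤ |x j| := abs_nonneg _
  have hCy2 : 0 ≤ C * y j ^ 2 := by positivity
  have hCy : 0 ≤ C * y j * (|x j| + y j) := by positivity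
  by_cases hsw : IsSw j
  · have h1 := h.sw_x j hj hsw
    have h2 := h.sw_y j hj hsw
    constructor
    · linarith
    · linarith
  · have h1 := h.ord_x j hj hsw
    have h2 := h.ord_y j hj hsw
    constructor
    · have e : x (j + 1) - x j = (x (j + 1) - x j + ax j * y j ^ 2) - ax j * y j ^ 2 := by ring
      have h3 : |ax j * y j ^ 2| ≤ C * y j ^ 2 := by
        rw [abs_mul, abs_of_nonneg (by positivity : 0 ≤ y j ^ 2)]
        exact mul_le_mul_of_nonneg_right (h.ax_bd j) (by positivity)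
      have h4 : C * y j ^ 2 * (|x j| + y j) ≤ C * y j ^ 2 * 2 :=
        mul_le_mul_of_nonneg_left (by linarith) hCy2
      rw [e]
      calc _ ≤ _ := abs_sub _ _
        _ ≤ C * y j ^ 2 * 2 + C * y j ^ 2 := add_le_add (h1.trans h4) h3
        _ = _ := by ring
    · have e : y (j + 1) - y j = (y (j + 1) - y j + ay j * x j * y j) - ay j * x j * y j := by ring
      have h3 : |ay j * x j * y j| ≤ C * y j * |x j| := by
        rw [abs_mul, abs_mul, abs_of_pos hy0]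
        have := mul_le_mul_of_nonneg_right (h.ay_bd j) hx0
        nlinarith
      have h5 : x j ^ 2 ≤ |x j| := by
        rw [← sq_abs]
        nlinarith
      have h6 : y j ^ 2 ≤ y j := by nlinarith
      have h4 : C * y j * (x j ^ 2 + y j ^ 2) ≤ C * y j * (|x j| + y j) :=
        mul_le_mul_of_nonneg_left (by linarith) (by positivity)
      have h7 : C * y j * |x j| ≤ C * y j * (|x j| + y j) :=
        mul_le_mul_of_nonneg_left (by linarith) (by positivity)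
      rw [e]
      calc _ ≤ _ := abs_sub _ _
        _ ≤ C * y j * (|x j| + y j) + C * y j * (|x j| + y j) :=
            add_le_add (h2.trans h4) (h3.trans h7)
        _ ≤ _ := by linarith

/-- far in the tail both sequences are small. -/
theorem rec_small {C : ℝ} {ax ay x y : ℕ → ℝ} {j1 : ℕ} (h : RecOK C ax ay x y j1) {η : ℝ}
    (hη : 0 < η) : ∃ J : ℕ, j1 ≤ J ∧ ∀ i, J ≤ i → |x i| ≤ η ∧ 0 < y i ∧ y i ≤ η := by
  obtain ⟨N1, hN1⟩ := Metric.tendsto_atTop.1 h.x_lim η hη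
  obtain ⟨N2, hN2⟩ := Metric.tendsto_atTop.1 h.y_lim η hη
  refine ⟨max j1 (max N1 N2), le_max_left _ _, fun i hi => ?_⟩
  have i1 : j1 ≤ i := (le_max_left _ _).trans hi
  have i2 : N1 ≤ i := ((le_max_left _ _).trans (le_max_right _ _)).trans hi
  have i3 : N2 ≤ i := ((le_max_right _ _).trans (le_max_right _ _)).trans hi
  have h1 := hN1 i i2
  have h2 := hN2 i i3
  rw [Real.dist_eq, sub_zero] at h1 h2
  exact ⟨h1.le, h.y_pos i i1, (le_abs_self _).trans h2.le⟩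

theorem rec_multi {C : ℝ} {ax ay x y : ℕ → ℝ} {j1 : ℕ} (h : RecOK C ax ay x y j1) (K : ℕ) :
    ∃ (CK : ℝ) (J : ℕ), 0 ≤ CK ∧ j1 ≤ J ∧ ∀ j, J ≤ j → ∀ m, m ≤ K →
      |x (j + m) - x j| ≤ CK * y j ^ 2 ∧ |y (j + m) - y j| ≤ CK * y j * (|x j| + y j) := by
  have hC := rec_C_nonneg h
  obtain ⟨D, hD⟩ : ∃ D : ℝ, D = 3 * C := ⟨_, rfl⟩
  have hD0 : 0 ≤ D := by rw [hD]; positivity
  have hK0 : (0 : ℝ) ≤ K := Nat.cast_nonneg K
  obtain ⟨η, hηdef⟩ : ∃ η : ℝ, η = 1 / (4 * D * K + 1) := ⟨_, rfl⟩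
  have hden : 0 < 4 * D * K + 1 := by positivity
  have hη : 0 < η := by rw [hηdef]; positivity
  have hη1 : η ≤ 1 := by
    rw [hηdef, div_le_one hden]
    nlinarith [mul_nonneg hD0 hK0]
  have hKt : K * (4 * D * η) ≤ 1 := by
    have : K * (4 * D * η) = 4 * D * K / (4 * D * K + 1) := by
      rw [hηdef]
      ring
    rw [this, div_le_one hden]
    linarith
  obtain ⟨J, hJ, hsm⟩ := rec_small h hη
  obtain ⟨B, hB⟩ : ∃ B : ℝ, B = 4 * D * K + 2 := ⟨_, rfl⟩
  have hB1 : 1 ≤ B := by rw [hB]; nlinarith [mul_nonneg hD0 hK0]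
  have key : ∀ j, J ≤ j → ∀ m : ℕ, m ≤ K →
      y (j + m) ≤ y j * (1 + m * (4 * D * η)) ∧ |x (j + m) - x j| ≤ 4 * D * m * y j ^ 2 ∧
        |y (j + m) - y j| ≤ 2 * D * m * y j * (|x j| + B * y j) := by
    intro j hj m
    obtain ⟨hxj, hyj0, hyj⟩ := hsm j hj
    have hyj1 : y j ≤ 1 := hyj.trans hη1
    have hxj0 : 0 ≤ |x j| := abs_nonneg _
    induction m with
    | zero =>
      intro _
      simp
    | succ m ih =>
      intro hm
      obtain ⟨ha, hb, hc⟩ := ih (by omega)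
      obtain ⟨hxi, hyi0, hyi⟩ := hsm (j + m) (by omega)
      obtain ⟨s1, s2⟩ := rec_step h (j + m) (hJ.trans (by omega)) (hxi.trans hη1) (hyi.trans hη1)
      rw [← hD] at s1 s2
      have hmK : (m : ℝ) + 1 ≤ K := by exact_mod_cast hm
      have hm0 : (0 : ℝ) ≤ m := Nat.cast_nonneg m
      have ht0 : 0 ≤ 4 * D * η := by positivity
      have hmt : m * (4 * D * η) ≤ 1 := by
        have : m * (4 * D * η) ≤ K * (4 * D * η) :=
          mul_le_mul_of_nonneg_right (by linarith) ht0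
        linarith
      have hy2 : y (j + m) ≤ 2 * y j := by
        have : y j * (1 + m * (4 * D * η)) ≤ y j * 2 :=
          mul_le_mul_of_nonneg_left (by linarith) hyj0.le
        linarith
      have e : j + (m + 1) = j + m + 1 := by ring
      rw [e]
      push_cast
      refine ⟨?_, ?_, ?_⟩
      · -- (a)
        have h1 : y (j + m + 1) ≤ y (j + m) + D * y (j + m) * (|x (j + m)| + y (j + m)) := by
          have := (abs_le.1 s2).2
          linarith
        have h2 : D * y (j + m) * (|x (j + m)| + y (j + m)) ≤ D * y (j + m) * (2 * η) :=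
          mul_le_mul_of_nonneg_left (by linarith) (by positivity)
        have h3 : y (j + m + 1) ≤ y (j + m) * (1 + 2 * D * η) := by nlinarith
        have h4 : y (j + m) * (1 + 2 * D * η) ≤ y j * (1 + m * (4 * D * η)) * (1 + 2 * D * η) :=
          mul_le_mul_of_nonneg_right ha (by positivity)
        have h5 : (1 + m * (4 * D * η)) * (1 + 2 * D * η) ≤ 1 + (m + 1) * (4 * D * η) := by
          nlinarith [mul_le_mul_of_nonneg_right hmt (by positivity : 0 ≤ 2 * D * η)]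
        have h6 := mul_le_mul_of_nonneg_left h5 hyj0.le
        calc _ ≤ _ := h3
          _ ≤ _ := h4
          _ = y j * ((1 + m * (4 * D * η)) * (1 + 2 * D * η)) := by ring
          _ ≤ _ := h6
      · -- (b)
        have h1 : y (j + m) ^ 2 ≤ (2 * y j) ^ 2 := pow_le_pow_left₀ hyi0.le hy2 2
        have h2 : D * y (j + m) ^ 2 ≤ D * (2 * y j) ^ 2 := mul_le_mul_of_nonneg_left h1 hD0
        have e2 : x (j + m + 1) - x j = (x (j + m + 1) - x (j + m)) + (x (j + m) - x j) := by ring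
        rw [e2]
        calc _ ≤ _ := abs_add_le _ _
          _ ≤ D * (2 * y j) ^ 2 + 4 * D * m * y j ^ 2 := add_le_add (s1.trans h2) hb
          _ = _ := by ring
      · -- (c)
        have h1 : |x (j + m)| ≤ |x j| + 4 * D * K * y j := by
          have h2 : |x (j + m)| ≤ |x (j + m) - x j| + |x j| := by
            have e3 : x (j + m) = (x (j + m) - x j) + x j := by ring
            conv_lhs => rw [e3]
            exact abs_add_le _ _
          have h3 : 4 * D * m * y j ^ 2 ≤ 4 * D * K * y j := by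
            have h4 : y j ^ 2 ≤ y j := by nlinarith
            have h5 : 4 * D * m ≤ 4 * D * K :=
              mul_le_mul_of_nonneg_left (by linarith) (by positivity)
            exact mul_le_mul h5 h4 (by positivity) (by positivity)
          linarith
        have h6 : |x (j + m)| + y (j + m) ≤ |x j| + B * y j := by
          rw [hB]
          linarith
        have h7 : D * y (j + m) * (|x (j + m)| + y (j + m)) ≤ D * (2 * y j) * (|x j| + B * y j) :=
          mul_le_mul (mul_le_mul_of_nonneg_left hy2 hD0) h6 (by positivity) (by positivity)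
        have e2 : y (j + m + 1) - y j = (y (j + m + 1) - y (j + m)) + (y (j + m) - y j) := by ring
        rw [e2]
        calc _ ≤ _ := abs_add_le _ _
          _ ≤ D * (2 * y j) * (|x j| + B * y j) + 2 * D * m * y j * (|x j| + B * y j) :=
              add_le_add (s2.trans h7) hc
          _ = _ := by ring
  refine ⟨4 * D * K + 2 * D * K * B, J, by positivity, hJ, fun j hj m hm => ?_⟩
  obtain ⟨-, hb, hc⟩ := key j hj m hm
  obtain ⟨hxj, hyj0, hyj⟩ := hsm j hj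
  have hxj0 : 0 ≤ |x j| := abs_nonneg _
  have hmK : (m : ℝ) ≤ K := by exact_mod_cast hm
  have hm0 : (0 : ℝ) ≤ m := Nat.cast_nonneg m
  constructor
  · refine hb.trans ?_
    apply mul_le_mul_of_nonneg_right _ (by positivity)
    have h1 : 4 * D * m ≤ 4 * D * K := mul_le_mul_of_nonneg_left hmK (by positivity)
    have h2 : 0 ≤ 2 * D * K * B := by positivity
    linarith
  · refine hc.trans ?_
    have h1 : |x j| + B * y j ≤ B * (|x j| + y j) := by nlinarith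
    have h2 : 2 * D * m * y j ≤ 2 * D * K * y j := by
      apply mul_le_mul_of_nonneg_right _ hyj0.le
      exact mul_le_mul_of_nonneg_left hmK (by positivity)
    calc 2 * D * m * y j * (|x j| + B * y j) ≤ 2 * D * K * y j * (B * (|x j| + y j)) :=
          mul_le_mul h2 h1 (by positivity) (by positivity)
      _ = 2 * D * K * B * y j * (|x j| + y j) := by ring
      _ ≤ (4 * D * K + 2 * D * K * B) * y j * (|x j| + y j) := by
          apply mul_le_mul_of_nonneg_right _ (by positivity)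
          apply mul_le_mul_of_nonneg_right _ hyj0.le
          have : 0 ≤ 4 * D * K := by positivity
          linarith

end Claimed.Agent.R285.F5

/-!
# ROW 285, [F] s5.4, leaf REC-2: the SAMPLED inequalities (trj:sampled-u), (trj:sampled-y).  Paper-free.      (contract helper94)

The constant `C7` does NOT depend on the sampling length `K`; the threshold `J` does.
Proof.  `x_{j+K} - x_j = ∑_{i ∈ [j, j+K)} (x_{i+1} - x_i)`, `x_{i+1} - x_i = -a_i y_i² + r_i`, `|r_i| ≤ C y_i² (|x_i| + y_i)` (ordinary), `|r_i| ≤ 2 C y_i²` (switch).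
For `K ≤ j` there is at most one switch in `[j, j+K)` (`sw_unique`).  `∑ a_i y_i² = y_j² (K + ∑ (a_i - 1)) + ∑ a_i (y_i² - y_j²)`, `|∑ (a_i - 1)| ≤ C` (`ax_sum`, `j + K ≤ 2 j`),
`|y_i² - y_j²| ≤ CK y_j (|x_j| + y_j) · 3 y_j` (`rec_multi`), which is `≤ y_j² / (K C + 1)` far in the tail.  Same for `y`, with
`x_i y_i - x_j y_j = (x_i - x_j) y_i + x_j (y_i - y_j) = O_K (y_j (y_j² + |x_j| (|x_j| + y_j)))`, absorbed in `y_j (|x_j| + y_j)` far in the tail.  `C7 = 12 C + 4` is enough.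
-/

set_option autoImplicit false

namespace Claimed.Agent.R285.F5

open Filter Topology

/-- two switches are far apart -/
theorem sw_unique {i i' : ℕ} (h : IsSw i) (h' : IsSw i') (hlt : i < i') : 2 * i + 1 ≤ i' := by
  obtain ⟨k, hk⟩ := h
  obtain ⟨k', hk'⟩ := h'
  have h1 : 2 ^ k < 2 ^ k' := by omega
  have h2 : k < k' := (Nat.pow_lt_pow_iff_right (by norm_num)).1 h1
  have h3 : 2 ^ (k + 1) ≤ 2 ^ k' := Nat.pow_le_pow_right (by norm_num) h2
  rw [pow_succ] at h3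
  omega

/-- a sum over a short window contains at most one switch term. -/
theorem rec_sum_sw {j K : ℕ} (hK : K ≤ j) (f : ℕ → ℝ) {E1 E2 : ℝ} (hE : 0 ≤ E1) (hE2 : 0 ≤ E2)
    (h1 : ∀ m, m < K → ¬ IsSw (j + m) → |f m| ≤ E1) (h2 : ∀ m, m < K → IsSw (j + m) → |f m| ≤ E2) :
    |∑ m ∈ Finset.range K, f m| ≤ K * E1 + E2 := by
  classical
  have hcard : ((Finset.range K).filter fun m => IsSw (j + m)).card ≤ 1 := by
    rw [Finset.card_le_one]
    intro a ha b hb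
    rw [Finset.mem_filter, Finset.mem_range] at ha hb
    by_contra hne
    rcases Nat.lt_or_gt_of_ne hne with hlt | hlt
    · have := sw_unique ha.2 hb.2 (by omega)
      omega
    · have := sw_unique hb.2 ha.2 (by omega)
      omega
  have hE1 : ∀ m ∈ Finset.range K, |f m| ≤
      (if IsSw (j + m) then E2 else 0) + (if IsSw (j + m) then 0 else E1) := by
    intro m hm
    rw [Finset.mem_range] at hm
    by_cases hs : IsSw (j + m)
    · simp only [if_pos hs, add_zero]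
      exact h2 m hm hs
    · simp only [if_neg hs, zero_add]
      exact h1 m hm hs
  have hs1 : ∑ m ∈ Finset.range K, (if IsSw (j + m) then E2 else 0) ≤ E2 := by
    rw [← Finset.sum_filter, Finset.sum_const, nsmul_eq_mul]
    have : (((Finset.range K).filter fun m => IsSw (j + m)).card : ℝ) ≤ 1 := by exact_mod_cast hcard
    nlinarith
  have hs2 : ∑ m ∈ Finset.range K, (if IsSw (j + m) then 0 else E1) ≤ K * E1 := by
    calc _ ≤ ∑ _m ∈ Finset.range K, E1 := by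
          refine Finset.sum_le_sum fun m _ => ?_
          split_ifs
          · exact hE
          · exact le_rfl
      _ = K * E1 := by rw [Finset.sum_const, Finset.card_range, nsmul_eq_mul]
  calc |∑ m ∈ Finset.range K, f m| ≤ ∑ m ∈ Finset.range K, |f m| := Finset.abs_sum_le_sum_abs _ _
    _ ≤ ∑ m ∈ Finset.range K, ((if IsSw (j + m) then E2 else 0) +
          (if IsSw (j + m) then 0 else E1)) := Finset.sum_le_sum hE1
    _ = _ := Finset.sum_add_distrib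
    _ ≤ E2 + K * E1 := add_le_add hs1 hs2
    _ = _ := by ring

/-- comparison of the values inside a window with the values at its left end. -/
theorem rec_window {xj yj xi yi CK η : ℝ} (hyj : 0 < yj) (hyi : 0 < yi) (hCK : 0 ≤ CK) (hη : 0 < η)
    (hxη : |xj| ≤ η) (hyη : yj ≤ η) (hs : 2 * CK * η ≤ 1) (h1 : |xi - xj| ≤ CK * yj ^ 2)
    (h2 : |yi - yj| ≤ CK * yj * (|xj| + yj)) :
    yi ≤ 2 * yj ∧ |xi| + yi ≤ 3 * (|xj| + yj) ∧ |yi ^ 2 - yj ^ 2| ≤ 6 * CK * η * yj ^ 2 ∧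
      |xi * yi - xj * yj| ≤ 3 * CK * η * yj * (|xj| + yj) := by
  have hx0 : 0 ≤ |xj| := abs_nonneg _
  have hCy : 0 ≤ CK * yj := by positivity
  have h3 : CK * yj * (|xj| + yj) ≤ CK * yj * (2 * η) :=
    mul_le_mul_of_nonneg_left (by linarith) hCy
  have h4 : CK * yj * (2 * η) ≤ yj := by nlinarith
  have w1 : yi ≤ 2 * yj := by
    have := (abs_le.1 h2).2
    linarith
  have h5 : CK * yj ^ 2 ≤ yj / 2 := by
    have : CK * yj ^ 2 ≤ CK * yj * η := by
      rw [pow_two, ← mul_assoc]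
      exact mul_le_mul_of_nonneg_left hyη hCy
    nlinarith
  have h6 : |xi| ≤ |xj| + yj / 2 := by
    have h7 : |xi| ≤ |xi - xj| + |xj| := by
      have e : xi = (xi - xj) + xj := by ring
      conv_lhs => rw [e]
      exact abs_add_le _ _
    linarith
  refine ⟨w1, by linarith, ?_, ?_⟩
  · have e : yi ^ 2 - yj ^ 2 = (yi - yj) * (yi + yj) := by ring
    rw [e, abs_mul, abs_of_pos (by linarith : 0 < yi + yj)]
    calc |yi - yj| * (yi + yj) ≤ (CK * yj * (2 * η)) * (3 * yj) :=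
          mul_le_mul (h2.trans h3) (by linarith) (by linarith) (by positivity)
      _ = _ := by ring
  · have e : xi * yi - xj * yj = (xi - xj) * yi + xj * (yi - yj) := by ring
    rw [e]
    have i1 : |(xi - xj) * yi| ≤ CK * yj ^ 2 * (2 * yj) := by
      rw [abs_mul, abs_of_pos hyi]
      exact mul_le_mul h1 w1 hyi.le (by positivity)
    have i2 : |xj * (yi - yj)| ≤ |xj| * (CK * yj * (|xj| + yj)) := by
      rw [abs_mul]
      exact mul_le_mul_of_nonneg_left h2 hx0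
    have i3 : CK * yj ^ 2 * (2 * yj) ≤ CK * yj * (2 * η * (|xj| + yj)) := by
      have : yj * (2 * yj) ≤ 2 * η * (|xj| + yj) := by nlinarith
      calc CK * yj ^ 2 * (2 * yj) = CK * yj * (yj * (2 * yj)) := by ring
        _ ≤ _ := mul_le_mul_of_nonneg_left this hCy
    have i4 : |xj| * (CK * yj * (|xj| + yj)) ≤ CK * yj * (η * (|xj| + yj)) := by
      have : |xj| * (|xj| + yj) ≤ η * (|xj| + yj) :=
        mul_le_mul_of_nonneg_right hxη (by linarith)
      calc |xj| * (CK * yj * (|xj| + yj)) = CK * yj * (|xj| * (|xj| + yj)) := by ring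
        _ ≤ _ := mul_le_mul_of_nonneg_left this hCy
    calc _ ≤ _ := abs_add_le _ _
      _ ≤ CK * yj * (2 * η * (|xj| + yj)) + CK * yj * (η * (|xj| + yj)) :=
          add_le_add (i1.trans i3) (i2.trans i4)
      _ = _ := by ring

theorem rec_sum_le (K : ℕ) (f : ℕ → ℝ) {E : ℝ} (h : ∀ m, m < K → |f m| ≤ E) :
    |∑ m ∈ Finset.range K, f m| ≤ K * E := by
  calc |∑ m ∈ Finset.range K, f m| ≤ ∑ m ∈ Finset.range K, |f m| := Finset.abs_sum_le_sum_abs _ _
    _ ≤ ∑ _m ∈ Finset.range K, E := Finset.sum_le_sum fun m hm => h m (Finset.mem_range.1 hm)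
    _ = K * E := by rw [Finset.sum_const, Finset.card_range, nsmul_eq_mul]

theorem rec_sampled {C : ℝ} {ax ay x y : ℕ → ℝ} {j1 : ℕ} (h : RecOK C ax ay x y j1) :
    ∃ C7 : ℝ, 0 ≤ C7 ∧ ∀ K : ℕ, ∃ J : ℕ, j1 ≤ J ∧ ∀ j, J ≤ j →
      |x (j + K) - x j + K * y j ^ 2| ≤ C7 * y j ^ 2 ∧
      |y (j + K) - y j + K * x j * y j| ≤ C7 * y j * (|x j| + y j) := by
  have hC := rec_C_nonneg h
  refine ⟨13 * C + 2, by positivity, fun K => ?_⟩
  obtain ⟨CK, J0, hCK, hJ0, hmul⟩ := rec_multi h K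
  have hK0 : (0 : ℝ) ≤ K := Nat.cast_nonneg K
  obtain ⟨η, hηdef⟩ : ∃ η : ℝ, η = 1 / (6 * K * C * CK + 8 * K * C + 2 * CK + 1) := ⟨_, rfl⟩
  have hden : 0 < 6 * K * C * CK + 8 * K * C + 2 * CK + 1 := by positivity
  have hη : 0 < η := by rw [hηdef]; positivity
  have hle : ∀ A : ℝ, A ≤ 6 * K * C * CK + 8 * K * C + 2 * CK + 1 → A * η ≤ 1 := by
    intro A hA
    rw [hηdef, mul_one_div, div_le_one hden]
    exact hA
  have p1 : 0 ≤ 6 * K * C * CK := by positivity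
  have p2 : 0 ≤ 8 * K * C := by positivity
  have e1 : 6 * K * C * CK * η ≤ 1 := hle _ (by linarith)
  have e2 : 8 * K * C * η ≤ 1 := hle _ (by linarith)
  have e3 : 2 * CK * η ≤ 1 := hle _ (by linarith)
  obtain ⟨J1, hJ1, hsm⟩ := rec_small h hη
  refine ⟨max (max J0 J1) K, hJ0.trans ((le_max_left _ _).trans (le_max_left _ _)), fun j hj => ?_⟩
  have hjJ0 : J0 ≤ j := ((le_max_left _ _).trans (le_max_left _ _)).trans hj
  have hjJ1 : J1 ≤ j := ((le_max_right _ _).trans (le_max_left _ _)).trans hj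
  have hjK : K ≤ j := (le_max_right _ _).trans hj
  have hj1 : j1 ≤ j := hJ0.trans hjJ0
  obtain ⟨hxj, hyj0, hyj⟩ := hsm j hjJ1
  have hxj0 : 0 ≤ |x j| := abs_nonneg _
  obtain ⟨P, hP⟩ : ∃ P : ℝ, P = |x j| + y j := ⟨_, rfl⟩
  have hP0 : 0 < P := by rw [hP]; linarith
  have hw : ∀ m, m ≤ K → y (j + m) ≤ 2 * y j ∧ |x (j + m)| + y (j + m) ≤ 3 * P ∧
      |y (j + m) ^ 2 - y j ^ 2| ≤ 6 * CK * η * y j ^ 2 ∧
      |x (j + m) * y (j + m) - x j * y j| ≤ 3 * CK * η * y j * P := by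
    intro m hm
    rw [hP]
    exact rec_window hyj0 (hsm (j + m) (by omega)).2.1 hCK hη hxj hyj e3 (hmul j hjJ0 m hm).1
      (hmul j hjJ0 m hm).2
  have tri : ∀ a b c : ℝ, |a - b - c| ≤ |a| + |b| + |c| := fun a b c =>
    (abs_sub _ _).trans (add_le_add (abs_sub _ _) le_rfl)
  have hsumI : ∀ a : ℕ → ℝ, ∑ i ∈ Finset.Ico j (j + K), (a i - 1) =
      ∑ m ∈ Finset.range K, (a (j + m) - 1) := by
    intro a
    rw [Finset.sum_Ico_eq_sum_range, Nat.add_sub_cancel_left]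
  constructor
  · -- the `x` inequality
    have tele : ∑ m ∈ Finset.range K, (x (j + (m + 1)) - x (j + m)) = x (j + K) - x (j + 0) :=
      Finset.sum_range_sub (fun m => x (j + m)) K
    have id1 : x (j + K) - x j + K * y j ^ 2 =
        ∑ m ∈ Finset.range K, (x (j + (m + 1)) - x (j + m) + ax (j + m) * y (j + m) ^ 2) -
          y j ^ 2 * ∑ m ∈ Finset.range K, (ax (j + m) - 1) -
          ∑ m ∈ Finset.range K, ax (j + m) * (y (j + m) ^ 2 - y j ^ 2) := by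
      rw [Finset.mul_sum, ← Finset.sum_sub_distrib, ← Finset.sum_sub_distrib]
      have : ∀ m, x (j + (m + 1)) - x (j + m) + ax (j + m) * y (j + m) ^ 2 -
          y j ^ 2 * (ax (j + m) - 1) - ax (j + m) * (y (j + m) ^ 2 - y j ^ 2) =
          (x (j + (m + 1)) - x (j + m)) + y j ^ 2 := by
        intro m
        ring
      simp only [this]
      rw [Finset.sum_add_distrib, tele, Finset.sum_const, Finset.card_range, nsmul_eq_mul,
        add_zero]
    have b1 : |∑ m ∈ Finset.range K,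
        (x (j + (m + 1)) - x (j + m) + ax (j + m) * y (j + m) ^ 2)| ≤
        K * (8 * C * η * y j ^ 2) + 8 * C * y j ^ 2 := by
      refine rec_sum_sw hjK _ (by positivity) (by positivity) ?_ ?_
      · intro m hm hs
        obtain ⟨w1, -, -, -⟩ := hw m hm.le
        obtain ⟨s1, s2, s3⟩ := hsm (j + m) (by omega)
        have h1 := h.ord_x (j + m) (by omega) hs
        have h2 : y (j + m) ^ 2 ≤ (2 * y j) ^ 2 := pow_le_pow_left₀ s2.le w1 2
        calc _ ≤ _ := h1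
          _ ≤ C * (2 * y j) ^ 2 * (2 * η) :=
              mul_le_mul (mul_le_mul_of_nonneg_left h2 hC) (by linarith)
                (by positivity) (by positivity)
          _ = _ := by ring
      · intro m hm hs
        obtain ⟨w1, -, -, -⟩ := hw m hm.le
        obtain ⟨s1, s2, s3⟩ := hsm (j + m) (by omega)
        have h1 := h.sw_x (j + m) (by omega) hs
        have h2 : y (j + m) ^ 2 ≤ (2 * y j) ^ 2 := pow_le_pow_left₀ s2.le w1 2
        have h3 : |ax (j + m) * y (j + m) ^ 2| ≤ C * y (j + m) ^ 2 := by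
          rw [abs_mul, abs_of_nonneg (by positivity : 0 ≤ y (j + m) ^ 2)]
          exact mul_le_mul_of_nonneg_right (h.ax_bd _) (by positivity)
        have h4 := mul_le_mul_of_nonneg_left h2 hC
        calc _ ≤ _ := abs_add_le _ _
          _ ≤ C * y (j + m) ^ 2 + C * y (j + m) ^ 2 := add_le_add h1 h3
          _ ≤ _ := by nlinarith
    have b2 : |y j ^ 2 * ∑ m ∈ Finset.range K, (ax (j + m) - 1)| ≤ C * y j ^ 2 := by
      rw [abs_mul, abs_of_nonneg (by positivity : 0 ≤ y j ^ 2), ← hsumI, mul_comm]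
      exact mul_le_mul_of_nonneg_right (h.ax_sum j (j + K) hj1 (by omega) (by omega))
        (by positivity)
    have b3 : |∑ m ∈ Finset.range K, ax (j + m) * (y (j + m) ^ 2 - y j ^ 2)| ≤
        K * (C * (6 * CK * η * y j ^ 2)) := by
      refine rec_sum_le K _ fun m hm => ?_
      obtain ⟨-, -, w3, -⟩ := hw m hm.le
      rw [abs_mul]
      exact mul_le_mul (h.ax_bd _) w3 (abs_nonneg _) hC
    have hy2 : 0 ≤ y j ^ 2 := by positivity
    have c1 : K * (8 * C * η * y j ^ 2) ≤ y j ^ 2 := by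
      calc K * (8 * C * η * y j ^ 2) = (8 * K * C * η) * y j ^ 2 := by ring
        _ ≤ 1 * y j ^ 2 := mul_le_mul_of_nonneg_right e2 hy2
        _ = _ := one_mul _
    have c3 : K * (C * (6 * CK * η * y j ^ 2)) ≤ y j ^ 2 := by
      calc K * (C * (6 * CK * η * y j ^ 2)) = (6 * K * C * CK * η) * y j ^ 2 := by ring
        _ ≤ 1 * y j ^ 2 := mul_le_mul_of_nonneg_right e1 hy2
        _ = _ := one_mul _
    rw [id1]
    calc _ ≤ _ := tri _ _ _
      _ ≤ (K * (8 * C * η * y j ^ 2) + 8 * C * y j ^ 2) + C * y j ^ 2 +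
          K * (C * (6 * CK * η * y j ^ 2)) := add_le_add (add_le_add b1 b2) b3
      _ ≤ _ := by nlinarith
  · -- the `y` inequality
    rw [← hP]
    have tele : ∑ m ∈ Finset.range K, (y (j + (m + 1)) - y (j + m)) = y (j + K) - y (j + 0) :=
      Finset.sum_range_sub (fun m => y (j + m)) K
    have id1 : y (j + K) - y j + K * x j * y j =
        ∑ m ∈ Finset.range K,
          (y (j + (m + 1)) - y (j + m) + ay (j + m) * x (j + m) * y (j + m)) -
          x j * y j * ∑ m ∈ Finset.range K, (ay (j + m) - 1) -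
          ∑ m ∈ Finset.range K, ay (j + m) * (x (j + m) * y (j + m) - x j * y j) := by
      rw [Finset.mul_sum, ← Finset.sum_sub_distrib, ← Finset.sum_sub_distrib]
      have : ∀ m, y (j + (m + 1)) - y (j + m) + ay (j + m) * x (j + m) * y (j + m) -
          x j * y j * (ay (j + m) - 1) - ay (j + m) * (x (j + m) * y (j + m) - x j * y j) =
          (y (j + (m + 1)) - y (j + m)) + x j * y j := by
        intro m
        ring
      simp only [this]
      rw [Finset.sum_add_distrib, tele, Finset.sum_const, Finset.card_range, nsmul_eq_mul,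
        add_zero]
      ring
    have b1 : |∑ m ∈ Finset.range K,
        (y (j + (m + 1)) - y (j + m) + ay (j + m) * x (j + m) * y (j + m))| ≤
        K * (6 * C * η * y j * P) + 12 * C * y j * P := by
      refine rec_sum_sw hjK _ (by positivity) (by positivity) ?_ ?_
      · intro m hm hs
        obtain ⟨w1, w2, -, -⟩ := hw m hm.le
        obtain ⟨s1, s2, s3⟩ := hsm (j + m) (by omega)
        have h1 := h.ord_y (j + m) (by omega) hs
        have h2 : x (j + m) ^ 2 + y (j + m) ^ 2 ≤ η * (3 * P) := by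
          have i1 : x (j + m) ^ 2 ≤ η * |x (j + m)| := by
            rw [← sq_abs, pow_two]
            exact mul_le_mul_of_nonneg_right s1 (abs_nonneg _)
          have i2 : y (j + m) ^ 2 ≤ η * y (j + m) := by
            rw [pow_two]
            exact mul_le_mul_of_nonneg_right s3 s2.le
          have i3 := mul_le_mul_of_nonneg_left w2 hη.le
          nlinarith
        calc _ ≤ _ := h1
          _ ≤ C * (2 * y j) * (η * (3 * P)) :=
              mul_le_mul (mul_le_mul_of_nonneg_left w1 hC) h2 (by positivity) (by positivity)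
          _ = _ := by ring
      · intro m hm hs
        obtain ⟨w1, w2, -, -⟩ := hw m hm.le
        obtain ⟨s1, s2, s3⟩ := hsm (j + m) (by omega)
        have h1 := h.sw_y (j + m) (by omega) hs
        have hxm0 : 0 ≤ |x (j + m)| := abs_nonneg _
        have h3 : |ay (j + m) * x (j + m) * y (j + m)| ≤
            C * y (j + m) * (|x (j + m)| + y (j + m)) := by
          rw [abs_mul, abs_mul, abs_of_pos s2]
          have i1 := mul_le_mul_of_nonneg_right (h.ay_bd (j + m)) hxm0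
          have i2 := mul_le_mul_of_nonneg_right i1 s2.le
          have i3 : 0 ≤ C * y (j + m) * y (j + m) := by positivity
          nlinarith
        have h4 : C * y (j + m) * (|x (j + m)| + y (j + m)) ≤ C * (2 * y j) * (3 * P) :=
          mul_le_mul (mul_le_mul_of_nonneg_left w1 hC) w2 (by positivity) (by positivity)
        calc _ ≤ _ := abs_add_le _ _
          _ ≤ C * (2 * y j) * (3 * P) + C * (2 * y j) * (3 * P) :=
              add_le_add (h1.trans h4) (h3.trans h4)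
          _ = _ := by ring
    have b2 : |x j * y j * ∑ m ∈ Finset.range K, (ay (j + m) - 1)| ≤ C * y j * P := by
      rw [abs_mul, abs_mul, abs_of_pos hyj0, ← hsumI]
      have i1 := h.ay_sum j (j + K) hj1 (by omega) (by omega)
      calc |x j| * y j * |∑ i ∈ Finset.Ico j (j + K), (ay i - 1)| ≤ P * y j * C :=
            mul_le_mul (mul_le_mul_of_nonneg_right (by rw [hP]; linarith) hyj0.le) i1
              (abs_nonneg _) (by positivity)
        _ = _ := by ring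
    have b3 : |∑ m ∈ Finset.range K, ay (j + m) * (x (j + m) * y (j + m) - x j * y j)| ≤
        K * (C * (3 * CK * η * y j * P)) := by
      refine rec_sum_le K _ fun m hm => ?_
      obtain ⟨-, -, -, w4⟩ := hw m hm.le
      rw [abs_mul]
      exact mul_le_mul (h.ay_bd _) w4 (abs_nonneg _) hC
    have hyP : 0 ≤ y j * P := by positivity
    have c1 : K * (6 * C * η * y j * P) ≤ y j * P := by
      have : 6 * K * C * η ≤ 1 := by
        have : 0 ≤ K * C * η := by positivity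
        linarith
      calc K * (6 * C * η * y j * P) = (6 * K * C * η) * (y j * P) := by ring
        _ ≤ 1 * (y j * P) := mul_le_mul_of_nonneg_right this hyP
        _ = _ := one_mul _
    have c3 : K * (C * (3 * CK * η * y j * P)) ≤ y j * P := by
      have : 3 * K * C * CK * η ≤ 1 := by
        have : 0 ≤ K * C * CK * η := by positivity
        linarith
      calc K * (C * (3 * CK * η * y j * P)) = (3 * K * C * CK * η) * (y j * P) := by ring
        _ ≤ 1 * (y j * P) := mul_le_mul_of_nonneg_right this hyP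
        _ = _ := one_mul _
    rw [id1]
    calc _ ≤ _ := tri _ _ _
      _ ≤ (K * (6 * C * η * y j * P) + 12 * C * y j * P) + C * y j * P +
          K * (C * (3 * CK * η * y j * P)) := add_le_add (add_le_add b1 b2) b3
      _ ≤ _ := by nlinarith

end Claimed.Agent.R285.F5

/-!
# ROW 285, [F] s5.4, leaf REC-3: the two BARRIERS and the reciprocal growth for the sampled system.  Paper-free, abstract.      (contract helper94)

`barrier`.  (1) `X_{n+1} - X_n ≤ -(K - C7) Y_n² < 0` and `X → 0`: `X_n > 0` for all `n`.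
(2) lower barrier: if `D_n := Y_n / 2 - X_n ≥ 0` then `D_{n+1} - D_n ≥ (3K/4 - 7 C7/4) Y_n² > 0` (use `0 < X_n ≤ Y_n / 2`); so `D` is positive and increasing from `n + 1` on: contradiction with `D → 0`.
(3) upper barrier: if `D_n := X_n - 2 Y_n ≥ 0` then `D_{n+1} - D_n ≥ (3 K - 7 C7) Y_n² > 0` (use `X_n ≥ 2 Y_n`, `K ≥ C7`); same contradiction.
`recip_growth`.  `Y - Y₊ = K X Y + e`, `|e| ≤ 3 C7 Y²`, so `K/4 Y² ≤ Y - Y₊ ≤ 3 K Y²`; `Y / 2 ≤ Y₊ ≤ Y`; divide by `Y Y₊`.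
-/

set_option autoImplicit false

namespace Claimed.Agent.R285.F5

open Filter Topology

/-- a sequence tending to `0` cannot increase strictly as soon as it is nonnegative. -/
theorem barrier_aux (D : ℕ → ℝ) (hD : Tendsto D atTop (𝓝 0)) (hstep : ∀ m, 0 ≤ D m → D m < D (m + 1))
    (n : ℕ) : D n < 0 := by
  by_contra hcon
  rw [not_lt] at hcon
  have h1 : D n < D (n + 1) := hstep n hcon
  have h2 : ∀ m, D (n + 1) ≤ D (n + 1 + m) := by
    intro m
    induction m with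
    | zero => exact le_rfl
    | succ m ih =>
      have h3 : 0 ≤ D (n + 1 + m) := by linarith
      have h4 := hstep _ h3
      have e : n + 1 + (m + 1) = n + 1 + m + 1 := by ring
      rw [e]
      linarith
  have h5 : D (n + 1) ≤ 0 := by
    refine ge_of_tendsto hD ?_
    filter_upwards [eventually_ge_atTop (n + 1)] with i hi
    obtain ⟨m, rfl⟩ := Nat.exists_eq_add_of_le hi
    exact h2 m
  linarith

theorem barrier (K C7 : ℝ) (hC : 0 ≤ C7) (hK : 7 * C7 + 1 ≤ K) (X Y : ℕ → ℝ) (hY : ∀ n, 0 < Y n)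
    (hX0 : Tendsto X atTop (𝓝 0)) (hY0 : Tendsto Y atTop (𝓝 0))
    (h1 : ∀ n, |X (n + 1) - X n + K * Y n ^ 2| ≤ C7 * Y n ^ 2)
    (h2 : ∀ n, |Y (n + 1) - Y n + K * X n * Y n| ≤ C7 * Y n * (|X n| + Y n)) :
    ∀ n, Y n / 2 < X n ∧ X n < 2 * Y n := by
  have hsq : ∀ n, 0 < Y n ^ 2 := fun n => by have := hY n; positivity
  -- (1) positivity of X
  have hXpos : ∀ n, 0 < X n := by
    intro n
    have := barrier_aux (fun n => - X n) (by simpa using hX0.neg) (fun m _ => by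
      have h3 := (abs_le.1 (h1 m)).2
      have h4 := hsq m
      show - X m < - X (m + 1)
      nlinarith) n
    linarith
  intro n
  constructor
  · -- lower barrier
    have := barrier_aux (fun n => Y n / 2 - X n)
      (by simpa using (hY0.div_const 2).sub hX0) (fun m hm => by
        have hm' : X m ≤ Y m / 2 := by linarith
        have h3 := (abs_le.1 (h1 m)).2
        have h4 := (abs_le.1 (h2 m)).1
        rw [abs_of_pos (hXpos m)] at h4
        have h5 := hsq m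
        have h6 := hY m
        have h7 := hXpos m
        have h8 : X m * Y m ≤ Y m ^ 2 / 2 := by nlinarith
        have hK0 : 0 ≤ K := by linarith
        have h9 : K * X m * Y m ≤ K * (Y m ^ 2 / 2) := by
          rw [mul_assoc]
          exact mul_le_mul_of_nonneg_left h8 hK0
        have h10 : C7 * Y m * (X m + Y m) ≤ C7 * (3 / 2 * Y m ^ 2) := by
          rw [mul_assoc]
          apply mul_le_mul_of_nonneg_left _ hC
          nlinarith
        show Y m / 2 - X m < Y (m + 1) / 2 - X (m + 1)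
        nlinarith) n
    linarith
  · -- upper barrier
    have := barrier_aux (fun n => X n - 2 * Y n)
      (by simpa using hX0.sub (hY0.const_mul 2)) (fun m hm => by
        have hm' : 2 * Y m ≤ X m := by linarith
        have h3 := (abs_le.1 (h1 m)).1
        have h4 := (abs_le.1 (h2 m)).2
        rw [abs_of_pos (hXpos m)] at h4
        have h5 := hsq m
        have h6 := hY m
        have h7 := hXpos m
        have hKC : 0 ≤ K - C7 := by linarith
        have h8 : 2 * Y m ^ 2 ≤ X m * Y m := by nlinarith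
        have h9 : (K - C7) * (2 * Y m ^ 2) ≤ (K - C7) * (X m * Y m) :=
          mul_le_mul_of_nonneg_left h8 hKC
        show X m - 2 * Y m < X (m + 1) - 2 * Y (m + 1)
        nlinarith) n
    linarith

theorem recip_growth (K C7 : ℝ) (hC : 0 ≤ C7) (hK : 12 * C7 + 1 ≤ K) (X Y Y' : ℝ) (hY : 0 < Y) (hs : Y ≤ 1 / (6 * K))
    (hc1 : Y / 2 < X) (hc2 : X < 2 * Y) (h2 : |Y' - Y + K * X * Y| ≤ C7 * Y * (|X| + Y)) :
    0 < Y' ∧ K / 4 ≤ 1 / Y' - 1 / Y ∧ 1 / Y' - 1 / Y ≤ 6 * K := by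
  have hK0 : 0 < K := by linarith
  have hX : 0 < X := by linarith
  rw [abs_of_pos hX] at h2
  have hY2 : 0 < Y ^ 2 := by positivity
  have he : C7 * Y * (X + Y) ≤ K / 4 * Y ^ 2 := by
    have h3 : C7 * Y * (X + Y) ≤ C7 * (3 * Y ^ 2) := by
      rw [mul_assoc]
      apply mul_le_mul_of_nonneg_left _ hC
      nlinarith
    nlinarith
  have hlo : K * (Y ^ 2 / 2) ≤ K * X * Y := by
    rw [mul_assoc]
    apply mul_le_mul_of_nonneg_left _ hK0.le
    nlinarith
  have hhi : K * X * Y ≤ K * (2 * Y ^ 2) := by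
    rw [mul_assoc]
    apply mul_le_mul_of_nonneg_left _ hK0.le
    nlinarith
  have h3 := (abs_le.1 h2).1
  have h4 := (abs_le.1 h2).2
  have hd1 : K / 4 * Y ^ 2 ≤ Y - Y' := by linarith
  have hd2 : Y - Y' ≤ 3 * K * Y ^ 2 := by nlinarith
  have hKY : 6 * K * Y ≤ 1 := by
    rw [le_div_iff₀ (by positivity)] at hs
    linarith
  have hhalf : Y / 2 ≤ Y' := by nlinarith
  have hY' : 0 < Y' := by linarith
  have hle : Y' ≤ Y := by nlinarith
  have e : 1 / Y' - 1 / Y = (Y - Y') / (Y * Y') := by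
    field_simp
  refine ⟨hY', ?_, ?_⟩
  · rw [e, le_div_iff₀ (by positivity)]
    nlinarith
  · rw [e, div_le_iff₀ (by positivity)]
    nlinarith

end Claimed.Agent.R285.F5

/-!
# ROW 285, [F] s5.4, leaf REC-4: `x ≍ y ≍ 1/j` (trj:rough-decay).  Paper-free.      (contract helper94)

`rec_cone`: take `C7` from `rec_sampled`, `K = ⌈7 C7 + 1⌉₊`, `J` from `rec_sampled K`; for `j ≥ J` apply `barrier` to `X n = x (j + n * K)`, `Y n = y (j + n * K)` and read it at `n = 0`.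
`rec_decay`: `K = ⌈12 C7 + 1⌉₊`; `J` beyond the thresholds of `rec_sampled K`, `rec_cone` and of `y ≤ 1 / (6 K)`.  By `recip_growth` and induction on `n`:
`1 / y_{j*} + n K / 4 ≤ 1 / y_{j* + n K} ≤ 1 / y_{j*} + 6 K n`.  Write `j = j* + n K`, `j* = J + (j - J) % K`, `n = (j - J) / K`: `n K ≥ j - J - K`, so `1 / y_j ≥ j / 8` for `j ≥ 2 (J + K)`;
`1 / y_j ≤ M + 6 j`, `M = ∑_{i ∈ [J, J + K)} 1 / y_i`.
-/

set_option autoImplicit false

namespace Claimed.Agent.R285.F5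

open Filter Topology

theorem rec_tendsto_sub {K : ℕ} (hK : 1 ≤ K) (j : ℕ) :
    Tendsto (fun n : ℕ => j + n * K) atTop atTop := by
  refine tendsto_atTop_mono (fun n => ?_) tendsto_id
  show n ≤ j + n * K
  nlinarith

theorem rec_cone {C : ℝ} {ax ay x y : ℕ → ℝ} {j1 : ℕ} (h : RecOK C ax ay x y j1) :
    ∃ J : ℕ, j1 ≤ J ∧ ∀ j, J ≤ j → y j / 2 < x j ∧ x j < 2 * y j := by
  obtain ⟨C7, hC7, hs⟩ := rec_sampled h
  obtain ⟨K, hKdef⟩ : ∃ K : ℕ, K = ⌈7 * C7 + 1⌉₊ := ⟨_, rfl⟩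
  have hK : 7 * C7 + 1 ≤ (K : ℝ) := by rw [hKdef]; exact Nat.le_ceil _
  have hK1 : 1 ≤ K := by
    have : (1 : ℝ) ≤ K := by linarith
    exact_mod_cast this
  obtain ⟨J, hJ, hJs⟩ := hs K
  refine ⟨J, hJ, fun j hj => ?_⟩
  have e : ∀ n : ℕ, j + (n + 1) * K = j + n * K + K := fun n => by ring
  have hb := barrier (K : ℝ) C7 hC7 hK (fun n => x (j + n * K)) (fun n => y (j + n * K))
    (fun n => h.y_pos _ (hJ.trans (hj.trans (Nat.le_add_right _ _))))
    (h.x_lim.comp (rec_tendsto_sub hK1 j)) (h.y_lim.comp (rec_tendsto_sub hK1 j))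
    (fun n => by
      show |x (j + (n + 1) * K) - x (j + n * K) + K * y (j + n * K) ^ 2| ≤ _
      rw [e]
      exact (hJs (j + n * K) (hj.trans (Nat.le_add_right _ _))).1)
    (fun n => by
      show |y (j + (n + 1) * K) - y (j + n * K) + K * x (j + n * K) * y (j + n * K)| ≤ _
      rw [e]
      exact (hJs (j + n * K) (hj.trans (Nat.le_add_right _ _))).2) 0
  simpa using hb

theorem rec_decay {C : ℝ} {ax ay x y : ℕ → ℝ} {j1 : ℕ} (h : RecOK C ax ay x y j1) :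
    ∃ (c C' : ℝ) (J : ℕ), 0 < c ∧ j1 ≤ J ∧ 1 ≤ J ∧ ∀ j, J ≤ j →
      c / (j : ℝ) ≤ y j ∧ y j ≤ C' / (j : ℝ) ∧ y j / 2 < x j ∧ x j < 2 * y j := by
  obtain ⟨C7, hC7, hs⟩ := rec_sampled h
  obtain ⟨K, hKdef⟩ : ∃ K : ℕ, K = ⌈12 * C7 + 1⌉₊ := ⟨_, rfl⟩
  have hK : 12 * C7 + 1 ≤ (K : ℝ) := by rw [hKdef]; exact Nat.le_ceil _
  have hK1r : (1 : ℝ) ≤ K := by linarith
  have hK1 : 1 ≤ K := by exact_mod_cast hK1r
  have hK0 : (0 : ℝ) < K := by linarith
  obtain ⟨Js, hJs1, hJs⟩ := hs K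
  obtain ⟨Jc, hJc1, hJc⟩ := rec_cone h
  obtain ⟨Jη, hJη1, hJη⟩ := rec_small h (η := 1 / (6 * K)) (by positivity)
  obtain ⟨J0, hJ0⟩ : ∃ J0 : ℕ, J0 = max Js (max Jc Jη) := ⟨_, rfl⟩
  have a1 : Js ≤ J0 := by rw [hJ0]; exact le_max_left _ _
  have a2 : Jc ≤ J0 := by rw [hJ0]; exact (le_max_left _ _).trans (le_max_right _ _)
  have a3 : Jη ≤ J0 := by rw [hJ0]; exact (le_max_right _ _).trans (le_max_right _ _)
  -- growth of the reciprocal along the sampled sequence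
  have hgrow : ∀ i, J0 ≤ i → ∀ n : ℕ, 1 / y i + n * (K / 4) ≤ 1 / y (i + n * K) ∧
      1 / y (i + n * K) ≤ 1 / y i + n * (6 * K) := by
    intro i hi n
    induction n with
    | zero => simp
    | succ n ih =>
      have hin : J0 ≤ i + n * K := hi.trans (Nat.le_add_right _ _)
      obtain ⟨-, hy0, hyη⟩ := hJη (i + n * K) (a3.trans hin)
      obtain ⟨c1, c2⟩ := hJc (i + n * K) (a2.trans hin)
      have hg := recip_growth (K : ℝ) C7 hC7 hK (x (i + n * K)) (y (i + n * K))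
        (y (i + n * K + K)) hy0 hyη c1 c2 (hJs (i + n * K) (a1.trans hin)).2
      have e : i + (n + 1) * K = i + n * K + K := by ring
      rw [e]
      push_cast
      constructor
      · linarith [hg.2.1, ih.1]
      · linarith [hg.2.2, ih.2]
  obtain ⟨Mb, hMb⟩ : ∃ Mb : ℝ, Mb = ∑ i ∈ Finset.Ico J0 (J0 + K), 1 / y i := ⟨_, rfl⟩
  have hypos : ∀ i, J0 ≤ i → 0 < y i := fun i hi => (hJη i (a3.trans hi)).2.1
  have hMle : ∀ i, J0 ≤ i → i < J0 + K → 1 / y i ≤ Mb := by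
    intro i h1 h2
    rw [hMb]
    exact Finset.single_le_sum (f := fun i => 1 / y i)
      (fun l hl => (one_div_pos.2 (hypos l (Finset.mem_Ico.1 hl).1)).le)
      (Finset.mem_Ico.2 ⟨h1, h2⟩)
  have hMb0 : 0 < Mb := lt_of_lt_of_le (one_div_pos.2 (hypos J0 le_rfl))
    (hMle J0 le_rfl (by omega))
  refine ⟨1 / (Mb + 6), 8, 2 * (J0 + K), by positivity, ?_, by omega, fun j hj => ?_⟩
  · have : j1 ≤ J0 := hJs1.trans a1
    omega
  have hjJ0 : J0 ≤ j := by omega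
  obtain ⟨n, i, hi1, hi2, hji⟩ : ∃ n i : ℕ, J0 ≤ i ∧ i < J0 + K ∧ j = i + n * K := by
    refine ⟨(j - J0) / K, J0 + (j - J0) % K, Nat.le_add_right _ _, ?_, ?_⟩
    · have := Nat.mod_lt (j - J0) hK1
      omega
    · have := Nat.mod_add_div (j - J0) K
      rw [mul_comm] at this
      omega
  obtain ⟨g1, g2⟩ := hgrow i hi1 n
  rw [← hji] at g1 g2
  have hyj := hypos j hjJ0
  have hjr : (0 : ℝ) < j := by
    have : 0 < j := by omega
    exact_mod_cast this
  have hnK : (j : ℝ) = i + n * K := by exact_mod_cast hji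
  have hir : (i : ℝ) < J0 + K := by exact_mod_cast hi2
  have hj2 : 2 * ((J0 : ℝ) + K) ≤ j := by exact_mod_cast hj
  have hi0 : 0 < 1 / y i := one_div_pos.2 (hypos i hi1)
  refine ⟨?_, ?_, hJc j (a2.trans hjJ0)⟩
  · -- lower bound of `y`
    have h1 : 1 / y j ≤ (Mb + 6) * j := by
      have h2 := hMle i hi1 hi2
      have h3 : (n : ℝ) * (6 * K) ≤ 6 * j := by
        have : (0 : ℝ) ≤ i := Nat.cast_nonneg i
        nlinarith
      have h4 : (1 : ℝ) ≤ j := by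
        have : 1 ≤ j := by omega
        exact_mod_cast this
      nlinarith
    rw [div_div, div_le_iff₀ (by positivity)]
    rw [div_le_iff₀ hyj] at h1
    linarith
  · -- upper bound of `y`
    have h1 : (j : ℝ) / 8 ≤ 1 / y j := by
      have h2 : (j : ℝ) / 2 ≤ n * K := by linarith
      nlinarith
    rw [le_div_iff₀ hjr]
    rw [le_div_iff₀ hyj] at h1
    linarith

end Claimed.Agent.R285.F5

/-!
# ROW 285, [F] s5.4, leaf REC-5: Abel summation on a block, and the two dyadic summation lemmas.  Paper-free, abstract.      (contract helper94)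

`abel_block`: with `T_i = ∑_{l ∈ [i, j')} d_l`: `∑ w_i d_i = w_j T_j + ∑_{j < i < j'} (w_i - w_{i-1}) T_i`.  (Induction on `j' - j` from the left end is easiest:
`∑_{[j, j')} w_i d_i = w_j T_j - w_j T_{j+1} + ∑_{[j+1, j')} w_i d_i` and compare with the formula for `j + 1`: `w_{j+1} T_{j+1} - w_j T_{j+1}`.)
`dyadic_zero`: `|I_j| ≤ ∑_{s < r} A / 8^{k+s} + |I_{2^{k+r}}| ≤ (8/7) A / 8^k + |I_{2^{k+r}}|`, `r → ∞`; `j < 2^{k+1}` gives `1 / 8^k ≤ 8 / j³`.  (`k = Nat.log 2 j`.)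
`dyadic_log`: `|g_{2^k}| ≤ |g_{2^{k0}}| + A (k - k0)` by induction, `k = Nat.log 2 j ≤ log j / log 2`.
-/

set_option autoImplicit false

namespace Claimed.Agent.R285.F5

open Filter Topology

/-- Abel summation from the left end, in inequality form. -/
theorem abel_block_aux (w d : ℕ → ℝ) (D : ℝ) (n : ℕ) : ∀ j : ℕ,
    (∀ i, j ≤ i → i ≤ j + n → |∑ l ∈ Finset.Ico i (j + n), d l| ≤ D) →
    |∑ i ∈ Finset.Ico j (j + n), w i * d i - w j * ∑ l ∈ Finset.Ico j (j + n), d l| ≤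
      D * ∑ i ∈ Finset.Ico j (j + n), |w (i + 1) - w i| := by
  induction n with
  | zero =>
    intro j _
    simp
  | succ n ih =>
    intro j hD
    have e : j + (n + 1) = j + 1 + n := by ring
    have hlt : j < j + 1 + n := by omega
    rw [e] at hD ⊢
    have h1 := ih (j + 1) (fun i hi hi' => hD i (by omega) hi')
    have h2 := hD (j + 1) (by omega) (by omega)
    rw [Finset.sum_eq_sum_Ico_succ_bot hlt, Finset.sum_eq_sum_Ico_succ_bot hlt (fun l => d l),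
      Finset.sum_eq_sum_Ico_succ_bot hlt (fun i => |w (i + 1) - w i|)]
    have e2 : w j * d j + ∑ i ∈ Finset.Ico (j + 1) (j + 1 + n), w i * d i -
        w j * (d j + ∑ l ∈ Finset.Ico (j + 1) (j + 1 + n), d l) =
        (∑ i ∈ Finset.Ico (j + 1) (j + 1 + n), w i * d i -
          w (j + 1) * ∑ l ∈ Finset.Ico (j + 1) (j + 1 + n), d l) +
        (w (j + 1) - w j) * ∑ l ∈ Finset.Ico (j + 1) (j + 1 + n), d l := by ring
    rw [e2]
    have h3 : |(w (j + 1) - w j) * ∑ l ∈ Finset.Ico (j + 1) (j + 1 + n), d l| ≤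
        |w (j + 1) - w j| * D := by
      rw [abs_mul]
      exact mul_le_mul_of_nonneg_left h2 (abs_nonneg _)
    calc _ ≤ _ := abs_add_le _ _
      _ ≤ D * ∑ i ∈ Finset.Ico (j + 1) (j + 1 + n), |w (i + 1) - w i| + |w (j + 1) - w j| * D :=
          add_le_add h1 h3
      _ = _ := by ring

theorem abel_block (w d : ℕ → ℝ) (j j' : ℕ) (hjj : j ≤ j') (D : ℝ)
    (hD : ∀ i, j ≤ i → i ≤ j' → |∑ l ∈ Finset.Ico i j', d l| ≤ D) :
    |∑ i ∈ Finset.Ico j j', w i * d i| ≤ D * (|w j| + ∑ i ∈ Finset.Ico j j', |w (i + 1) - w i|) := by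
  obtain ⟨n, rfl⟩ := Nat.exists_eq_add_of_le hjj
  have h1 := abel_block_aux w d D n j hD
  have h2 := hD j le_rfl hjj
  have h3 : |w j * ∑ l ∈ Finset.Ico j (j + n), d l| ≤ |w j| * D := by
    rw [abs_mul]
    exact mul_le_mul_of_nonneg_left h2 (abs_nonneg _)
  have e : ∑ i ∈ Finset.Ico j (j + n), w i * d i =
      (∑ i ∈ Finset.Ico j (j + n), w i * d i - w j * ∑ l ∈ Finset.Ico j (j + n), d l) +
        w j * ∑ l ∈ Finset.Ico j (j + n), d l := by ring
  rw [e]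
  calc _ ≤ _ := abs_add_le _ _
    _ ≤ D * ∑ i ∈ Finset.Ico j (j + n), |w (i + 1) - w i| + |w j| * D := add_le_add h1 h3
    _ = _ := by ring

theorem dyadic_zero (I : ℕ → ℝ) (A : ℝ) (k0 : ℕ) (hI : Tendsto I atTop (𝓝 0))
    (hb : ∀ k, k0 ≤ k → ∀ j j', 2 ^ k ≤ j → j ≤ j' → j' ≤ 2 ^ (k + 1) → |I j' - I j| ≤ A / 8 ^ k) :
    ∀ j, 2 ^ k0 ≤ j → |I j| ≤ 10 * A / (j : ℝ) ^ 3 := by
  intro j hj
  have hj0 : j ≠ 0 := by
    have : 0 < 2 ^ k0 := by positivity
    omega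
  obtain ⟨k, hk⟩ : ∃ k, k = Nat.log 2 j := ⟨_, rfl⟩
  have hk1 : 2 ^ k ≤ j := by rw [hk]; exact Nat.pow_log_le_self 2 hj0
  have hk2 : j < 2 ^ (k + 1) := by rw [hk]; exact Nat.lt_pow_succ_log_self (by norm_num) j
  have hk0 : k0 ≤ k := by
    rw [hk]
    exact (Nat.le_log_iff_pow_le (by norm_num) hj0).2 hj
  have hA : 0 ≤ A := by
    have h1 := hb k hk0 j j hk1 le_rfl hk2.le
    simp only [sub_self, abs_zero] at h1
    by_contra hneg
    rw [not_le] at hneg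
    have : A / 8 ^ k < 0 := div_neg_of_neg_of_pos hneg (by positivity)
    linarith
  have hstep : ∀ r : ℕ, |I j - I (2 ^ (k + 1 + r))| ≤
      8 / 7 * (A / 8 ^ k) * (1 - (1 / 8 : ℝ) ^ (r + 1)) := by
    intro r
    induction r with
    | zero =>
      have h1 := hb k hk0 j (2 ^ (k + 1)) hk1 hk2.le le_rfl
      rw [abs_sub_comm] at h1
      have e : 8 / 7 * (A / 8 ^ k) * (1 - (1 / 8 : ℝ) ^ (0 + 1)) = A / 8 ^ k := by ring
      rw [e]
      exact h1
    | succ r ih =>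
      have h1 := hb (k + 1 + r) (by omega) (2 ^ (k + 1 + r)) (2 ^ (k + 1 + r + 1)) le_rfl
        (Nat.pow_le_pow_right (by norm_num) (Nat.le_succ _)) le_rfl
      have e1 : k + 1 + (r + 1) = k + 1 + r + 1 := by ring
      rw [e1]
      have e2 : A / 8 ^ (k + 1 + r) = A / 8 ^ k * (1 / 8 : ℝ) ^ (r + 1) := by
        rw [add_assoc, pow_add, one_div, inv_pow, add_comm 1 r]
        field_simp
      rw [e2, abs_sub_comm] at h1
      have e3 : I j - I (2 ^ (k + 1 + r + 1)) =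
          (I j - I (2 ^ (k + 1 + r))) + (I (2 ^ (k + 1 + r)) - I (2 ^ (k + 1 + r + 1))) := by ring
      rw [e3]
      calc _ ≤ _ := abs_add_le _ _
        _ ≤ 8 / 7 * (A / 8 ^ k) * (1 - (1 / 8 : ℝ) ^ (r + 1)) + A / 8 ^ k * (1 / 8 : ℝ) ^ (r + 1) :=
            add_le_add ih h1
        _ = _ := by ring
  have hlim : Tendsto (fun r : ℕ => |I j - I (2 ^ (k + 1 + r))|) atTop (𝓝 |I j - 0|) := by
    have h1 : Tendsto (fun r : ℕ => 2 ^ (k + 1 + r)) atTop atTop :=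
      (tendsto_pow_atTop_atTop_of_one_lt (by norm_num : 1 < 2)).comp
        (tendsto_atTop_mono (fun r => Nat.le_add_left r (k + 1)) tendsto_id)
    exact ((tendsto_const_nhds.sub (hI.comp h1))).abs
  have hAk : 0 ≤ A / 8 ^ k := by positivity
  have h2 : |I j - 0| ≤ 8 / 7 * (A / 8 ^ k) := by
    refine le_of_tendsto hlim (Eventually.of_forall fun r => (hstep r).trans ?_)
    have : 0 ≤ (1 / 8 : ℝ) ^ (r + 1) := by positivity
    nlinarith
  rw [sub_zero] at h2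
  refine h2.trans ?_
  have hjr : (0 : ℝ) < j := by exact_mod_cast Nat.pos_of_ne_zero hj0
  have h3 : (j : ℝ) ^ 3 ≤ 8 * 8 ^ k := by
    have h4 : (j : ℝ) ≤ 2 ^ (k + 1) := by exact_mod_cast hk2.le
    calc (j : ℝ) ^ 3 ≤ (2 ^ (k + 1)) ^ 3 := pow_le_pow_left₀ hjr.le h4 3
      _ = 8 * 8 ^ k := by
          rw [← pow_mul, show (8 : ℝ) = 2 ^ 3 by norm_num, ← pow_mul, ← pow_add]
          congr 1
          ring
  rw [le_div_iff₀ (by positivity)]
  have h5 : A / 8 ^ k * (j : ℝ) ^ 3 ≤ A / 8 ^ k * (8 * 8 ^ k) := mul_le_mul_of_nonneg_left h3 hAk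
  have h6 : A / 8 ^ k * (8 * 8 ^ k) = 8 * A := by field_simp
  nlinarith

theorem dyadic_log (g : ℕ → ℝ) (A : ℝ) (k0 : ℕ)
    (hb : ∀ k, k0 ≤ k → ∀ j, 2 ^ k ≤ j → j ≤ 2 ^ (k + 1) → |g j - g (2 ^ k)| ≤ A) :
    ∃ A' : ℝ, ∀ j, 2 ^ k0 ≤ j → |g j| ≤ A' * Real.log (2 + j) := by
  have hA : 0 ≤ A := by
    have h1 := hb k0 le_rfl (2 ^ k0) le_rfl (Nat.pow_le_pow_right (by norm_num) (Nat.le_succ _))
    simpa using h1
  have hpow : ∀ n : ℕ, |g (2 ^ (k0 + n))| ≤ |g (2 ^ k0)| + A * n := by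
    intro n
    induction n with
    | zero => simp
    | succ n ih =>
      have h1 := hb (k0 + n) (by omega) (2 ^ (k0 + n + 1))
        (Nat.pow_le_pow_right (by norm_num) (Nat.le_succ _)) le_rfl
      have e : k0 + (n + 1) = k0 + n + 1 := by ring
      rw [e]
      have h2 : |g (2 ^ (k0 + n + 1))| ≤ |g (2 ^ (k0 + n + 1)) - g (2 ^ (k0 + n))| +
          |g (2 ^ (k0 + n))| := by
        have e2 : g (2 ^ (k0 + n + 1)) = (g (2 ^ (k0 + n + 1)) - g (2 ^ (k0 + n))) +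
          g (2 ^ (k0 + n)) := by ring
        conv_lhs => rw [e2]
        exact abs_add_le _ _
      push_cast
      linarith
  have hl2 : 0 < Real.log 2 := Real.log_pos (by norm_num)
  refine ⟨(|g (2 ^ k0)| + 2 * A) / Real.log 2, fun j hj => ?_⟩
  have hj0 : j ≠ 0 := by
    have : 0 < 2 ^ k0 := by positivity
    omega
  obtain ⟨k, hk⟩ : ∃ k, k = Nat.log 2 j := ⟨_, rfl⟩
  have hk1 : 2 ^ k ≤ j := by rw [hk]; exact Nat.pow_log_le_self 2 hj0
  have hk2 : j < 2 ^ (k + 1) := by rw [hk]; exact Nat.lt_pow_succ_log_self (by norm_num) j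
  have hk0 : k0 ≤ k := by
    rw [hk]
    exact (Nat.le_log_iff_pow_le (by norm_num) hj0).2 hj
  obtain ⟨n, rfl⟩ := Nat.exists_eq_add_of_le hk0
  have h1 := hb (k0 + n) hk0 j hk1 hk2.le
  have h2 := hpow n
  have h3 : |g j| ≤ |g j - g (2 ^ (k0 + n))| + |g (2 ^ (k0 + n))| := by
    have e2 : g j = (g j - g (2 ^ (k0 + n))) + g (2 ^ (k0 + n)) := by ring
    conv_lhs => rw [e2]
    exact abs_add_le _ _
  have hjr : (0 : ℝ) < j := by exact_mod_cast Nat.pos_of_ne_zero hj0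
  -- `n log 2 ≤ log (2 + j)` and `log 2 ≤ log (2 + j)`
  have h4 : (n : ℝ) * Real.log 2 ≤ Real.log (2 + j) := by
    have h5 : ((2 : ℝ) ^ n) ≤ 2 + j := by
      have h6 : (2 : ℝ) ^ n ≤ 2 ^ (k0 + n) := pow_le_pow_right₀ (by norm_num) (by omega)
      have h7 : ((2 : ℝ) ^ (k0 + n)) ≤ j := by exact_mod_cast hk1
      linarith
    have := Real.log_le_log (by positivity) h5
    rwa [Real.log_pow] at this
  have h5 : Real.log 2 ≤ Real.log (2 + j) := Real.log_le_log (by norm_num) (by linarith)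
  rw [div_mul_eq_mul_div, le_div_iff₀ hl2]
  have hg0 : 0 ≤ |g (2 ^ k0)| := abs_nonneg _
  have h6 : |g j| ≤ |g (2 ^ k0)| + A * n + A := by linarith
  calc |g j| * Real.log 2 ≤ (|g (2 ^ k0)| + A * n + A) * Real.log 2 :=
        mul_le_mul_of_nonneg_right h6 hl2.le
    _ = |g (2 ^ k0)| * Real.log 2 + A * (n * Real.log 2) + A * Real.log 2 := by ring
    _ ≤ |g (2 ^ k0)| * Real.log (2 + j) + A * Real.log (2 + j) + A * Real.log (2 + j) := by
        have i1 := mul_le_mul_of_nonneg_left h5 hg0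
        have i2 := mul_le_mul_of_nonneg_left h4 hA
        have i3 := mul_le_mul_of_nonneg_left h5 hA
        linarith
    _ = (|g (2 ^ k0)| + 2 * A) * Real.log (2 + j) := by ring

end Claimed.Agent.R285.F5

/-!
# ROW 285, [F] s5.4, leaf REC-6: the invariant `I_j = x_j² - y_j²` (trj:separatrix-error).  Paper-free.      (contract helper94)

`inv_step`.  Ordinary: `x₊ - x = -a y² + O(j⁻³)`, `y₊ - y = -b x y + O(j⁻³)`, `x₊ + x = 2 x + O(j⁻²)`, `y₊ + y = 2 y + O(j⁻²)`: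
`I₊ - I = (x₊ - x)(x₊ + x) - (y₊ - y)(y₊ + y) = 2 x y² (b - a) + O(j⁻⁴)`.  Switch: both increments are `O(j⁻²)`, so `I₊ - I = O(j⁻³)`, and `2 x y² (b - a) = O(j⁻³)`.
The weight `w = 2 x y²` has `|w_j| ≤ A / j³`, `|w_{j+1} - w_j| ≤ A / j⁴` (all steps).
`inv_block`.  Sum `inv_step` over `[j, j') ⊆ [2^k, 2^{k+1})`: only the last step `i = 2^{k+1} - 1` can be a switch; `abel_block` with `d = ay - ax`, `D = 2 C` (`ax_sum`, `ay_sum`: `j' ≤ 2^{k+1} ≤ 2 i`).
-/

set_option autoImplicit false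

namespace Claimed.Agent.R285.F5

open Filter Topology

theorem rec_abs_mul_le {a b A B : ℝ} (ha : |a| ≤ A) (hb : |b| ≤ B) : |a * b| ≤ A * B := by
  rw [abs_mul]
  exact mul_le_mul ha hb (abs_nonneg _) ((abs_nonneg _).trans ha)

/-- the increments are `O(t²)`, the ordinary errors `O(t³)` -/
theorem inv_real_incr {C C' t a b x y x1 y1 : ℝ} (hC : 0 ≤ C) (hC' : 0 ≤ C') (ht0 : 0 ≤ t) (ht1 : t ≤ 1)
    (ha : |a| ≤ C) (hb : |b| ≤ C) (hx : |x| ≤ C' * t) (hy0 : 0 ≤ y) (hy : y ≤ C' * t)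
    (h1 : |x1 - x + a * y ^ 2| ≤ C * y ^ 2 * (|x| + y)) (h2 : |y1 - y + b * x * y| ≤ C * y * (x ^ 2 + y ^ 2)) :
    |x1 - x + a * y ^ 2| ≤ 2 * C * C' ^ 3 * t ^ 3 ∧ |y1 - y + b * x * y| ≤ 2 * C * C' ^ 3 * t ^ 3 ∧
      |x1 - x| ≤ (2 * C * C' ^ 2 + 2 * C * C' ^ 3) * t ^ 2 ∧ |y1 - y| ≤ (2 * C * C' ^ 2 + 2 * C * C' ^ 3) * t ^ 2 := by
  have hP : 0 ≤ C' * t := mul_nonneg hC' ht0
  have hyy : |y| ≤ C' * t := by rwa [abs_of_nonneg hy0]
  have hy2 : y ^ 2 ≤ (C' * t) ^ 2 := pow_le_pow_left₀ hy0 hy 2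
  have hx2 : x ^ 2 ≤ (C' * t) ^ 2 := by
    rw [← sq_abs x]
    exact pow_le_pow_left₀ (abs_nonneg _) hx 2
  have ht32 : t ^ 3 ≤ t ^ 2 := pow_le_pow_of_le_one ht0 ht1 (by norm_num)
  have e1 : |x1 - x + a * y ^ 2| ≤ 2 * C * C' ^ 3 * t ^ 3 := by
    refine h1.trans ?_
    calc C * y ^ 2 * (|x| + y) ≤ C * (C' * t) ^ 2 * (C' * t + C' * t) := by
          apply mul_le_mul (mul_le_mul_of_nonneg_left hy2 hC) (add_le_add hx hy)
            (add_nonneg (abs_nonneg _) hy0) (by positivity)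
      _ = 2 * C * C' ^ 3 * t ^ 3 := by ring
  have e2 : |y1 - y + b * x * y| ≤ 2 * C * C' ^ 3 * t ^ 3 := by
    refine h2.trans ?_
    calc C * y * (x ^ 2 + y ^ 2) ≤ C * (C' * t) * ((C' * t) ^ 2 + (C' * t) ^ 2) := by
          apply mul_le_mul (mul_le_mul_of_nonneg_left hy hC) (add_le_add hx2 hy2)
            (by positivity) (by positivity)
      _ = 2 * C * C' ^ 3 * t ^ 3 := by ring
  have hE : 2 * C * C' ^ 3 * t ^ 3 ≤ 2 * C * C' ^ 3 * t ^ 2 :=
    mul_le_mul_of_nonneg_left ht32 (by positivity)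
  have hay : |a * y ^ 2| ≤ C * (C' * t) ^ 2 := by
    apply rec_abs_mul_le ha
    rwa [abs_of_nonneg (by positivity)]
  have hbxy : |b * x * y| ≤ C * (C' * t) * (C' * t) := rec_abs_mul_le (rec_abs_mul_le hb hx) hyy
  have hpos : 0 ≤ C * C' ^ 2 * t ^ 2 := by positivity
  refine ⟨e1, e2, ?_, ?_⟩
  · have := abs_le.1 e1
    have := abs_le.1 hay
    rw [abs_le]
    constructor <;> nlinarith
  · have := abs_le.1 e2
    have := abs_le.1 hbxy
    rw [abs_le]
    constructor <;> nlinarith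

/-- consequences of `|x|, |y| ≤ P`, `|dx|, |dy| ≤ Q` -/
theorem inv_real_main {P Q x y x1 y1 : ℝ} (hx : |x| ≤ P) (hy : |y| ≤ P)
    (hdx : |x1 - x| ≤ Q) (hdy : |y1 - y| ≤ Q) :
    |(x1 ^ 2 - y1 ^ 2) - (x ^ 2 - y ^ 2)| ≤ 4 * (P * Q) + 2 * (Q * Q) ∧
      |2 * x * y ^ 2| ≤ 2 * (P * (P * P)) ∧
      |2 * x1 * y1 ^ 2 - 2 * x * y ^ 2| ≤ 2 * (Q * ((P + Q) * (P + Q))) + 2 * (P * (Q * (P + Q + P))) := by
  have hy1 : |y1| ≤ P + Q := by
    have := abs_le.1 hy
    have := abs_le.1 hdy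
    rw [abs_le]
    constructor <;> linarith
  have hyy1 : |y1 + y| ≤ P + Q + P := (abs_add_le _ _).trans (add_le_add hy1 hy)
  refine ⟨?_, ?_, ?_⟩
  · have h1 := abs_le.1 (rec_abs_mul_le hx hdx)
    have h2 := abs_le.1 (rec_abs_mul_le hy hdy)
    have h3 := abs_le.1 (rec_abs_mul_le hdx hdx)
    have h4 := abs_le.1 (rec_abs_mul_le hdy hdy)
    have e : (x1 ^ 2 - y1 ^ 2) - (x ^ 2 - y ^ 2) =
        2 * (x * (x1 - x)) + (x1 - x) * (x1 - x) - 2 * (y * (y1 - y)) - (y1 - y) * (y1 - y) := by ring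
    rw [e, abs_le]
    constructor <;> linarith
  · have h1 := abs_le.1 (rec_abs_mul_le hx (rec_abs_mul_le hy hy))
    have e : 2 * x * y ^ 2 = 2 * (x * (y * y)) := by ring
    rw [e, abs_le]
    constructor <;> linarith
  · have h1 := abs_le.1 (rec_abs_mul_le hdx (rec_abs_mul_le hy1 hy1))
    have h2 := abs_le.1 (rec_abs_mul_le hx (rec_abs_mul_le hdy hyy1))
    have e : 2 * x1 * y1 ^ 2 - 2 * x * y ^ 2 =
        2 * ((x1 - x) * (y1 * y1)) + 2 * (x * ((y1 - y) * (y1 + y))) := by ring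
    rw [e, abs_le]
    constructor <;> linarith

/-- the ordinary step of the invariant -/
theorem inv_real_ord {P Q R a b x y x1 y1 : ℝ} (hx : |x| ≤ P) (hy : |y| ≤ P)
    (hdx : |x1 - x| ≤ Q) (hdy : |y1 - y| ≤ Q)
    (he1 : |x1 - x + a * y ^ 2| ≤ R) (he2 : |y1 - y + b * x * y| ≤ R) :
    |(x1 ^ 2 - y1 ^ 2) - (x ^ 2 - y ^ 2) - 2 * x * y ^ 2 * (b - a)| ≤ 4 * (P * R) + 2 * (Q * Q) := by
  have h1 := abs_le.1 (rec_abs_mul_le hx he1)
  have h2 := abs_le.1 (rec_abs_mul_le hy he2)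
  have h3 := abs_le.1 (rec_abs_mul_le hdx hdx)
  have h4 := abs_le.1 (rec_abs_mul_le hdy hdy)
  have e : (x1 ^ 2 - y1 ^ 2) - (x ^ 2 - y ^ 2) - 2 * x * y ^ 2 * (b - a) =
      2 * (x * (x1 - x + a * y ^ 2)) + (x1 - x) * (x1 - x) - 2 * (y * (y1 - y + b * x * y))
        - (y1 - y) * (y1 - y) := by ring
  rw [e, abs_le]
  constructor <;> linarith

theorem inv_step {C : ℝ} {ax ay x y : ℕ → ℝ} {j1 : ℕ} (h : RecOK C ax ay x y j1) (C' : ℝ) (J : ℕ) (hJ : j1 ≤ J) (hJ1 : 1 ≤ J)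
    (hr : ∀ j, J ≤ j → |x j| ≤ C' / (j : ℝ) ∧ y j ≤ C' / (j : ℝ)) :
    ∃ A : ℝ, 0 ≤ A ∧ ∀ j, J ≤ j →
      (¬ IsSw j → |(x (j + 1) ^ 2 - y (j + 1) ^ 2) - (x j ^ 2 - y j ^ 2) - 2 * x j * y j ^ 2 * (ay j - ax j)| ≤ A / (j : ℝ) ^ 4) ∧
      (IsSw j → |(x (j + 1) ^ 2 - y (j + 1) ^ 2) - (x j ^ 2 - y j ^ 2) - 2 * x j * y j ^ 2 * (ay j - ax j)| ≤ A / (j : ℝ) ^ 3) ∧
      |2 * x j * y j ^ 2| ≤ A / (j : ℝ) ^ 3 ∧
      |2 * x (j + 1) * y (j + 1) ^ 2 - 2 * x j * y j ^ 2| ≤ A / (j : ℝ) ^ 4 := by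
  have hC : 0 ≤ C := (abs_nonneg _).trans (h.ax_bd 0)
  have hC' : 0 ≤ C' := by
    have h1 := (abs_nonneg _).trans (hr J le_rfl).1
    have hJ0 : (0 : ℝ) < J := by exact_mod_cast hJ1
    by_contra hneg
    have := div_neg_of_neg_of_pos (not_le.1 hneg) hJ0
    linarith
  obtain ⟨M, hM⟩ : ∃ M : ℝ, M = 2 * C * C' ^ 2 + 2 * C * C' ^ 3 := ⟨_, rfl⟩
  have hM0 : 0 ≤ M := by rw [hM]; positivity
  obtain ⟨A1, hA1⟩ : ∃ A1 : ℝ, A1 = 8 * C * C' ^ 4 + 2 * M ^ 2 := ⟨_, rfl⟩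
  obtain ⟨A2, hA2⟩ : ∃ A2 : ℝ, A2 = 4 * C' * M + 2 * M ^ 2 + 4 * C * C' ^ 3 := ⟨_, rfl⟩
  obtain ⟨A3, hA3⟩ : ∃ A3 : ℝ, A3 = 2 * C' ^ 3 := ⟨_, rfl⟩
  obtain ⟨A4, hA4⟩ : ∃ A4 : ℝ, A4 = 2 * M * (C' + M) ^ 2 + 2 * C' * M * (2 * C' + M) := ⟨_, rfl⟩
  have hA10 : 0 ≤ A1 := by rw [hA1]; positivity
  have hA20 : 0 ≤ A2 := by rw [hA2]; positivity
  have hA30 : 0 ≤ A3 := by rw [hA3]; positivity
  have hA40 : 0 ≤ A4 := by rw [hA4]; positivity
  refine ⟨A1 + A2 + A3 + A4, by positivity, fun j hj => ?_⟩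
  have hj1 : (1 : ℝ) ≤ j := by exact_mod_cast hJ1.trans hj
  have hj0 : (0 : ℝ) < j := by linarith
  obtain ⟨t, ht⟩ : ∃ t : ℝ, t = 1 / (j : ℝ) := ⟨_, rfl⟩
  have ht0 : 0 ≤ t := by rw [ht]; positivity
  have ht1 : t ≤ 1 := by rw [ht, div_le_one hj0]; exact hj1
  have e3 : ∀ A : ℝ, A / (j : ℝ) ^ 3 = A * t ^ 3 := fun A => by rw [ht, one_div, inv_pow, div_eq_mul_inv]
  have e4 : ∀ A : ℝ, A / (j : ℝ) ^ 4 = A * t ^ 4 := fun A => by rw [ht, one_div, inv_pow, div_eq_mul_inv]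
  have e1 : C' / (j : ℝ) = C' * t := by rw [ht, one_div, div_eq_mul_inv]
  rw [e3, e4]
  have hy0 := (h.y_pos j (hJ.trans hj)).le
  obtain ⟨hx, hy⟩ := hr j hj
  rw [e1] at hx hy
  have hyy : |y j| ≤ C' * t := by rwa [abs_of_nonneg hy0]
  have hP : 0 ≤ C' * t := mul_nonneg hC' ht0
  have hQ : 0 ≤ M * t ^ 2 := by positivity
  have ht43 : t ^ 4 ≤ t ^ 3 := pow_le_pow_of_le_one ht0 ht1 (by norm_num)
  have ht21 : t ^ 2 ≤ t := by
    have := pow_le_pow_of_le_one ht0 ht1 (show 1 ≤ 2 by norm_num)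
    simpa using this
  have ht3 : 0 ≤ t ^ 3 := by positivity
  have ht4 : 0 ≤ t ^ 4 := by positivity
  -- increments
  have hinc : |x (j + 1) - x j| ≤ M * t ^ 2 ∧ |y (j + 1) - y j| ≤ M * t ^ 2 := by
    by_cases hsw : IsSw j
    · have h1 := h.sw_x j (hJ.trans hj) hsw
      have h2 := h.sw_y j (hJ.trans hj) hsw
      have hy2 : y j ^ 2 ≤ (C' * t) ^ 2 := pow_le_pow_left₀ hy0 hy 2
      have hpos : 0 ≤ C * C' ^ 3 * t ^ 2 := by positivity
      have hpos2 : 0 ≤ C * C' ^ 2 * t ^ 2 := by positivity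
      constructor
      · refine h1.trans ?_
        calc C * y j ^ 2 ≤ C * (C' * t) ^ 2 := mul_le_mul_of_nonneg_left hy2 hC
          _ ≤ M * t ^ 2 := by rw [hM]; nlinarith
      · refine h2.trans ?_
        calc C * y j * (|x j| + y j) ≤ C * (C' * t) * (C' * t + C' * t) := by
              apply mul_le_mul (mul_le_mul_of_nonneg_left hy hC) (add_le_add hx hy)
                (add_nonneg (abs_nonneg _) hy0) (by positivity)
          _ ≤ M * t ^ 2 := by rw [hM]; nlinarith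
    · have := inv_real_incr hC hC' ht0 ht1 (h.ax_bd j) (h.ay_bd j) hx hy0 hy
        (h.ord_x j (hJ.trans hj) hsw) (h.ord_y j (hJ.trans hj) hsw)
      rw [hM]
      exact ⟨this.2.2.1, this.2.2.2⟩
  obtain ⟨m1, m2, m3⟩ := inv_real_main hx hyy hinc.1 hinc.2
  have hm2 : |2 * x j * y j ^ 2| ≤ A3 * t ^ 3 := by
    refine m2.trans (le_of_eq ?_)
    rw [hA3]; ring
  refine ⟨fun hsw => ?_, fun hsw => ?_, ?_, ?_⟩
  · have := inv_real_incr hC hC' ht0 ht1 (h.ax_bd j) (h.ay_bd j) hx hy0 hy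
      (h.ord_x j (hJ.trans hj) hsw) (h.ord_y j (hJ.trans hj) hsw)
    refine (inv_real_ord hx hyy hinc.1 hinc.2 this.1 this.2.1).trans ?_
    calc 4 * (C' * t * (2 * C * C' ^ 3 * t ^ 3)) + 2 * (M * t ^ 2 * (M * t ^ 2)) = A1 * t ^ 4 := by
          rw [hA1]; ring
      _ ≤ (A1 + A2 + A3 + A4) * t ^ 4 := mul_le_mul_of_nonneg_right (by linarith) ht4
  · have hd : |ay j - ax j| ≤ 2 * C := by
      have := abs_le.1 (h.ax_bd j)
      have := abs_le.1 (h.ay_bd j)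
      rw [abs_le]
      constructor <;> linarith
    have hw := rec_abs_mul_le hm2 hd
    have hM2 : M ^ 2 * t ^ 4 ≤ M ^ 2 * t ^ 3 := mul_le_mul_of_nonneg_left ht43 (by positivity)
    calc |(x (j + 1) ^ 2 - y (j + 1) ^ 2) - (x j ^ 2 - y j ^ 2) - 2 * x j * y j ^ 2 * (ay j - ax j)|
        ≤ |(x (j + 1) ^ 2 - y (j + 1) ^ 2) - (x j ^ 2 - y j ^ 2)| + |2 * x j * y j ^ 2 * (ay j - ax j)| :=
          abs_sub _ _
      _ ≤ (4 * (C' * t * (M * t ^ 2)) + 2 * (M * t ^ 2 * (M * t ^ 2))) + A3 * t ^ 3 * (2 * C) :=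
          add_le_add m1 hw
      _ = 4 * C' * M * t ^ 3 + 2 * (M ^ 2 * t ^ 4) + 4 * C * C' ^ 3 * t ^ 3 := by rw [hA3]; ring
      _ ≤ 4 * C' * M * t ^ 3 + 2 * (M ^ 2 * t ^ 3) + 4 * C * C' ^ 3 * t ^ 3 := by linarith
      _ = A2 * t ^ 3 := by rw [hA2]; ring
      _ ≤ (A1 + A2 + A3 + A4) * t ^ 3 := mul_le_mul_of_nonneg_right (by linarith) ht3
  · exact hm2.trans (mul_le_mul_of_nonneg_right (by linarith) ht3)
  · refine m3.trans ?_
    have hS : C' * t + M * t ^ 2 ≤ (C' + M) * t := by nlinarith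
    have hS0 : 0 ≤ C' * t + M * t ^ 2 := by positivity
    calc 2 * (M * t ^ 2 * ((C' * t + M * t ^ 2) * (C' * t + M * t ^ 2))) +
          2 * (C' * t * (M * t ^ 2 * (C' * t + M * t ^ 2 + C' * t)))
        ≤ 2 * (M * t ^ 2 * (((C' + M) * t) * ((C' + M) * t))) +
          2 * (C' * t * (M * t ^ 2 * ((C' + M) * t + C' * t))) := by gcongr
      _ = A4 * t ^ 4 := by rw [hA4]; ring
      _ ≤ (A1 + A2 + A3 + A4) * t ^ 4 := mul_le_mul_of_nonneg_right (by linarith) ht4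

theorem inv_block {C : ℝ} {ax ay x y : ℕ → ℝ} {j1 : ℕ} (h : RecOK C ax ay x y j1) (C' : ℝ) (J : ℕ) (hJ : j1 ≤ J) (hJ1 : 1 ≤ J)
    (hr : ∀ j, J ≤ j → |x j| ≤ C' / (j : ℝ) ∧ y j ≤ C' / (j : ℝ)) :
    ∃ A : ℝ, ∀ k, J ≤ 2 ^ k → ∀ j j', 2 ^ k ≤ j → j ≤ j' → j' ≤ 2 ^ (k + 1) →
      |(x j' ^ 2 - y j' ^ 2) - (x j ^ 2 - y j ^ 2)| ≤ A / 8 ^ k := by
  have hC : 0 ≤ C := (abs_nonneg _).trans (h.ax_bd 0)
  obtain ⟨A, hA, hs⟩ := inv_step h C' J hJ hJ1 hr
  refine ⟨2 * A + 4 * C * A, fun k hk j j' hj hjj hj' => ?_⟩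
  obtain ⟨K, rfl⟩ := Nat.exists_eq_add_of_le hjj
  rw [pow_succ] at hj'
  have hKj : K ≤ j := by omega
  have hK2 : K ≤ 2 ^ k := by omega
  obtain ⟨T, hT⟩ : ∃ T : ℝ, T = 2 ^ k := ⟨_, rfl⟩
  have hT0 : 0 < T := by rw [hT]; positivity
  have hKT : (K : ℝ) ≤ T := by rw [hT]; exact_mod_cast hK2
  have h8 : (8 : ℝ) ^ k = T ^ 3 := by
    rw [hT, ← pow_mul, mul_comm, pow_mul]; norm_num
  have hTi : ∀ i : ℕ, j ≤ i → T ≤ (i : ℝ) := fun i hi => by
    rw [hT]; exact_mod_cast hj.trans hi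
  have b3 : ∀ i : ℕ, j ≤ i → A / (i : ℝ) ^ 3 ≤ A / T ^ 3 := fun i hi =>
    div_le_div_of_nonneg_left hA (by positivity) (pow_le_pow_left₀ hT0.le (hTi i hi) 3)
  have b4 : ∀ i : ℕ, j ≤ i → A / (i : ℝ) ^ 4 ≤ A / T ^ 4 := fun i hi =>
    div_le_div_of_nonneg_left hA (by positivity) (pow_le_pow_left₀ hT0.le (hTi i hi) 4)
  have hK4 : (K : ℝ) * (A / T ^ 4) ≤ A / T ^ 3 := by
    calc (K : ℝ) * (A / T ^ 4) ≤ T * (A / T ^ 4) := mul_le_mul_of_nonneg_right hKT (by positivity)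
      _ = A / T ^ 3 := by field_simp
  have hJi : ∀ i : ℕ, j ≤ i → J ≤ i := fun i hi => hk.trans (hj.trans hi)
  -- telescoping
  have tel : (x (j + K) ^ 2 - y (j + K) ^ 2) - (x j ^ 2 - y j ^ 2) =
      ∑ m ∈ Finset.range K, ((x (j + m + 1) ^ 2 - y (j + m + 1) ^ 2) - (x (j + m) ^ 2 - y (j + m) ^ 2)
        - 2 * x (j + m) * y (j + m) ^ 2 * (ay (j + m) - ax (j + m))) +
      ∑ i ∈ Finset.Ico j (j + K), 2 * x i * y i ^ 2 * (ay i - ax i) := by
    have := Finset.sum_range_sub (fun m => x (j + m) ^ 2 - y (j + m) ^ 2) K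
    rw [Finset.sum_Ico_eq_sum_range, add_tsub_cancel_left, ← Finset.sum_add_distrib]
    simp only [sub_add_cancel]
    simpa [add_assoc] using this.symm
  have p1 := rec_sum_sw hKj (fun m => (x (j + m + 1) ^ 2 - y (j + m + 1) ^ 2) - (x (j + m) ^ 2 - y (j + m) ^ 2)
        - 2 * x (j + m) * y (j + m) ^ 2 * (ay (j + m) - ax (j + m))) (E1 := A / T ^ 4) (E2 := A / T ^ 3)
        (by positivity) (by positivity)
        (fun m _ hsw => ((hs (j + m) (hJi _ (Nat.le_add_right _ _))).1 hsw).trans (b4 _ (Nat.le_add_right _ _)))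
        (fun m _ hsw => ((hs (j + m) (hJi _ (Nat.le_add_right _ _))).2.1 hsw).trans (b3 _ (Nat.le_add_right _ _)))
  have p2 := abel_block (fun i => 2 * x i * y i ^ 2) (fun i => ay i - ax i) j (j + K) hjj (2 * C)
    (fun i hi hi' => by
      have s1 := abs_le.1 (h.ax_sum i (j + K) (hJ.trans (hJi i hi)) hi' (by omega))
      have s2 := abs_le.1 (h.ay_sum i (j + K) (hJ.trans (hJi i hi)) hi' (by omega))
      have e : ∑ l ∈ Finset.Ico i (j + K), (ay l - ax l) =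
          ∑ l ∈ Finset.Ico i (j + K), (ay l - 1) - ∑ l ∈ Finset.Ico i (j + K), (ax l - 1) := by
        rw [← Finset.sum_sub_distrib]
        exact Finset.sum_congr rfl fun l _ => by ring
      rw [e, abs_le]
      constructor <;> linarith)
  have p3 : ∑ i ∈ Finset.Ico j (j + K), |2 * x (i + 1) * y (i + 1) ^ 2 - 2 * x i * y i ^ 2| ≤ K * (A / T ^ 4) := by
    calc ∑ i ∈ Finset.Ico j (j + K), |2 * x (i + 1) * y (i + 1) ^ 2 - 2 * x i * y i ^ 2|
        ≤ ∑ _i ∈ Finset.Ico j (j + K), A / T ^ 4 := Finset.sum_le_sum fun i hi =>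
          ((hs i (hJi i (Finset.mem_Ico.1 hi).1)).2.2.2).trans (b4 i (Finset.mem_Ico.1 hi).1)
      _ = K * (A / T ^ 4) := by
          rw [Finset.sum_const, Nat.card_Ico, nsmul_eq_mul, add_tsub_cancel_left]
  have p4 : |2 * x j * y j ^ 2| ≤ A / T ^ 3 := ((hs j (hJi j le_rfl)).2.2.1).trans (b3 j le_rfl)
  have p5 : 2 * C * (|2 * x j * y j ^ 2| + ∑ i ∈ Finset.Ico j (j + K), |2 * x (i + 1) * y (i + 1) ^ 2 - 2 * x i * y i ^ 2|)
      ≤ 2 * C * (A / T ^ 3 + A / T ^ 3) :=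
    mul_le_mul_of_nonneg_left (add_le_add p4 (p3.trans hK4)) (by positivity)
  rw [tel, h8]
  refine (abs_add_le _ _).trans ?_
  calc _ ≤ ((K : ℝ) * (A / T ^ 4) + A / T ^ 3) + 2 * C * (A / T ^ 3 + A / T ^ 3) :=
        add_le_add p1 (p2.trans p5)
    _ ≤ (A / T ^ 3 + A / T ^ 3) + 2 * C * (A / T ^ 3 + A / T ^ 3) := by linarith
    _ = (2 * A + 4 * C * A) / T ^ 3 := by ring

end Claimed.Agent.R285.F5

/-!
# ROW 285, [F] s5.4, leaf REC-7: the reciprocal sum `1 / y_j = j + O(log j)`.  Paper-free.      (contract helper94)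

`recip_step`.  `1/y₊ - 1/y = (y - y₊) / (y y₊)`.  Ordinary: `y - y₊ = b x y + O(j⁻³)`; `y y₊ ≥ c² / (j (j+1)) ≥ c² / (2 j²)`; `b x / y₊ = b (x / y)(y / y₊)`, `x / y = 1 + O(1/j)` (`hxy`, `y ≥ c / j`),
`y / y₊ = 1 + O(1/j)` (`|y₊ - y| = O(j⁻²)`).  Switch: `|y - y₊| = O(j⁻²)`.
`recip_block`.  Sum over `[2^k, j)`, `j ≤ 2^{k+1}`: at most one switch (the last step), `∑ A / i ≤ A`, `|∑ (ay i - 1)| ≤ C` (`ay_sum`), the term `ay i` missing at the switch is `≤ C`.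
-/

set_option autoImplicit false

namespace Claimed.Agent.R285.F5

open Filter Topology

/-- a quotient bound: `|num| ≤ y * B`, `y1 ≥ m > 0` give `|num / (y * y1)| ≤ B / m` -/
theorem recip_real_quot {num y y1 B m : ℝ} (hy : 0 < y) (hm : 0 < m) (hy1 : m ≤ y1) (hB : 0 ≤ B)
    (hn : |num| ≤ y * B) : |num / (y * y1)| ≤ B / m := by
  have hy10 : 0 < y1 := hm.trans_le hy1
  rw [abs_div, abs_of_pos (mul_pos hy hy10), div_le_div_iff₀ (mul_pos hy hy10) hm]
  calc |num| * m ≤ y * B * y1 := mul_le_mul hn hy1 hm.le (by positivity)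
    _ = B * (y * y1) := by ring

theorem recip_real_ord {C C' c t b x y y1 : ℝ} (hC : 0 ≤ C) (hC' : 0 ≤ C') (hc : 0 < c) (ht0 : 0 < t) (ht1 : t ≤ 1)
    (hb : |b| ≤ C) (hy0 : 0 < y) (hy : y ≤ C' * t) (hxy : |x - y| ≤ C' * t ^ 2) (hy1 : c * t / 2 ≤ y1)
    (h2 : |y1 - y + b * x * y| ≤ C * y * (x ^ 2 + y ^ 2)) :
    |1 / y1 - 1 / y - b| ≤ 2 * (C * C' + C * (2 * C * C' ^ 2 + 5 * C * C' ^ 3) + 5 * C * C' ^ 2) / c * t := by
  have hm : 0 < c * t / 2 := by positivity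
  have hy10 : 0 < y1 := hm.trans_le hy1
  have ht21 : t ^ 2 ≤ t := by
    have := pow_le_pow_of_le_one ht0.le ht1 (show 1 ≤ 2 by norm_num)
    simpa using this
  have hyy : |y| ≤ C' * t := by rwa [abs_of_pos hy0]
  have hx : |x| ≤ 2 * C' * t := by
    have h1 := abs_le.1 hxy
    have : C' * t ^ 2 ≤ C' * t := mul_le_mul_of_nonneg_left ht21 hC'
    rw [abs_le]
    constructor <;> linarith
  have hx2 : x ^ 2 ≤ (2 * C' * t) ^ 2 := by
    rw [← sq_abs x]
    exact pow_le_pow_left₀ (abs_nonneg _) hx 2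
  have hy2 : y ^ 2 ≤ (C' * t) ^ 2 := pow_le_pow_left₀ hy0.le hy 2
  have he2 : |y1 - y + b * x * y| ≤ y * (5 * C * C' ^ 2 * t ^ 2) := by
    refine h2.trans ?_
    calc C * y * (x ^ 2 + y ^ 2) ≤ C * y * ((2 * C' * t) ^ 2 + (C' * t) ^ 2) :=
          mul_le_mul_of_nonneg_left (add_le_add hx2 hy2) (by positivity)
      _ = y * (5 * C * C' ^ 2 * t ^ 2) := by ring
  have hbx : |b * x| ≤ C * (2 * C' * t) := rec_abs_mul_le hb hx
  have hdy : |y - y1| ≤ (2 * C * C' ^ 2 + 5 * C * C' ^ 3) * t ^ 2 := by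
    have h3 : |b * x * y| ≤ C * (2 * C' * t) * (C' * t) := rec_abs_mul_le hbx hyy
    have h4 : y * (5 * C * C' ^ 2 * t ^ 2) ≤ C' * t * (5 * C * C' ^ 2 * t ^ 2) :=
      mul_le_mul_of_nonneg_right hy (by positivity)
    have h5 : C' * t * (5 * C * C' ^ 2 * t ^ 2) ≤ 5 * C * C' ^ 3 * t ^ 2 := by
      have : 0 ≤ 5 * C * C' ^ 3 * t ^ 2 := by positivity
      nlinarith
    have h6 := abs_le.1 h3
    have h7 := abs_le.1 he2
    rw [abs_le]
    constructor <;> nlinarith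
  have hnum : |y - y1 - b * y * y1| ≤
      y * ((C * C' + C * (2 * C * C' ^ 2 + 5 * C * C' ^ 3) + 5 * C * C' ^ 2) * t ^ 2) := by
    have e : y - y1 - b * y * y1 = y * (b * (x - y)) + y * (b * (y - y1)) - (y1 - y + b * x * y) := by ring
    have h3 : |y * (b * (x - y))| ≤ y * (C * (C' * t ^ 2)) := by
      rw [abs_mul, abs_of_pos hy0]
      exact mul_le_mul_of_nonneg_left (rec_abs_mul_le hb hxy) hy0.le
    have h4 : |y * (b * (y - y1))| ≤ y * (C * ((2 * C * C' ^ 2 + 5 * C * C' ^ 3) * t ^ 2)) := by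
      rw [abs_mul, abs_of_pos hy0]
      exact mul_le_mul_of_nonneg_left (rec_abs_mul_le hb hdy) hy0.le
    have h5 := abs_le.1 h3
    have h6 := abs_le.1 h4
    have h7 := abs_le.1 he2
    rw [e, abs_le]
    constructor <;> nlinarith
  have e : 1 / y1 - 1 / y - b = (y - y1 - b * y * y1) / (y * y1) := by
    field_simp
  rw [e]
  refine (recip_real_quot hy0 hm hy1 (by positivity) hnum).trans (le_of_eq ?_)
  field_simp

theorem recip_real_sw {C C' c t x y y1 : ℝ} (hC : 0 ≤ C) (hC' : 0 ≤ C') (hc : 0 < c) (ht0 : 0 < t) (ht1 : t ≤ 1)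
    (hy0 : 0 < y) (hy : y ≤ C' * t) (hxy : |x - y| ≤ C' * t ^ 2) (hy1 : c * t / 2 ≤ y1)
    (h2 : |y1 - y| ≤ C * y * (|x| + y)) :
    |1 / y1 - 1 / y| ≤ 6 * C * C' / c := by
  have hm : 0 < c * t / 2 := by positivity
  have hy10 : 0 < y1 := hm.trans_le hy1
  have ht21 : t ^ 2 ≤ t := by
    have := pow_le_pow_of_le_one ht0.le ht1 (show 1 ≤ 2 by norm_num)
    simpa using this
  have hx : |x| ≤ 2 * C' * t := by
    have h1 := abs_le.1 hxy
    have : C' * t ^ 2 ≤ C' * t := mul_le_mul_of_nonneg_left ht21 hC'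
    rw [abs_le]
    constructor <;> linarith
  have hnum : |y - y1| ≤ y * (3 * C * C' * t) := by
    rw [abs_sub_comm]
    refine h2.trans ?_
    calc C * y * (|x| + y) ≤ C * y * (2 * C' * t + C' * t) :=
          mul_le_mul_of_nonneg_left (add_le_add hx hy) (by positivity)
      _ = y * (3 * C * C' * t) := by ring
  have e : 1 / y1 - 1 / y = (y - y1) / (y * y1) := by
    field_simp
  rw [e]
  refine (recip_real_quot hy0 hm hy1 (by positivity) hnum).trans (le_of_eq ?_)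
  field_simp
  ring

theorem recip_step {C : ℝ} {ax ay x y : ℕ → ℝ} {j1 : ℕ} (h : RecOK C ax ay x y j1) (c C' : ℝ) (J : ℕ) (hc : 0 < c) (hJ : j1 ≤ J) (hJ1 : 1 ≤ J)
    (hr : ∀ j, J ≤ j → c / (j : ℝ) ≤ y j ∧ y j ≤ C' / (j : ℝ) ∧ |x j - y j| ≤ C' / (j : ℝ) ^ 2) :
    ∃ A : ℝ, 0 ≤ A ∧ ∀ j, J ≤ j →
      (¬ IsSw j → |1 / y (j + 1) - 1 / y j - ay j| ≤ A / (j : ℝ)) ∧ (IsSw j → |1 / y (j + 1) - 1 / y j| ≤ A) := by
  have hC : 0 ≤ C := (abs_nonneg _).trans (h.ax_bd 0)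
  have hC' : 0 ≤ C' := by
    have h1 := (abs_nonneg _).trans (hr J le_rfl).2.2
    have hJ0 : (0 : ℝ) < (J : ℝ) ^ 2 := by
      have : (0 : ℝ) < J := by exact_mod_cast hJ1
      positivity
    by_contra hneg
    have := div_neg_of_neg_of_pos (not_le.1 hneg) hJ0
    linarith
  obtain ⟨A1, hA1⟩ : ∃ A1 : ℝ,
    A1 = 2 * (C * C' + C * (2 * C * C' ^ 2 + 5 * C * C' ^ 3) + 5 * C * C' ^ 2) / c := ⟨_, rfl⟩
  obtain ⟨A2, hA2⟩ : ∃ A2 : ℝ, A2 = 6 * C * C' / c := ⟨_, rfl⟩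
  have hA10 : 0 ≤ A1 := by rw [hA1]; positivity
  have hA20 : 0 ≤ A2 := by rw [hA2]; positivity
  refine ⟨A1 + A2, by positivity, fun j hj => ?_⟩
  have hj1 : (1 : ℝ) ≤ j := by exact_mod_cast hJ1.trans hj
  have hj0 : (0 : ℝ) < j := by linarith
  obtain ⟨t, ht⟩ : ∃ t : ℝ, t = 1 / (j : ℝ) := ⟨_, rfl⟩
  have ht0 : 0 < t := by rw [ht]; positivity
  have ht1 : t ≤ 1 := by rw [ht, div_le_one hj0]; exact hj1
  have e1 : ∀ A : ℝ, A / (j : ℝ) = A * t := fun A => by rw [ht, one_div, div_eq_mul_inv]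
  have e2 : C' / (j : ℝ) ^ 2 = C' * t ^ 2 := by rw [ht, one_div, inv_pow, div_eq_mul_inv]
  obtain ⟨-, hy, hxy⟩ := hr j hj
  rw [e1] at hy
  rw [e2] at hxy
  have hy0 := h.y_pos j (hJ.trans hj)
  have hy1 : c * t / 2 ≤ y (j + 1) := by
    refine le_trans ?_ (hr (j + 1) (hj.trans (Nat.le_succ _))).1
    rw [ht, Nat.cast_add, Nat.cast_one, mul_one_div, div_div]
    exact div_le_div_of_nonneg_left hc.le (by positivity) (by linarith)
  refine ⟨fun hsw => ?_, fun hsw => ?_⟩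
  · rw [e1]
    refine (recip_real_ord hC hC' hc ht0 ht1 (h.ay_bd j) hy0 hy hxy hy1 (h.ord_y j (hJ.trans hj) hsw)).trans ?_
    rw [← hA1]
    exact mul_le_mul_of_nonneg_right (by linarith) ht0.le
  · refine (recip_real_sw hC hC' hc ht0 ht1 hy0 hy hxy hy1 (h.sw_y j (hJ.trans hj) hsw)).trans ?_
    rw [← hA2]
    linarith

theorem recip_block {C : ℝ} {ax ay x y : ℕ → ℝ} {j1 : ℕ} (h : RecOK C ax ay x y j1) (c C' : ℝ) (J : ℕ) (hc : 0 < c) (hJ : j1 ≤ J) (hJ1 : 1 ≤ J)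
    (hr : ∀ j, J ≤ j → c / (j : ℝ) ≤ y j ∧ y j ≤ C' / (j : ℝ) ∧ |x j - y j| ≤ C' / (j : ℝ) ^ 2) :
    ∃ A : ℝ, ∀ k, J ≤ 2 ^ k → ∀ j, 2 ^ k ≤ j → j ≤ 2 ^ (k + 1) →
      |(1 / y j - (j : ℝ)) - (1 / y (2 ^ k) - ((2 ^ k : ℕ) : ℝ))| ≤ A := by
  have hC : 0 ≤ C := (abs_nonneg _).trans (h.ax_bd 0)
  obtain ⟨A, hA, hs⟩ := recip_step h c C' J hc hJ hJ1 hr
  refine ⟨2 * A + 2 * C, fun k hk j hj hj' => ?_⟩
  obtain ⟨j0, hj0⟩ : ∃ j0 : ℕ, j0 = 2 ^ k := ⟨_, rfl⟩
  rw [pow_succ, ← hj0] at hj'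
  rw [← hj0] at hk hj ⊢
  obtain ⟨K, rfl⟩ := Nat.exists_eq_add_of_le hj
  have hKj : K ≤ j0 := by omega
  have hj00 : (0 : ℝ) < j0 := by exact_mod_cast hJ1.trans hk
  have hKT : (K : ℝ) ≤ j0 := by exact_mod_cast hKj
  have hJi : ∀ i : ℕ, j0 ≤ i → J ≤ i := fun i hi => hk.trans hi
  have b1 : ∀ i : ℕ, j0 ≤ i → A / (i : ℝ) ≤ A / (j0 : ℝ) := fun i hi =>
    div_le_div_of_nonneg_left hA hj00 (by exact_mod_cast hi)
  have hK1 : (K : ℝ) * (A / (j0 : ℝ)) ≤ A := by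
    calc (K : ℝ) * (A / (j0 : ℝ)) ≤ j0 * (A / (j0 : ℝ)) := mul_le_mul_of_nonneg_right hKT (by positivity)
      _ = A := by field_simp
  have tel : (1 / y (j0 + K) - ((j0 + K : ℕ) : ℝ)) - (1 / y j0 - (j0 : ℝ)) =
      ∑ m ∈ Finset.range K, (1 / y (j0 + m + 1) - 1 / y (j0 + m) - ay (j0 + m)) +
      ∑ i ∈ Finset.Ico j0 (j0 + K), (ay i - 1) := by
    have := Finset.sum_range_sub (fun m => 1 / y (j0 + m) - ((j0 + m : ℕ) : ℝ)) K
    rw [Finset.sum_Ico_eq_sum_range, add_tsub_cancel_left, ← Finset.sum_add_distrib]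
    rw [add_zero] at this
    rw [← this]
    refine Finset.sum_congr rfl fun m _ => ?_
    push_cast
    rw [add_assoc]
    ring
  have p1 := rec_sum_sw hKj (fun m => 1 / y (j0 + m + 1) - 1 / y (j0 + m) - ay (j0 + m))
        (E1 := A / (j0 : ℝ)) (E2 := A + C) (by positivity) (by positivity)
        (fun m _ hsw => ((hs (j0 + m) (hJi _ (Nat.le_add_right _ _))).1 hsw).trans (b1 _ (Nat.le_add_right _ _)))
        (fun m _ hsw => (abs_sub _ _).trans
          (add_le_add ((hs (j0 + m) (hJi _ (Nat.le_add_right _ _))).2 hsw) (h.ay_bd _)))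
  have p2 := h.ay_sum j0 (j0 + K) (hJ.trans hk) hj (by omega)
  rw [tel]
  refine (abs_add_le _ _).trans ?_
  linarith

end Claimed.Agent.R285.F5

/-!
# ROW 285, [F] s5.4: GLUE of the package REC: `rec_asymptotic`.  Paper-free.      (helper94; PROVED from the leaves REC-1 .. REC-7)
-/

set_option autoImplicit false

namespace Claimed.Agent.R285.F5

open Filter Topology

/-- **[F] (trj:rough-decay), (trj:separatrix-error), (trj:u-asymptotic)** -/
theorem rec_asymptotic (C : ℝ) (ax ay x y : ℕ → ℝ) (j1 : ℕ) (h : RecOK C ax ay x y j1) :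
    ∃ C' : ℝ, ∀ᶠ j : ℕ in atTop,
      |x j - 1 / (j : ℝ)| ≤ C' * Real.log (2 + j) / (j : ℝ) ^ 2 ∧
      |y j - 1 / (j : ℝ)| ≤ C' * Real.log (2 + j) / (j : ℝ) ^ 2 := by
  obtain ⟨c, C1, J, hc, hJ, hJ1, hd⟩ := rec_decay h
  have hpos : ∀ j, J ≤ j → (0 : ℝ) < j := fun j hj => by
    have : 1 ≤ j := le_trans hJ1 hj
    exact_mod_cast this
  have hy0 : ∀ j, J ≤ j → 0 < y j := fun j hj => h.y_pos j (le_trans hJ hj)
  have hC1 : 0 ≤ C1 := by
    have h1 := (hd J le_rfl).2.1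
    have h2 := hy0 J le_rfl
    have h3 := hpos J le_rfl
    by_contra hneg
    rw [not_le] at hneg
    have : C1 / (J : ℝ) < 0 := div_neg_of_neg_of_pos hneg h3
    linarith
  have rough : ∀ j, J ≤ j → |x j| ≤ 2 * C1 / (j : ℝ) ∧ y j ≤ 2 * C1 / (j : ℝ) := by
    intro j hj
    obtain ⟨_, h2, h3, h4⟩ := hd j hj
    have hy := hy0 j hj
    have hj0 := hpos j hj
    have e : 2 * C1 / (j : ℝ) = 2 * (C1 / j) := by ring
    have h5 : 0 ≤ C1 / (j : ℝ) := div_nonneg hC1 hj0.le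
    constructor
    · rw [abs_of_pos (by linarith), e]; linarith
    · rw [e]; linarith
  obtain ⟨A, hA⟩ := inv_block h (2 * C1) J hJ hJ1 rough
  have hJk : J ≤ 2 ^ J := Nat.lt_two_pow_self.le
  have hmono : ∀ k, J ≤ k → J ≤ 2 ^ k := fun k hk =>
    le_trans hJk (Nat.pow_le_pow_right (by norm_num) hk)
  have hI : Tendsto (fun j => x j ^ 2 - y j ^ 2) atTop (𝓝 0) := by
    have := (h.x_lim.pow 2).sub (h.y_lim.pow 2)
    simpa using this
  have hinv := dyadic_zero (fun j => x j ^ 2 - y j ^ 2) A J hI (fun k hk => hA k (hmono k hk))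
  set J' : ℕ := 2 ^ J with hJ'
  have hJJ' : J ≤ J' := hJk
  have hA0 : 0 ≤ A := by
    have := hA J hJk (2 ^ J) (2 ^ J) le_rfl le_rfl (Nat.pow_le_pow_right (by norm_num) (Nat.le_succ J))
    simp only [sub_self, abs_zero] at this
    have h8 : (0 : ℝ) < 8 ^ J := by positivity
    by_contra hneg
    rw [not_le] at hneg
    have : A / 8 ^ J < 0 := div_neg_of_neg_of_pos hneg h8
    linarith
  set C2 : ℝ := max C1 (10 * A / c) with hC2
  have hC20 : 0 ≤ C2 := le_trans hC1 (le_max_left _ _)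
  have hxy : ∀ j, J' ≤ j → |x j - y j| ≤ C2 / (j : ℝ) ^ 2 := by
    intro j hj
    have hjJ : J ≤ j := le_trans hJJ' hj
    obtain ⟨h1, h2, h3, h4⟩ := hd j hjJ
    have hy := hy0 j hjJ
    have hj0 := hpos j hjJ
    have hi := hinv j hj
    have hs : c / (j : ℝ) ≤ x j + y j := by linarith
    have hs0 : 0 < c / (j : ℝ) := div_pos hc hj0
    have e : x j ^ 2 - y j ^ 2 = (x j - y j) * (x j + y j) := by ring
    rw [e, abs_mul, abs_of_pos (a := x j + y j) (by linarith)] at hi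
    have h5 : |x j - y j| * (c / j) ≤ 10 * A / (j : ℝ) ^ 3 :=
      le_trans (mul_le_mul_of_nonneg_left hs (abs_nonneg _)) hi
    have h6 : |x j - y j| ≤ 10 * A / c / (j : ℝ) ^ 2 := by
      have e2 : 10 * A / c / (j : ℝ) ^ 2 = (10 * A / (j : ℝ) ^ 3) / (c / j) := by
        field_simp
      rw [e2, le_div_iff₀ hs0]
      exact h5
    refine le_trans h6 ?_
    exact div_le_div_of_nonneg_right (le_max_right _ _) (by positivity)
  have hr2 : ∀ j, J' ≤ j → c / (j : ℝ) ≤ y j ∧ y j ≤ C2 / (j : ℝ) ∧ |x j - y j| ≤ C2 / (j : ℝ) ^ 2 := by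
    intro j hj
    have hjJ : J ≤ j := le_trans hJJ' hj
    obtain ⟨h1, h2, _, _⟩ := hd j hjJ
    have hj0 := hpos j hjJ
    exact ⟨h1, le_trans h2 (div_le_div_of_nonneg_right (le_max_left _ _) hj0.le), hxy j hj⟩
  obtain ⟨A2, hA2⟩ := recip_block h c C2 J' hc (le_trans hJ hJJ') (le_trans hJ1 hJJ') hr2
  obtain ⟨A3, hA3⟩ := dyadic_log (fun j => 1 / y j - (j : ℝ)) A2 J
    (fun k hk j h1 h2 => hA2 k (Nat.pow_le_pow_right (by norm_num) hk) j h1 h2)
  refine ⟨A3 * C2 + 2 * C2, ?_⟩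
  filter_upwards [eventually_ge_atTop J'] with j hj
  have hjJ : J ≤ j := le_trans hJJ' hj
  obtain ⟨h1, h2, h3⟩ := hr2 j hj
  have hy := hy0 j hjJ
  have hj0 := hpos j hjJ
  have hg := hA3 j hj
  have hlog : 1 ≤ 2 * Real.log (2 + j) := by
    have h2' : Real.log 2 ≤ Real.log (2 + j) := Real.log_le_log (by norm_num) (by linarith)
    have := Real.log_two_gt_d9
    linarith
  have hlog0 : 0 ≤ Real.log (2 + (j : ℝ)) := by linarith
  have ey : y j - 1 / (j : ℝ) = -((1 / y j - j) * (y j / j)) := by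
    field_simp
    ring
  have hyb : |y j - 1 / (j : ℝ)| ≤ A3 * C2 * Real.log (2 + j) / (j : ℝ) ^ 2 := by
    rw [ey, abs_neg, abs_mul, abs_of_pos (a := y j / j) (div_pos hy hj0)]
    have h4 : y j / (j : ℝ) ≤ C2 / (j : ℝ) ^ 2 := by
      rw [pow_two, ← div_div]
      exact div_le_div_of_nonneg_right h2 hj0.le
    calc |1 / y j - (j : ℝ)| * (y j / j) ≤ (A3 * Real.log (2 + j)) * (C2 / (j : ℝ) ^ 2) :=
          mul_le_mul hg h4 (div_pos hy hj0).le (le_trans (abs_nonneg _) hg)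
      _ = A3 * C2 * Real.log (2 + j) / (j : ℝ) ^ 2 := by ring
  have hextra : C2 / (j : ℝ) ^ 2 ≤ 2 * C2 * Real.log (2 + j) / (j : ℝ) ^ 2 := by
    apply div_le_div_of_nonneg_right _ (by positivity)
    nlinarith
  have hextra0 : 0 ≤ 2 * C2 * Real.log (2 + j) / (j : ℝ) ^ 2 := by positivity
  have esum : (A3 * C2 + 2 * C2) * Real.log (2 + j) / (j : ℝ) ^ 2
      = A3 * C2 * Real.log (2 + j) / (j : ℝ) ^ 2 + 2 * C2 * Real.log (2 + j) / (j : ℝ) ^ 2 := by ring
  rw [esum]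
  constructor
  · have : |x j - 1 / (j : ℝ)| ≤ |x j - y j| + |y j - 1 / (j : ℝ)| := by
      have e : x j - 1 / (j : ℝ) = (x j - y j) + (y j - 1 / (j : ℝ)) := by ring
      rw [e]; exact abs_add_le _ _
    linarith
  · linarith

end Claimed.Agent.R285.F5
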