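import Claimed.Agent.R285.F5.Conf
import Claimed.Agent.R285.F5.Rec

/-!
# ROW 285, [F] s5.4 + P5.1: the spliced sequence, the asymptotics on all windows, [E] P3.6.      (helper94; leaves SP-1, SP-2 are paper-free: real sequences only)

## Leaf SP-1 `rec_of_weak`.
`ρ_j = x₊ - x + y²`, `|ρ_j / y²| ≤ C / j² + C (|x| + y)`.  Put `d_j = max (-C/j²) (min (C/j²) (ρ_j / y_j²))` (projection on `[-C/j², C/j²]`) and `ax j = 1 - d_j` (`ax j = 1` if `y j = 0`):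
`x₊ - x + ax y² = ρ_j - d_j y²`, and the distance of `ρ_j / y²` to the interval is `≤ C (|x| + y)`.  `|ax - 1| ≤ C / j²` for ALL `j` (`1 / 0² = 0` in Lean), so `|ax| ≤ 1 + C` and
`|∑_{[j, j')} (ax i - 1)| ≤ (j' - j) C / j² ≤ C` for `j' ≤ 2 j`.  Same for `ay` with `ρ'_j = y₊ - y + x y`, divided by `x_j y_j` (`ay j = 1` if `x_j y_j = 0`: then the term `|x|/j²` vanishes too).
## Leaf SP-2 `splice_abs`.
`x j = X (Nat.log 2 j) j`, `y j = Y (Nat.log 2 j) j`; `Nat.log 2 j = k` iff `2^k ≤ j < 2^{k+1}`.  If `j` is not a switch, `j + 1 < 2^{k+1}`: ordinary rows.  If `j + 1 = 2^{k+1}`: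
`|x (j+1) - x j| ≤ |X (k+1) (j+1) - X k (j+1)| + |X k (j+1) - X k j|`; with `|X|, Y ≤ ε` small: `Y k (j+1) ≤ 2 Y k j` (`ord_y`), `Y (k+1) (j+1) ≤ 2 Y k (j+1)` (`ov_y`),
`|X k (j+1)| ≤ |X k j| + (1 + 3 C) (Y k j)²`, `|X (k+1) (j+1)| ≤ |X k (j+1)| + 20 C (Y k j)²`.  Limits from `small`.  Then `rec_of_weak`, `rec_asymptotic`.
-/

set_option autoImplicit false

namespace Claimed.Agent.R285.F5

open Filter Topology

/-- weak form of the reduced recurrence: quadratic coefficients `1 + O(j⁻²)` -/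
structure RecW (C : ℝ) (x y : ℕ → ℝ) (j1 : ℕ) : Prop where
  y_pos : ∀ j, j1 ≤ j → 0 < y j
  x_lim : Tendsto x atTop (𝓝 0)
  y_lim : Tendsto y atTop (𝓝 0)
  ord_x : ∀ j, j1 ≤ j → ¬ IsSw j → |x (j + 1) - x j + y j ^ 2| ≤ C * y j ^ 2 * (1 / (j : ℝ) ^ 2 + |x j| + y j)
  ord_y : ∀ j, j1 ≤ j → ¬ IsSw j → |y (j + 1) - y j + x j * y j| ≤ C * y j * (|x j| / (j : ℝ) ^ 2 + x j ^ 2 + y j ^ 2)
  sw_x : ∀ j, j1 ≤ j → IsSw j → |x (j + 1) - x j| ≤ C * y j ^ 2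
  sw_y : ∀ j, j1 ≤ j → IsSw j → |y (j + 1) - y j| ≤ C * y j * (|x j| + y j)

/-- the projection on `[-r, r]` -/
theorem sp_proj_abs {r : ℝ} (hr : 0 ≤ r) (q : ℝ) : |max (-r) (min r q)| ≤ r := by
  rw [abs_le]
  exact ⟨le_max_left _ _, max_le (by linarith) (min_le_left _ _)⟩

/-- the distance to the projection -/
theorem sp_proj_dist {r B q : ℝ} (hr : 0 ≤ r) (hB : 0 ≤ B) (h : |q| ≤ r + B) : |q - max (-r) (min r q)| ≤ B := by
  obtain ⟨h1, h2⟩ := abs_le.1 h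
  rcases le_total q (-r) with hq | hq
  · rw [min_eq_right (by linarith), max_eq_left hq, abs_le]
    constructor <;> linarith
  · rcases le_total q r with hq' | hq'
    · rw [min_eq_right hq', max_eq_right hq, sub_self, abs_zero]
      exact hB
    · rw [min_eq_left hq', max_eq_right (by linarith), abs_le]
      constructor <;> linarith

/-- `C / j² ≤ C` -/
theorem sp_div_sq_le {C : ℝ} (hC : 0 ≤ C) (j : ℕ) : C / (j : ℝ) ^ 2 ≤ C := by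
  rcases Nat.eq_zero_or_pos j with rfl | hj
  · simpa using hC
  · have h1 : (1 : ℝ) ≤ (j : ℝ) ^ 2 := by
      have : (1 : ℝ) ≤ j := by exact_mod_cast hj
      nlinarith
    exact div_le_self hC h1

/-- dyadic sums of `O(i⁻²)` are bounded -/
theorem sp_sum_bound {C : ℝ} (hC : 0 ≤ C) (d : ℕ → ℝ) (hd : ∀ i, |d i| ≤ C / (i : ℝ) ^ 2) (j j' : ℕ) (h1 : j ≤ j')
    (h2 : j' ≤ 2 * j) : |∑ i ∈ Finset.Ico j j', d i| ≤ C := by
  rcases Nat.eq_zero_or_pos j with rfl | hj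
  · have : j' = 0 := by omega
    subst this
    simpa using hC
  · have hjR : (0 : ℝ) < j := by exact_mod_cast hj
    have hj1 : (1 : ℝ) ≤ j := by exact_mod_cast hj
    calc |∑ i ∈ Finset.Ico j j', d i| ≤ ∑ i ∈ Finset.Ico j j', |d i| := Finset.abs_sum_le_sum_abs _ _
      _ ≤ ∑ _i ∈ Finset.Ico j j', C / (j : ℝ) ^ 2 := by
          refine Finset.sum_le_sum fun i hi => (hd i).trans ?_
          have hji : (j : ℝ) ≤ i := by exact_mod_cast (Finset.mem_Ico.1 hi).1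
          exact div_le_div_of_nonneg_left hC (by positivity) (pow_le_pow_left₀ hjR.le hji 2)
      _ = ((j' - j : ℕ) : ℝ) * (C / (j : ℝ) ^ 2) := by
          rw [Finset.sum_const, Nat.card_Ico, nsmul_eq_mul]
      _ ≤ (j : ℝ) * (C / (j : ℝ) ^ 2) := by
          refine mul_le_mul_of_nonneg_right ?_ (by positivity)
          have : j' - j ≤ j := by omega
          exact_mod_cast this
      _ = C / j := by field_simp
      _ ≤ C := div_le_self hC hj1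

theorem rec_of_weak (C : ℝ) (x y : ℕ → ℝ) (j1 : ℕ) (h : RecW C x y j1) :
    ∃ (C' : ℝ) (ax ay : ℕ → ℝ), RecOK C' ax ay x y j1 := by
  have hC : 0 ≤ C := by
    have hy := h.y_pos j1 le_rfl
    by_cases hs : IsSw j1
    · have h1 := (abs_nonneg _).trans (h.sw_x j1 le_rfl hs)
      have h2 : 0 < y j1 ^ 2 := by positivity
      by_contra hneg
      push Not at hneg
      nlinarith
    · have h1 := (abs_nonneg _).trans (h.ord_x j1 le_rfl hs)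
      have h2 : 0 < y j1 ^ 2 * (1 / (j1 : ℝ) ^ 2 + |x j1| + y j1) := by positivity
      rw [mul_assoc] at h1
      by_contra hneg
      push Not at hneg
      nlinarith
  have hr0 : ∀ j : ℕ, 0 ≤ C / (j : ℝ) ^ 2 := fun j => by positivity
  obtain ⟨dx, hdx⟩ : ∃ dx : ℕ → ℝ, dx = fun j : ℕ => max (-(C / (j : ℝ) ^ 2))
      (min (C / (j : ℝ) ^ 2) ((x (j + 1) - x j + y j ^ 2) / y j ^ 2)) := ⟨_, rfl⟩
  obtain ⟨dy, hdy⟩ : ∃ dy : ℕ → ℝ, dy = fun j : ℕ => max (-(C / (j : ℝ) ^ 2))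
      (min (C / (j : ℝ) ^ 2) ((y (j + 1) - y j + x j * y j) / (x j * y j))) := ⟨_, rfl⟩
  have hdx1 : ∀ j, |dx j| ≤ C / (j : ℝ) ^ 2 := fun j => by rw [hdx]; exact sp_proj_abs (hr0 j) _
  have hdy1 : ∀ j, |dy j| ≤ C / (j : ℝ) ^ 2 := fun j => by rw [hdy]; exact sp_proj_abs (hr0 j) _
  have hbd : ∀ d : ℕ → ℝ, (∀ j, |d j| ≤ C / (j : ℝ) ^ 2) → ∀ j, |1 - d j| ≤ 1 + C := by
    intro d hd j
    have h1 := (hd j).trans (sp_div_sq_le hC j)
    obtain ⟨h2, h3⟩ := abs_le.1 h1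
    rw [abs_le]
    constructor <;> linarith
  have hsum : ∀ d : ℕ → ℝ, (∀ j, |d j| ≤ C / (j : ℝ) ^ 2) → ∀ j j', j1 ≤ j → j ≤ j' → j' ≤ 2 * j →
      |∑ i ∈ Finset.Ico j j', (1 - d i - 1)| ≤ 1 + C := by
    intro d hd j j' _ h1 h2
    have e : ∀ i, 1 - d i - 1 = -d i := fun i => by ring
    simp only [e]
    have := sp_sum_bound hC (fun i => -d i) (fun i => by rw [abs_neg]; exact hd i) j j' h1 h2
    linarith
  refine ⟨1 + C, fun j => 1 - dx j, fun j => 1 - dy j, ⟨h.y_pos, h.x_lim, h.y_lim, hbd dx hdx1, hbd dy hdy1,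
    hsum dx hdx1, hsum dy hdy1, ?_, ?_, ?_, ?_⟩⟩
  · intro j hj hs
    have hy := h.y_pos j hj
    have hy2 : 0 < y j ^ 2 := by positivity
    have h1 := h.ord_x j hj hs
    have hB : 0 ≤ C * (|x j| + y j) := by positivity
    have hq : |(x (j + 1) - x j + y j ^ 2) / y j ^ 2| ≤ C / (j : ℝ) ^ 2 + C * (|x j| + y j) := by
      rw [abs_div, abs_of_pos hy2, div_le_iff₀ hy2]
      calc _ ≤ _ := h1
        _ = _ := by ring
    have h2 := sp_proj_dist (hr0 j) hB hq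
    have e : x (j + 1) - x j + (1 - dx j) * y j ^ 2
        = y j ^ 2 * ((x (j + 1) - x j + y j ^ 2) / y j ^ 2 - dx j) := by
      field_simp
      ring
    show |x (j + 1) - x j + (1 - dx j) * y j ^ 2| ≤ _
    rw [e, abs_mul, abs_of_pos hy2]
    have h3 : |(x (j + 1) - x j + y j ^ 2) / y j ^ 2 - dx j| ≤ C * (|x j| + y j) := by
      rw [hdx]; exact h2
    calc y j ^ 2 * |(x (j + 1) - x j + y j ^ 2) / y j ^ 2 - dx j| ≤ y j ^ 2 * (C * (|x j| + y j)) :=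
          mul_le_mul_of_nonneg_left h3 hy2.le
      _ ≤ (1 + C) * y j ^ 2 * (|x j| + y j) := by
          have : 0 ≤ y j ^ 2 * (|x j| + y j) := by positivity
          nlinarith
  · intro j hj hs
    have hy := h.y_pos j hj
    have h1 := h.ord_y j hj hs
    show |y (j + 1) - y j + (1 - dy j) * x j * y j| ≤ _
    by_cases hx : x j = 0
    · rw [hx] at h1 ⊢
      simp only [abs_zero, zero_div, zero_mul, mul_zero, add_zero, ne_eq, OfNat.ofNat_ne_zero, not_false_eq_true,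
        zero_pow, zero_add] at h1 ⊢
      refine h1.trans ?_
      have : 0 ≤ y j * y j ^ 2 := by positivity
      nlinarith
    · have hxa : 0 < |x j| := abs_pos.2 hx
      have hxy : 0 < |x j| * y j := by positivity
      have hB : 0 ≤ C * (x j ^ 2 + y j ^ 2) / |x j| := by positivity
      have hq : |(y (j + 1) - y j + x j * y j) / (x j * y j)| ≤ C / (j : ℝ) ^ 2 + C * (x j ^ 2 + y j ^ 2) / |x j| := by
        rw [abs_div, abs_mul, abs_of_pos hy, div_le_iff₀ hxy]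
        calc _ ≤ _ := h1
          _ = _ := by
            field_simp
            ring
      have h2 := sp_proj_dist (hr0 j) hB hq
      have e : y (j + 1) - y j + (1 - dy j) * x j * y j
          = (x j * y j) * ((y (j + 1) - y j + x j * y j) / (x j * y j) - dy j) := by
        have := hy.ne'
        field_simp
        ring
      have h3 : |(y (j + 1) - y j + x j * y j) / (x j * y j) - dy j| ≤ C * (x j ^ 2 + y j ^ 2) / |x j| := by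
        rw [hdy]; exact h2
      rw [e, abs_mul, abs_mul, abs_of_pos hy]
      calc |x j| * y j * |(y (j + 1) - y j + x j * y j) / (x j * y j) - dy j|
          ≤ |x j| * y j * (C * (x j ^ 2 + y j ^ 2) / |x j|) := mul_le_mul_of_nonneg_left h3 hxy.le
        _ = C * y j * (x j ^ 2 + y j ^ 2) := by field_simp
        _ ≤ (1 + C) * y j * (x j ^ 2 + y j ^ 2) := by
            have : 0 ≤ y j * (x j ^ 2 + y j ^ 2) := by positivity
            nlinarith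
  · intro j hj hs
    refine (h.sw_x j hj hs).trans ?_
    have : 0 ≤ y j ^ 2 := by positivity
    nlinarith
  · intro j hj hs
    have hy := h.y_pos j hj
    refine (h.sw_y j hj hs).trans ?_
    have : 0 ≤ y j * (|x j| + y j) := by positivity
    nlinarith

/-- the estimates at a switch (real numbers only): `0` = old window at `j`, `1` = old window at `j + 1`, `2` = new window at `j + 1` -/
theorem sp_switch {C ε X0 Y0 X1 Y1 X2 Y2 : ℝ} (hC : 0 ≤ C) (hε1 : ε ≤ 1) (hε2 : ε * (1 + 3 * C) ≤ 1)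
    (hε3 : 6 * C * ε ≤ 1) (hY0 : 0 < Y0) (hY1 : 0 < Y1) (hY2 : 0 < Y2)
    (bX0 : |X0| ≤ ε) (bX1 : |X1| ≤ ε) (bX2 : |X2| ≤ ε) (bY0 : Y0 ≤ ε) (bY1 : Y1 ≤ ε) (bY2 : Y2 ≤ ε)
    (hx : |X1 - X0 + Y0 ^ 2| ≤ C * Y0 ^ 2 * (1 + |X0| + Y0))
    (hy : |Y1 - Y0 + X0 * Y0| ≤ C * Y0 * (|X0| + X0 ^ 2 + Y0 ^ 2))
    (ovx : |X1 - X2| ≤ C * (Y1 ^ 2 + Y2 ^ 2))
    (ovy : |Y1 - Y2| ≤ C * ((|X1| + Y1) * Y1 + (|X2| + Y2) * Y2)) :
    |X2 - X0| ≤ (1 + 28 * C + 98 * C ^ 2) * Y0 ^ 2 ∧ |Y2 - Y0| ≤ (1 + 28 * C + 98 * C ^ 2) * Y0 * (|X0| + Y0) := by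
  have hε0 : 0 < ε := hY0.trans_le bY0
  have a0 : 0 ≤ |X0| := abs_nonneg _
  have sX0 : X0 ^ 2 ≤ |X0| := by
    rw [← sq_abs]
    nlinarith
  have sY0 : Y0 ^ 2 ≤ Y0 := by nlinarith
  have hXY : |X0 * Y0| = |X0| * Y0 := by rw [abs_mul, abs_of_pos hY0]
  -- `|Y1 - Y0| ≤ (1 + 2 C) Y0 (|X0| + Y0)`
  have a5 : |Y1 - Y0| ≤ (1 + 2 * C) * (Y0 * (|X0| + Y0)) := by
    have h1 : |Y1 - Y0| ≤ |Y1 - Y0 + X0 * Y0| + |X0 * Y0| := by
      have := abs_sub (Y1 - Y0 + X0 * Y0) (X0 * Y0)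
      simpa using this
    have h2 : C * Y0 * (|X0| + X0 ^ 2 + Y0 ^ 2) ≤ C * Y0 * (2 * (|X0| + Y0)) :=
      mul_le_mul_of_nonneg_left (by linarith) (by positivity)
    have h3 : 0 ≤ Y0 * Y0 := by positivity
    rw [hXY] at h1
    nlinarith
  -- `Y1 ≤ 2 Y0`
  have a1 : Y1 ≤ 2 * Y0 := by
    have h1 := (le_abs_self _).trans hy
    have h2 : C * Y0 * (|X0| + X0 ^ 2 + Y0 ^ 2) ≤ C * Y0 * (3 * ε) :=
      mul_le_mul_of_nonneg_left (by linarith) (by positivity)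
    have h3 : -(X0 * Y0) ≤ ε * Y0 := by
      have := (neg_le_abs (X0 * Y0))
      rw [hXY] at this
      exact this.trans (mul_le_mul_of_nonneg_right bX0 hY0.le)
    have h4 : Y0 * (ε * (1 + 3 * C)) ≤ Y0 * 1 := mul_le_mul_of_nonneg_left hε2 hY0.le
    nlinarith
  -- `Y2 ≤ 2 Y1`
  have a2 : Y2 ≤ 2 * Y1 := by
    have h1 : Y2 - Y1 ≤ C * ((|X1| + Y1) * Y1 + (|X2| + Y2) * Y2) := by
      have := (neg_abs_le (Y1 - Y2)).trans' (neg_le_neg ovy)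
      linarith
    have h2 : (|X1| + Y1) * Y1 ≤ 2 * ε * Y1 := mul_le_mul_of_nonneg_right (by linarith) hY1.le
    have h3 : (|X2| + Y2) * Y2 ≤ 2 * ε * Y2 := mul_le_mul_of_nonneg_right (by linarith) hY2.le
    have h4 : C * ((|X1| + Y1) * Y1 + (|X2| + Y2) * Y2) ≤ C * (2 * ε * Y1 + 2 * ε * Y2) :=
      mul_le_mul_of_nonneg_left (by linarith) hC
    have h5 : C * (2 * ε * Y1 + 2 * ε * Y2) = (6 * C * ε) * ((Y1 + Y2) / 3) := by ring
    have h6 : (6 * C * ε) * ((Y1 + Y2) / 3) ≤ 1 * ((Y1 + Y2) / 3) :=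
      mul_le_mul_of_nonneg_right hε3 (by positivity)
    linarith
  have a2' : Y2 ≤ 4 * Y0 := by linarith
  -- `|X1 - X0| ≤ (1 + 3 C) Y0²`
  have a3 : |X1 - X0| ≤ (1 + 3 * C) * Y0 ^ 2 := by
    have h1 : |X1 - X0| ≤ |X1 - X0 + Y0 ^ 2| + |Y0 ^ 2| := by
      have := abs_sub (X1 - X0 + Y0 ^ 2) (Y0 ^ 2)
      simpa using this
    rw [abs_of_nonneg (sq_nonneg Y0)] at h1
    have h2 : C * Y0 ^ 2 * (1 + |X0| + Y0) ≤ C * Y0 ^ 2 * 3 :=
      mul_le_mul_of_nonneg_left (by linarith) (by positivity)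
    linarith
  -- `|X2 - X1| ≤ 20 C Y0²`
  have a4 : |X2 - X1| ≤ 20 * C * Y0 ^ 2 := by
    rw [abs_sub_comm]
    refine ovx.trans ?_
    have h1 : Y1 ^ 2 ≤ (2 * Y0) ^ 2 := pow_le_pow_left₀ hY1.le a1 2
    have h2 : Y2 ^ 2 ≤ (4 * Y0) ^ 2 := pow_le_pow_left₀ hY2.le a2' 2
    calc C * (Y1 ^ 2 + Y2 ^ 2) ≤ C * ((2 * Y0) ^ 2 + (4 * Y0) ^ 2) :=
          mul_le_mul_of_nonneg_left (by linarith) hC
      _ = 20 * C * Y0 ^ 2 := by ring
  have c1 : |X2 - X0| ≤ (1 + 23 * C) * Y0 ^ 2 := by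
    have := abs_sub_le X2 X1 X0
    linarith
  have hY02 : 0 ≤ Y0 ^ 2 := sq_nonneg _
  have hCC : 0 ≤ C ^ 2 := sq_nonneg _
  refine ⟨c1.trans ?_, ?_⟩
  · refine mul_le_mul_of_nonneg_right ?_ hY02
    nlinarith
  · -- the new window
    have b1 : |X1| ≤ |X0| + (1 + 3 * C) * Y0 := by
      have h1 : |X1| ≤ |X1 - X0| + |X0| := by
        have := abs_add_le (X1 - X0) X0
        simpa using this
      have h2 : (1 + 3 * C) * Y0 ^ 2 ≤ (1 + 3 * C) * Y0 := mul_le_mul_of_nonneg_left sY0 (by positivity)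
      linarith
    have b2 : |X2| ≤ |X0| + (1 + 23 * C) * Y0 := by
      have h1 : |X2| ≤ |X2 - X0| + |X0| := by
        have := abs_add_le (X2 - X0) X0
        simpa using this
      have h2 : (1 + 23 * C) * Y0 ^ 2 ≤ (1 + 23 * C) * Y0 := mul_le_mul_of_nonneg_left sY0 (by positivity)
      linarith
    have hS : 0 ≤ Y0 * (|X0| + Y0) := by positivity
    have d1 : (|X1| + Y1) * Y1 ≤ (6 + 6 * C) * (Y0 * (|X0| + Y0)) := by
      calc (|X1| + Y1) * Y1 ≤ (|X0| + (1 + 3 * C) * Y0 + 2 * Y0) * (2 * Y0) :=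
            mul_le_mul (by linarith) a1 hY1.le (by positivity)
        _ ≤ (6 + 6 * C) * (Y0 * (|X0| + Y0)) := by
            have : 0 ≤ C * (Y0 * |X0|) := by positivity
            have : 0 ≤ Y0 * |X0| := by positivity
            nlinarith
    have d2 : (|X2| + Y2) * Y2 ≤ (20 + 92 * C) * (Y0 * (|X0| + Y0)) := by
      calc (|X2| + Y2) * Y2 ≤ (|X0| + (1 + 23 * C) * Y0 + 4 * Y0) * (4 * Y0) :=
            mul_le_mul (by linarith) a2' hY2.le (by positivity)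
        _ ≤ (20 + 92 * C) * (Y0 * (|X0| + Y0)) := by
            have : 0 ≤ C * (Y0 * |X0|) := by positivity
            have : 0 ≤ Y0 * |X0| := by positivity
            nlinarith
    have a6 : |Y2 - Y1| ≤ C * ((26 + 98 * C) * (Y0 * (|X0| + Y0))) := by
      rw [abs_sub_comm]
      refine ovy.trans (mul_le_mul_of_nonneg_left ?_ hC)
      linarith
    have := abs_sub_le Y2 Y1 Y0
    calc |Y2 - Y0| ≤ |Y2 - Y1| + |Y1 - Y0| := this
      _ ≤ C * ((26 + 98 * C) * (Y0 * (|X0| + Y0))) + (1 + 2 * C) * (Y0 * (|X0| + Y0)) := add_le_add a6 a5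
      _ = (1 + 28 * C + 98 * C ^ 2) * Y0 * (|X0| + Y0) := by ring

/-- the dyadic window of `j` -/
theorem sp_window {K j : ℕ} (h : 2 ^ K ≤ j) :
    K ≤ Nat.log 2 j ∧ 2 ^ Nat.log 2 j ≤ j ∧ j < 2 ^ (Nat.log 2 j + 1) := by
  have hj : j ≠ 0 := by
    have : 0 < 2 ^ K := by positivity
    omega
  exact ⟨Nat.le_log_of_pow_le (by norm_num) h, Nat.pow_log_le_self 2 hj, Nat.lt_pow_succ_log_self (by norm_num) j⟩

/-- a switch inside the window `k` is its last step -/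
theorem sp_sw_eq {k j : ℕ} (h1 : 2 ^ k ≤ j) (h2 : j < 2 ^ (k + 1)) (hs : IsSw j) : j + 1 = 2 ^ (k + 1) := by
  obtain ⟨m, hm⟩ := hs
  have a : 2 ^ k < 2 ^ m := by omega
  have b : 2 ^ m ≤ 2 ^ (k + 1) := by omega
  have a' : k < m := (Nat.pow_lt_pow_iff_right (by norm_num)).1 a
  have b' : m ≤ k + 1 := (Nat.pow_le_pow_iff_right (by norm_num)).1 b
  have : m = k + 1 := by omega
  rw [hm, this]

/-- the spliced sequence of a family `X k`, `Y k` used on `[2^k, 2^{k+1}]` -/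
theorem splice_abs (C : ℝ) (k0 : ℕ) (X Y : ℕ → ℕ → ℝ)
    (y_pos : ∀ k, k0 ≤ k → ∀ j, 2 ^ k ≤ j → j ≤ 2 ^ (k + 1) → 0 < Y k j)
    (ord_x : ∀ k, k0 ≤ k → ∀ j, 2 ^ k ≤ j → j < 2 ^ (k + 1) →
      |X k (j + 1) - X k j + Y k j ^ 2| ≤ C * Y k j ^ 2 * (1 / (j : ℝ) ^ 2 + |X k j| + Y k j))
    (ord_y : ∀ k, k0 ≤ k → ∀ j, 2 ^ k ≤ j → j < 2 ^ (k + 1) →
      |Y k (j + 1) - Y k j + X k j * Y k j| ≤ C * Y k j * (|X k j| / (j : ℝ) ^ 2 + X k j ^ 2 + Y k j ^ 2))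
    (ov_x : ∀ k, k0 ≤ k → |X k (2 ^ (k + 1)) - X (k + 1) (2 ^ (k + 1))|
      ≤ C * (Y k (2 ^ (k + 1)) ^ 2 + Y (k + 1) (2 ^ (k + 1)) ^ 2))
    (ov_y : ∀ k, k0 ≤ k → |Y k (2 ^ (k + 1)) - Y (k + 1) (2 ^ (k + 1))|
      ≤ C * ((|X k (2 ^ (k + 1))| + Y k (2 ^ (k + 1))) * Y k (2 ^ (k + 1))
        + (|X (k + 1) (2 ^ (k + 1))| + Y (k + 1) (2 ^ (k + 1))) * Y (k + 1) (2 ^ (k + 1))))
    (small : ∀ ε : ℝ, 0 < ε → ∀ᶠ k : ℕ in atTop, ∀ j, 2 ^ k ≤ j → j ≤ 2 ^ (k + 1) → |X k j| ≤ ε ∧ Y k j ≤ ε) :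
    ∃ C' : ℝ, ∀ᶠ k : ℕ in atTop, ∀ j, 2 ^ k ≤ j → j < 2 ^ (k + 1) →
      |X k j - 1 / (j : ℝ)| ≤ C' * Real.log (2 + j) / (j : ℝ) ^ 2 ∧
      |Y k j - 1 / (j : ℝ)| ≤ C' * Real.log (2 + j) / (j : ℝ) ^ 2 := by
  have hpw : ∀ k : ℕ, 2 ^ k < 2 ^ (k + 1) := fun k => Nat.pow_lt_pow_right (by norm_num) (Nat.lt_succ_self k)
  have hC : 0 ≤ C := by
    have hy := y_pos k0 le_rfl (2 ^ k0) le_rfl (hpw k0).le
    have h1 := (abs_nonneg _).trans (ord_x k0 le_rfl (2 ^ k0) le_rfl (hpw k0))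
    have h2 : 0 < Y k0 (2 ^ k0) ^ 2 * (1 / ((2 ^ k0 : ℕ) : ℝ) ^ 2 + |X k0 (2 ^ k0)| + Y k0 (2 ^ k0)) := by positivity
    rw [mul_assoc] at h1
    by_contra hneg
    push Not at hneg
    nlinarith
  obtain ⟨ε, hεdef⟩ : ∃ ε : ℝ, ε = 1 / (1 + 6 * C) := ⟨_, rfl⟩
  have hden : 0 < 1 + 6 * C := by positivity
  have hε0 : 0 < ε := by rw [hεdef]; positivity
  have hε1 : ε ≤ 1 := by
    rw [hεdef, div_le_one hden]
    linarith
  have hε2 : ε * (1 + 3 * C) ≤ 1 := by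
    rw [hεdef, one_div, inv_mul_le_iff₀ hden]
    linarith
  have hε3 : 6 * C * ε ≤ 1 := by
    rw [hεdef, mul_one_div, div_le_one hden]
    linarith
  obtain ⟨k1', hk1'⟩ := eventually_atTop.1 (small ε hε0)
  obtain ⟨k1, hk1a, hk1b⟩ : ∃ k1, k0 ≤ k1 ∧ k1' ≤ k1 := ⟨max k0 k1', le_max_left _ _, le_max_right _ _⟩
  obtain ⟨x, hx⟩ : ∃ x : ℕ → ℝ, x = fun j => X (Nat.log 2 j) j := ⟨_, rfl⟩
  obtain ⟨y, hy⟩ : ∃ y : ℕ → ℝ, y = fun j => Y (Nat.log 2 j) j := ⟨_, rfl⟩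
  have hlog : ∀ k j, 2 ^ k ≤ j → j < 2 ^ (k + 1) → Nat.log 2 j = k := fun k j h1 h2 =>
    Nat.log_eq_of_pow_le_of_lt_pow h1 h2
  have hxe : ∀ k j, 2 ^ k ≤ j → j < 2 ^ (k + 1) → x j = X k j := fun k j h1 h2 => by
    rw [hx]
    show X (Nat.log 2 j) j = X k j
    rw [hlog k j h1 h2]
  have hye : ∀ k j, 2 ^ k ≤ j → j < 2 ^ (k + 1) → y j = Y k j := fun k j h1 h2 => by
    rw [hy]
    show Y (Nat.log 2 j) j = Y k j
    rw [hlog k j h1 h2]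
  obtain ⟨D, hD⟩ : ∃ D : ℝ, D = 1 + 28 * C + 98 * C ^ 2 := ⟨_, rfl⟩
  have hCD : C ≤ D := by rw [hD]; nlinarith [sq_nonneg C]
  have hW : RecW D x y (2 ^ k1) := by
    refine ⟨?_, ?_, ?_, ?_, ?_, ?_, ?_⟩
    · intro j hj
      obtain ⟨w1, w2, w3⟩ := sp_window hj
      rw [hye _ j w2 w3]
      exact y_pos _ (hk1a.trans w1) j w2 w3.le
    · rw [Metric.tendsto_atTop]
      intro e he
      obtain ⟨ke, hke⟩ := eventually_atTop.1 (small (e / 2) (by positivity))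
      refine ⟨2 ^ ke, fun j hj => ?_⟩
      obtain ⟨w1, w2, w3⟩ := sp_window hj
      rw [Real.dist_eq, sub_zero, hxe _ j w2 w3]
      have := (hke _ w1 j w2 w3.le).1
      linarith
    · rw [Metric.tendsto_atTop]
      intro e he
      obtain ⟨ke, hke⟩ := eventually_atTop.1 (small (e / 2) (by positivity))
      refine ⟨2 ^ (max ke k0), fun j hj => ?_⟩
      obtain ⟨w1, w2, w3⟩ := sp_window hj
      rw [Real.dist_eq, sub_zero, hye _ j w2 w3,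
        abs_of_pos (y_pos _ ((le_max_right _ _).trans w1) j w2 w3.le)]
      have := (hke _ ((le_max_left _ _).trans w1) j w2 w3.le).2
      linarith
    · intro j hj hs
      obtain ⟨w1, w2, w3⟩ := sp_window hj
      have hk : k0 ≤ Nat.log 2 j := hk1a.trans w1
      have w4 : j + 1 < 2 ^ (Nat.log 2 j + 1) := by
        rcases Nat.lt_or_ge (j + 1) (2 ^ (Nat.log 2 j + 1)) with h | h
        · exact h
        · exact absurd ⟨_, le_antisymm w3 h⟩ hs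
      rw [hxe _ (j + 1) (w2.trans (Nat.le_succ j)) w4, hxe _ j w2 w3, hye _ j w2 w3]
      refine (ord_x _ hk j w2 w3).trans ?_
      have hY := y_pos _ hk j w2 w3.le
      rw [mul_assoc, mul_assoc]
      exact mul_le_mul_of_nonneg_right hCD (by positivity)
    · intro j hj hs
      obtain ⟨w1, w2, w3⟩ := sp_window hj
      have hk : k0 ≤ Nat.log 2 j := hk1a.trans w1
      have w4 : j + 1 < 2 ^ (Nat.log 2 j + 1) := by
        rcases Nat.lt_or_ge (j + 1) (2 ^ (Nat.log 2 j + 1)) with h | h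
        · exact h
        · exact absurd ⟨_, le_antisymm w3 h⟩ hs
      rw [hye _ (j + 1) (w2.trans (Nat.le_succ j)) w4, hxe _ j w2 w3, hye _ j w2 w3]
      refine (ord_y _ hk j w2 w3).trans ?_
      have hY := y_pos _ hk j w2 w3.le
      rw [mul_assoc, mul_assoc]
      exact mul_le_mul_of_nonneg_right hCD (by positivity)
    all_goals
      intro j hj hs
      obtain ⟨w1, w2, w3⟩ := sp_window hj
      obtain ⟨k, hkdef⟩ : ∃ k, k = Nat.log 2 j := ⟨_, rfl⟩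
      rw [← hkdef] at w1 w2 w3
      have hk : k0 ≤ k := hk1a.trans w1
      have hk' : k1' ≤ k := hk1b.trans w1
      have hj1 : j + 1 = 2 ^ (k + 1) := sp_sw_eq w2 w3 hs
      have u1 : 2 ^ k ≤ j + 1 := w2.trans (Nat.le_succ j)
      have u2 : j + 1 ≤ 2 ^ (k + 1) := hj1.le
      have u3 : 2 ^ (k + 1) ≤ j + 1 := hj1.ge
      have u4 : j + 1 < 2 ^ (k + 1 + 1) := by rw [hj1]; exact hpw (k + 1)
      have hjR : (1 : ℝ) ≤ (j : ℝ) ^ 2 := by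
        have : 1 ≤ j := le_trans (Nat.one_le_two_pow) w2
        have h1 : (1 : ℝ) ≤ j := by exact_mod_cast this
        nlinarith
      have hY0 := y_pos k hk j w2 w3.le
      have ovx := ov_x k hk
      have ovy := ov_y k hk
      rw [← hj1] at ovx ovy
      have hsx : |X k (j + 1) - X k j + Y k j ^ 2| ≤ C * Y k j ^ 2 * (1 + |X k j| + Y k j) := by
        refine (ord_x k hk j w2 w3).trans (mul_le_mul_of_nonneg_left ?_ (by positivity))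
        have : 1 / (j : ℝ) ^ 2 ≤ 1 := by
          rw [div_le_one (by linarith)]
          exact hjR
        linarith
      have hsy : |Y k (j + 1) - Y k j + X k j * Y k j| ≤ C * Y k j * (|X k j| + X k j ^ 2 + Y k j ^ 2) := by
        refine (ord_y k hk j w2 w3).trans (mul_le_mul_of_nonneg_left ?_ (by positivity))
        have : |X k j| / (j : ℝ) ^ 2 ≤ |X k j| := div_le_self (abs_nonneg _) hjR
        linarith
      have key := sp_switch hC hε1 hε2 hε3 hY0 (y_pos k hk (j + 1) u1 u2)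
        (y_pos (k + 1) (hk.trans (Nat.le_succ k)) (j + 1) u3 u4.le)
        (hk1' k hk' j w2 w3.le).1 (hk1' k hk' (j + 1) u1 u2).1
        (hk1' (k + 1) (hk'.trans (Nat.le_succ k)) (j + 1) u3 u4.le).1
        (hk1' k hk' j w2 w3.le).2 (hk1' k hk' (j + 1) u1 u2).2
        (hk1' (k + 1) (hk'.trans (Nat.le_succ k)) (j + 1) u3 u4.le).2 hsx hsy ovx ovy
      rw [← hD] at key
      first
        | (rw [hxe (k + 1) (j + 1) u3 u4, hxe k j w2 w3, hye k j w2 w3]; exact key.1)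
        | (rw [hye (k + 1) (j + 1) u3 u4, hxe k j w2 w3, hye k j w2 w3]; exact key.2)
  obtain ⟨C1, ax, ay, hOK⟩ := rec_of_weak _ x y _ hW
  obtain ⟨C', hC'⟩ := rec_asymptotic C1 ax ay x y _ hOK
  obtain ⟨J, hJ⟩ := eventually_atTop.1 hC'
  refine ⟨C', eventually_atTop.2 ⟨J, fun k hk j h1 h2 => ?_⟩⟩
  have hjJ : J ≤ j := (hk.trans (Nat.lt_two_pow_self).le).trans h1
  have h3 := hJ j hjJ
  rw [hxe k j h1 h2, hye k j h1 h2] at h3
  exact h3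

end Claimed.Agent.R285.F5

/-!
# GLUE (helper94, PROVED from the contracts of `F5/Bridge.lean`, `F5/Conf.lean` and SP-1, SP-2 above; one arithmetic leaf AR-1 `asym_arith`)

`win_family` : `win_single` on the windows of a canonical family (`win_arith`, `asy_*`).   `base_asym` : `splice_abs` for `X k j = xa (H (sk k)) j` on the base windows `[2^k, 2^{k+1}]`.
`crit_asym` : transfer to every window `[c 2^k, c' 2^k]` by `overlap_at` with the history `m = Nat.log 2 j`.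
## Leaf AR-1 `asym_arith`.   `t = 1/j ≤ 1`, `Λ = log (2 + j)`, `1/2 ≤ Λ ≤ 2 j`.  `A = 1 + 2 C'`: `|x'|, y' ≤ A t`.  `y - y' ≤ y/2 + y'/2`, so `y ≤ 3 y' ≤ 3 A t`.  `|x - x'| ≤ 10 Co A² t²`, `|x| ≤ B t`, `B = A + 10 Co A²`.
`|x - t| ≤ (20 Co A² + C') Λ t²`;  `|y - y'| ≤ Co ((B + 3A) 3A + 2 A²) t²`.   `D` = sum of all these constants.
-/

namespace Claimed.Agent.R285.F5

open Filter Topology Claims.C0459
open Claimed.Agent.R285.Flow

noncomputable section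

/-- **[F] L5.6, (trj:moving-torus), (trj:common-variance), (trj:phase-on-curve)** on the windows of a canonical family -/
theorem win_family (κ : MapC) : ∃ K ρt1 : ℝ, 1 ≤ K ∧ 0 < ρt1 ∧ ∀ (κe : EntC) (ρe : ℝ) (H : ℕ → Hist) (sk : ℕ → ℕ),
    Hyp κ κe ρe H → Fam κ κe H ρt1 sk → ∀ c c' : ℝ, 0 < c → c' ≤ 4 →
      ∀ᶠ k : ℕ in atTop, WinC K κ κe (sk k) (H (sk k)) ⌈c * 2 ^ k⌉₊ ⌊c' * 2 ^ k⌋₊ (4 * 2 ^ k) := by
  obtain ⟨K, r, c0, hK, hr, hc0, hws⟩ := win_single κ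
  refine ⟨K, r, hK, hr, ?_⟩
  intro κe ρe H sk hy hF c c' hc hc'
  have hr0 : 0 < (3 + (1 + κ.θ) / 2) / 4 := by have := κ.hθ0; positivity
  have hr1 : (3 + (1 + κ.θ) / 2) / 4 < 1 := by have := κ.hθ; linarith
  obtain ⟨η, hη, har⟩ := win_arith _ c0 (cE κ) c hr0 hr1 hc0 (cE_pos κ) hc
  have hc2 : 0 < c / 2 := by positivity
  filter_upwards [har, hF.conf, asy_j0 hy hF.sides (c / 2) hc2 0, asy_valid hy hF.sides (c / 2) hc2,
    asy_err hy hF.sides (c / 2) hc2, asy_phase hy hF.sides (c / 2) η hc2 hη] with k h1 h2 h3 h4 h5 h6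
  obtain ⟨a1, a2, a3⟩ := h1
  have h2k : (0 : ℝ) < 2 ^ k := by positivity
  have hb : ⌊c' * 2 ^ k⌋₊ ≤ 4 * 2 ^ k := by
    have e1 : c' * 2 ^ k ≤ ((4 * 2 ^ k : ℕ) : ℝ) := by push_cast; nlinarith
    calc ⌊c' * 2 ^ k⌋₊ ≤ ⌊((4 * 2 ^ k : ℕ) : ℝ)⌋₊ := Nat.floor_le_floor e1
      _ = 4 * 2 ^ k := Nat.floor_natCast _
  have hlow : ∀ h : ℕ, ⌈c / 2 * 2 ^ k⌉₊ ≤ h → c / 2 * 2 ^ k ≤ (h : ℝ) := fun h hh => Nat.ceil_le.1 hh
  have key := hws κe ρe (sk k) (H (sk k)) ⌈c / 2 * 2 ^ k⌉₊ ⌊c / 16 * 2 ^ k⌋₊ ⌊c' * 2 ^ k⌋₊ (4 * 2 ^ k)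
    (Real.exp (-η * (4 * 2 ^ k))) (hy.sys _ (hF.sides.adm k)) ?_ hb (h2.mono le_rfl hb le_rfl) ?_ (Real.exp_pos _) ?_ ?_ a2 ?_
  · exact key.mono a1 le_rfl le_rfl
  · have e1 := h3.2
    have e2 := Nat.le_ceil (c / 2 * 2 ^ k)
    have e3 : (((H (sk k)).j0 : ℕ) : ℝ) ≤ (⌈c / 2 * 2 ^ k⌉₊ : ℝ) := by
      push_cast at e1; linarith
    exact_mod_cast e3
  · intro h ha hb'
    exact h4 h (hlow h ha) (hb'.trans hb)
  · rw [Real.exp_le_one_iff]; nlinarith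
  · intro h ha hb'
    refine le_trans ?_ (h6 h (hlow h ha) (hb'.trans hb))
    apply Real.exp_le_exp.2
    have e1 : (h : ℝ) ≤ 4 * 2 ^ k := by exact_mod_cast hb'.trans hb
    nlinarith
  · intro j ha hb'
    have ha' : ⌈c / 2 * 2 ^ k⌉₊ ≤ j := by omega
    refine (h5 j (hlow j ha') (hb'.trans hb)).trans (le_trans ?_ a3)
    apply Real.exp_le_exp.2
    have := hlow j ha'
    have := cE_pos κ
    nlinarith

theorem abs_xa_le (H : Hist) (i : ℕ) : |xa H (H.j0 + i)| ≤ ‖H.st xyCritical i‖ := by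
  unfold xa xr Hist.x
  rw [Nat.add_sub_cancel_left]
  exact (Complex.abs_re_le_norm _).trans (norm_fst_le _)

theorem abs_ya_le (H : Hist) (i : ℕ) : |ya H (H.j0 + i)| ≤ ‖H.st xyCritical i‖ := by
  unfold ya yr Hist.y
  rw [Nat.add_sub_cancel_left]
  exact (Complex.abs_re_le_norm _).trans ((norm_fst_le _).trans (norm_snd_le _))

theorem q_le_ea_oa (H : Hist) (i : ℕ) : H.q xyCritical i ≤ ea H (H.j0 + i) + oa H (H.j0 + i) := by
  unfold ea oa qe qo Hist.q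
  rw [Nat.add_sub_cancel_left]
  calc ‖(H.st xyCritical i).2.2‖ = ‖ev (H.σQ (H.j0 + i)) (H.st xyCritical i).2.2 + od (H.σQ (H.j0 + i)) (H.st xyCritical i).2.2‖ := by
        rw [ev_add_od]
    _ ≤ _ := norm_add_le _ _

theorem tor_le_Ea_Oa (H : Hist) (h i : ℕ) : ‖H.tor xyCritical h i‖
    ≤ Ea H h (H.j0 + i) + ‖H.G (H.j0 + i) h (H.x xyCritical i)‖ + Oa H h (H.j0 + i) := by
  unfold Ea Oa dE dO
  rw [Nat.add_sub_cancel_left]
  calc ‖H.tor xyCritical h i‖ = ‖(ev (H.σT (H.j0 + i) h) (H.tor xyCritical h i) - H.G (H.j0 + i) h (H.x xyCritical i))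
        + H.G (H.j0 + i) h (H.x xyCritical i) + od (H.σT (H.j0 + i) h) (H.tor xyCritical h i)‖ := by
        rw [sub_add_cancel, ev_add_od]
    _ ≤ _ := (norm_add_le _ _).trans (add_le_add_left (norm_add_le _ _) _)

theorem asym_arith (Co C' : ℝ) (hCo : 1 ≤ Co) (hC' : 0 ≤ C') : ∃ D : ℝ, 0 ≤ D ∧
    ∀ (j : ℕ) (x y x' y' : ℝ), 1 ≤ j → 0 < y → 0 < y' →
    |x - x'| ≤ Co * (y ^ 2 + y' ^ 2) → |y - y'| ≤ Co * ((|x| + y) * y + (|x'| + y') * y') →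
    Co * (|x| + y) ≤ 1 / 2 → Co * (|x'| + y') ≤ 1 / 2 →
    |x' - 1 / (j : ℝ)| ≤ C' * Real.log (2 + j) / (j : ℝ) ^ 2 → |y' - 1 / (j : ℝ)| ≤ C' * Real.log (2 + j) / (j : ℝ) ^ 2 →
    |x - 1 / (j : ℝ)| ≤ D * Real.log (2 + j) / (j : ℝ) ^ 2 ∧ |y - 1 / (j : ℝ)| ≤ D * Real.log (2 + j) / (j : ℝ) ^ 2 ∧
    y ^ 2 ≤ D / (j : ℝ) ^ 2 ∧ (|x| + y) * y ≤ D / (j : ℝ) ^ 2 ∧ x ^ 2 ≤ D / (j : ℝ) ^ 2 := by
  obtain ⟨A, hA⟩ : ∃ A : ℝ, A = 1 + 2 * C' := ⟨_, rfl⟩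
  obtain ⟨B, hB⟩ : ∃ B : ℝ, B = A + 10 * Co * A ^ 2 := ⟨_, rfl⟩
  obtain ⟨E, hE⟩ : ∃ E : ℝ, E = Co * ((B + 3 * A) * (3 * A) + 2 * A ^ 2) := ⟨_, rfl⟩
  have hA1 : 1 ≤ A := by rw [hA]; linarith
  have hA0 : 0 < A := by linarith
  have hCo0 : 0 < Co := by linarith
  have hB0 : 0 < B := by rw [hB]; positivity
  have hE0 : 0 < E := by rw [hE]; positivity
  obtain ⟨D1, hD1⟩ : ∃ D1 : ℝ, D1 = 20 * Co * A ^ 2 + C' := ⟨_, rfl⟩
  obtain ⟨D2, hD2⟩ : ∃ D2 : ℝ, D2 = 2 * E + C' := ⟨_, rfl⟩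
  obtain ⟨D3, hD3⟩ : ∃ D3 : ℝ, D3 = 9 * A ^ 2 := ⟨_, rfl⟩
  obtain ⟨D4, hD4⟩ : ∃ D4 : ℝ, D4 = (B + 3 * A) * (3 * A) := ⟨_, rfl⟩
  obtain ⟨D5, hD5⟩ : ∃ D5 : ℝ, D5 = B ^ 2 := ⟨_, rfl⟩
  have p1 : 0 ≤ D1 := by rw [hD1]; positivity
  have p2 : 0 ≤ D2 := by rw [hD2]; positivity
  have p3 : 0 ≤ D3 := by rw [hD3]; positivity
  have p4 : 0 ≤ D4 := by rw [hD4]; positivity
  have p5 : 0 ≤ D5 := by rw [hD5]; positivity
  refine ⟨D1 + D2 + D3 + D4 + D5, by linarith, ?_⟩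
  intro j x y x' y' hj hy hy' h1 h2 h3 h4 h5 h6
  obtain ⟨t, ht⟩ : ∃ t : ℝ, t = 1 / (j : ℝ) := ⟨_, rfl⟩
  obtain ⟨Λ, hΛ⟩ : ∃ Λ : ℝ, Λ = Real.log (2 + j) := ⟨_, rfl⟩
  have hjR : (1 : ℝ) ≤ j := by exact_mod_cast hj
  have hj0 : (0 : ℝ) < j := by linarith
  have ht0 : 0 < t := by rw [ht]; positivity
  have ht1 : t ≤ 1 := by rw [ht, div_le_one hj0]; exact hjR
  have htj : t * j = 1 := by rw [ht]; field_simp
  have hdiv : ∀ a : ℝ, a / (j : ℝ) ^ 2 = a * t ^ 2 := by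
    intro a
    rw [ht]
    field_simp
  have hΛ1 : 1 / 2 ≤ Λ := by
    have h := Real.one_sub_inv_le_log_of_pos (show (0 : ℝ) < 2 + j by linarith)
    have h' : (2 + (j : ℝ))⁻¹ ≤ 1 / 2 := by
      rw [one_div]
      exact inv_anti₀ (by norm_num) (by linarith)
    rw [hΛ]
    linarith
  have hΛ2 : Λ ≤ 2 * j := by
    have h := Real.log_le_sub_one_of_pos (show (0 : ℝ) < 2 + j by linarith)
    rw [hΛ]
    linarith
  rw [← ht, ← hΛ, hdiv] at h5 h6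
  simp only [← ht, ← hΛ, hdiv]
  have ht2 : 0 < t ^ 2 := by positivity
  -- `Λ t² ≤ 2 t`
  have hΛt : Λ * t ^ 2 ≤ 2 * t := by
    have : Λ * t ^ 2 ≤ (2 * j) * t ^ 2 := mul_le_mul_of_nonneg_right hΛ2 ht2.le
    have e : (2 * (j : ℝ)) * t ^ 2 = 2 * t * (t * j) := by ring
    rw [e, htj] at this
    linarith
  have hCt : C' * Λ * t ^ 2 ≤ 2 * C' * t := by
    have := mul_le_mul_of_nonneg_left hΛt hC'
    linarith
  have hx' : |x'| ≤ A * t := by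
    have : |x'| ≤ |x' - t| + |t| := by
      have := abs_add_le (x' - t) t
      rwa [sub_add_cancel] at this
    rw [abs_of_pos ht0] at this
    rw [hA]
    linarith
  have hy'A : y' ≤ A * t := by
    have := (abs_le.1 h6).2
    rw [hA]
    linarith
  -- `y ≤ 3 y'`
  have hyy : |y - y'| ≤ y / 2 + y' / 2 := by
    refine h2.trans ?_
    have e1 : Co * ((|x| + y) * y + (|x'| + y') * y') = (Co * (|x| + y)) * y + (Co * (|x'| + y')) * y' := by ring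
    rw [e1]
    have a1 := mul_le_mul_of_nonneg_right h3 hy.le
    have a2 := mul_le_mul_of_nonneg_right h4 hy'.le
    linarith
  have hy3 : y ≤ 3 * A * t := by
    have := (abs_le.1 hyy).2
    linarith
  have hAt : 0 < A * t := by positivity
  have hysq : y ^ 2 ≤ 9 * A ^ 2 * t ^ 2 := by
    have : y ^ 2 ≤ (3 * A * t) ^ 2 := pow_le_pow_left₀ hy.le hy3 2
    calc y ^ 2 ≤ (3 * A * t) ^ 2 := this
      _ = _ := by ring
  have hy'sq : y' ^ 2 ≤ A ^ 2 * t ^ 2 := by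
    have : y' ^ 2 ≤ (A * t) ^ 2 := pow_le_pow_left₀ hy'.le hy'A 2
    calc y' ^ 2 ≤ (A * t) ^ 2 := this
      _ = _ := by ring
  have hxx : |x - x'| ≤ 10 * Co * A ^ 2 * t ^ 2 := by
    refine h1.trans ?_
    have := mul_le_mul_of_nonneg_left (add_le_add hysq hy'sq) hCo0.le
    linarith
  have htt : t ^ 2 ≤ t := by
    calc t ^ 2 = t * t := sq t
      _ ≤ 1 * t := mul_le_mul_of_nonneg_right ht1 ht0.le
      _ = t := one_mul t
  have hxB : |x| ≤ B * t := by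
    have : |x| ≤ |x - x'| + |x'| := by
      have := abs_add_le (x - x') x'
      rwa [sub_add_cancel] at this
    have h7 : 10 * Co * A ^ 2 * t ^ 2 ≤ 10 * Co * A ^ 2 * t := mul_le_mul_of_nonneg_left htt (by positivity)
    rw [hB]
    linarith
  have hΛt2 : t ^ 2 ≤ 2 * (Λ * t ^ 2) := by
    have := mul_le_mul_of_nonneg_right hΛ1 ht2.le
    linarith
  have hLt0 : 0 ≤ Λ * t ^ 2 := by positivity
  -- conclusions with the individual constants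
  have c1 : |x - t| ≤ D1 * Λ * t ^ 2 := by
    have : |x - t| ≤ |x - x'| + |x' - t| := by
      have := abs_add_le (x - x') (x' - t)
      rwa [sub_add_sub_cancel] at this
    have h8 : 10 * Co * A ^ 2 * t ^ 2 ≤ 10 * Co * A ^ 2 * (2 * (Λ * t ^ 2)) := mul_le_mul_of_nonneg_left hΛt2 (by positivity)
    rw [hD1]
    linarith
  have c4 : (|x| + y) * y ≤ D4 * t ^ 2 := by
    have h9 : |x| + y ≤ (B + 3 * A) * t := by linarith
    have : (|x| + y) * y ≤ ((B + 3 * A) * t) * (3 * A * t) :=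
      mul_le_mul h9 hy3 hy.le (by positivity)
    rw [hD4]
    linarith
  have c4' : (|x'| + y') * y' ≤ 2 * A ^ 2 * t ^ 2 := by
    have h9 : |x'| + y' ≤ 2 * A * t := by linarith
    have : (|x'| + y') * y' ≤ (2 * A * t) * (A * t) := mul_le_mul h9 hy'A hy'.le (by positivity)
    linarith
  have hyE : |y - y'| ≤ E * t ^ 2 := by
    refine h2.trans ?_
    have := mul_le_mul_of_nonneg_left (add_le_add c4 c4') hCo0.le
    rw [hE]
    rw [hD4] at this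
    linarith
  have c2 : |y - t| ≤ D2 * Λ * t ^ 2 := by
    have : |y - t| ≤ |y - y'| + |y' - t| := by
      have := abs_add_le (y - y') (y' - t)
      rwa [sub_add_sub_cancel] at this
    have h8 : E * t ^ 2 ≤ E * (2 * (Λ * t ^ 2)) := mul_le_mul_of_nonneg_left hΛt2 hE0.le
    rw [hD2]
    linarith
  have c3 : y ^ 2 ≤ D3 * t ^ 2 := by rw [hD3]; exact hysq
  have c5 : x ^ 2 ≤ D5 * t ^ 2 := by
    have : |x| ^ 2 ≤ (B * t) ^ 2 := pow_le_pow_left₀ (abs_nonneg x) hxB 2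
    rw [sq_abs] at this
    rw [hD5]
    linarith
  have q : ∀ a : ℝ, 0 ≤ a → 0 ≤ a * (Λ * t ^ 2) := fun a ha => mul_nonneg ha hLt0
  have q' : ∀ a : ℝ, 0 ≤ a → 0 ≤ a * t ^ 2 := fun a ha => mul_nonneg ha ht2.le
  have := q D1 p1
  have := q D2 p2
  have := q D3 p3
  have := q D4 p4
  have := q D5 p5
  have := q' D1 p1
  have := q' D2 p2
  have := q' D3 p3
  have := q' D4 p4
  have := q' D5 p5
  refine ⟨?_, ?_, ?_, ?_, ?_⟩
  · calc |x - t| ≤ D1 * Λ * t ^ 2 := c1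
      _ ≤ (D1 + D2 + D3 + D4 + D5) * Λ * t ^ 2 := by linarith
  · calc |y - t| ≤ D2 * Λ * t ^ 2 := c2
      _ ≤ (D1 + D2 + D3 + D4 + D5) * Λ * t ^ 2 := by linarith
  · calc y ^ 2 ≤ D3 * t ^ 2 := c3
      _ ≤ (D1 + D2 + D3 + D4 + D5) * t ^ 2 := by linarith
  · calc (|x| + y) * y ≤ D4 * t ^ 2 := c4
      _ ≤ (D1 + D2 + D3 + D4 + D5) * t ^ 2 := by linarith
  · calc x ^ 2 ≤ D5 * t ^ 2 := c5
      _ ≤ (D1 + D2 + D3 + D4 + D5) * t ^ 2 := by linarith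

theorem small_xy {H : Hist} {ε : ℝ} {a b hm : ℕ} (h : Small H ε a b hm) (j : ℕ) (h0 : H.j0 ≤ j) (ha : a ≤ j) (hb : j ≤ b) :
    |xa H j| ≤ ε ∧ |ya H j| ≤ ε := by
  obtain ⟨i, rfl⟩ : ∃ i, j = H.j0 + i := ⟨j - H.j0, by omega⟩
  exact ⟨(abs_xa_le H i).trans (h i ha hb).1, (abs_ya_le H i).trans (h i ha hb).1⟩

theorem norm_real_sub_inv (x : ℝ) (j : ℕ) : ‖(x : ℂ) - 1 / (j : ℂ)‖ = |x - 1 / (j : ℝ)| := by
  have : (x : ℂ) - 1 / (j : ℂ) = ((x - 1 / (j : ℝ) : ℝ) : ℂ) := by push_cast; ring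
  rw [this, Complex.norm_real, Real.norm_eq_abs]

/-- the base windows `[2^k, 2^{k+1}]` -/
theorem win_base {κ : MapC} {κe : EntC} {K : ℝ} {H : ℕ → Hist} {sk : ℕ → ℕ}
    (h : ∀ᶠ k : ℕ in atTop, WinC K κ κe (sk k) (H (sk k)) ⌈(1 : ℝ) * 2 ^ k⌉₊ ⌊(2 : ℝ) * 2 ^ k⌋₊ (4 * 2 ^ k)) :
    ∀ᶠ k : ℕ in atTop, WinC K κ κe (sk k) (H (sk k)) (2 ^ k) (2 ^ (k + 1)) (4 * 2 ^ k) := by
  filter_upwards [h] with k hk
  have e1 : ⌈(1 : ℝ) * 2 ^ k⌉₊ = 2 ^ k := by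
    have : (1 : ℝ) * 2 ^ k = ((2 ^ k : ℕ) : ℝ) := by push_cast; ring
    rw [this, Nat.ceil_natCast]
  have e2 : ⌊(2 : ℝ) * 2 ^ k⌋₊ = 2 ^ (k + 1) := by
    have : (2 : ℝ) * 2 ^ k = ((2 ^ (k + 1) : ℕ) : ℝ) := by push_cast; ring
    rw [this, Nat.floor_natCast]
  rwa [e1, e2] at hk

/-- [F] s5.4 for the histories on their base windows -/
theorem base_asym {κ : MapC} {κe : EntC} {ρe K : ℝ} {H : ℕ → Hist} {sk : ℕ → ℕ} (hK : 1 ≤ K) (hy : Hyp κ κe ρe H) (hs : Sk κ κe sk)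
    (hW : ∀ᶠ k : ℕ in atTop, WinC K κ κe (sk k) (H (sk k)) (2 ^ k) (2 ^ (k + 1)) (4 * 2 ^ k))
    (hsm : ∀ ε : ℝ, 0 < ε → ∀ᶠ k : ℕ in atTop, Small (H (sk k)) ε ⌈(1 : ℝ) * 2 ^ k⌉₊ (4 * 2 ^ k) (4 * 2 ^ k)) :
    ∃ C' : ℝ, 0 ≤ C' ∧ ∀ᶠ k : ℕ in atTop, ∀ j, 2 ^ k ≤ j → j < 2 ^ (k + 1) →
      |xa (H (sk k)) j - 1 / (j : ℝ)| ≤ C' * Real.log (2 + j) / (j : ℝ) ^ 2 ∧
      |ya (H (sk k)) j - 1 / (j : ℝ)| ≤ C' * Real.log (2 + j) / (j : ℝ) ^ 2 := by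
  obtain ⟨Co, hCo, hov⟩ := overlap_at κ K hK
  obtain ⟨k0, hk0⟩ := eventually_atTop.1 hW
  have hKm : K ≤ max K Co := le_max_left _ _
  have hCm : Co ≤ max K Co := le_max_right _ _
  have hsys : ∀ k, SysOK κ κe ρe (sk k) (H (sk k)) := fun k => hy.sys _ (hs.adm k)
  have hpw : ∀ k : ℕ, 2 ^ k ≤ 2 ^ (k + 1) := fun k => Nat.pow_le_pow_right (by norm_num) (by omega)
  obtain ⟨C', hC'⟩ := splice_abs (max K Co) k0 (fun k j => xa (H (sk k)) j) (fun k j => ya (H (sk k)) j)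
    (fun k hk j h1 h2 => (hk0 k hk).y_pos j h1 h2)
    (fun k hk j h1 h2 => by
      refine ((hk0 k hk).ord_x j h1 h2).trans ?_
      have hy0 := (hk0 k hk).y_pos j h1 h2.le
      have : 0 ≤ ya (H (sk k)) j ^ 2 * (1 / (j : ℝ) ^ 2 + |xa (H (sk k)) j| + ya (H (sk k)) j) := by positivity
      simp only [mul_assoc]
      exact mul_le_mul_of_nonneg_right hKm this)
    (fun k hk j h1 h2 => by
      refine ((hk0 k hk).ord_y j h1 h2).trans ?_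
      have hy0 := (hk0 k hk).y_pos j h1 h2.le
      have : 0 ≤ ya (H (sk k)) j * (|xa (H (sk k)) j| / (j : ℝ) ^ 2 + xa (H (sk k)) j ^ 2 + ya (H (sk k)) j ^ 2) := by positivity
      simp only [mul_assoc]
      exact mul_le_mul_of_nonneg_right hKm this)
    (fun k hk => by
      have h1 := (hov κe ρe (sk k) (sk (k + 1)) (H (sk k)) (H (sk (k + 1))) _ _ _ _ _ _ (2 ^ (k + 1)) (hsys k) (hsys (k + 1))
        (hk0 k hk) (hk0 (k + 1) (by omega)) (hpw k) le_rfl le_rfl (hpw (k + 1))).1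
      refine h1.trans (mul_le_mul_of_nonneg_right hCm (by positivity)))
    (fun k hk => by
      have h1 := (hov κe ρe (sk k) (sk (k + 1)) (H (sk k)) (H (sk (k + 1))) _ _ _ _ _ _ (2 ^ (k + 1)) (hsys k) (hsys (k + 1))
        (hk0 k hk) (hk0 (k + 1) (by omega)) (hpw k) le_rfl le_rfl (hpw (k + 1))).2
      have hy0 := (hk0 k hk).y_pos (2 ^ (k + 1)) (hpw k) le_rfl
      have hy1 := (hk0 (k + 1) (by omega)).y_pos (2 ^ (k + 1)) le_rfl (hpw (k + 1))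
      refine h1.trans (mul_le_mul_of_nonneg_right hCm (by positivity)))
    (fun ε hε => by
      filter_upwards [hsm ε hε, hW] with k h1 h2 j j1 j2
      have e1 : ⌈(1 : ℝ) * 2 ^ k⌉₊ = 2 ^ k := by
        have : (1 : ℝ) * 2 ^ k = ((2 ^ k : ℕ) : ℝ) := by push_cast; ring
        rw [this, Nat.ceil_natCast]
      have h3 := small_xy h1 j (h2.ha.trans j1) (by rw [e1]; exact j1) (by rw [pow_succ] at j2; omega)
      exact ⟨h3.1, (le_abs_self _).trans h3.2⟩)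
  refine ⟨max C' 0, le_max_right _ _, ?_⟩
  filter_upwards [hC'] with k hk j j1 j2
  have hl : 0 ≤ Real.log (2 + j) / (j : ℝ) ^ 2 := by
    apply div_nonneg (Real.log_nonneg ?_) (by positivity)
    have : (0 : ℝ) ≤ j := Nat.cast_nonneg _
    linarith
  have hm : C' * Real.log (2 + j) / (j : ℝ) ^ 2 ≤ max C' 0 * Real.log (2 + j) / (j : ℝ) ^ 2 := by
    rw [mul_div_assoc, mul_div_assoc]
    exact mul_le_mul_of_nonneg_right (le_max_left _ _) hl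
  exact ⟨(hk j j1 j2).1.trans hm, (hk j j1 j2).2.trans hm⟩

/-- from the scalar asymptotics and the window bounds to `CritAt`, `CritTor` at one stage -/
theorem crit_at_of {κ : MapC} {κe : EntC} {ρe K D : ℝ} {s : ℕ} {H : Hist} {a b hm : ℕ} (hK : 1 ≤ K) (hD : 0 ≤ D)
    (hsys : SysOK κ κe ρe s H) (hW : WinC K κ κe s H a b hm) (i : ℕ) (ha : a ≤ H.j0 + i) (hb : H.j0 + i ≤ b)
    (h1 : |xa H (H.j0 + i) - 1 / ((H.j0 + i : ℕ) : ℝ)| ≤ D * Real.log (2 + (H.j0 + i : ℕ)) / ((H.j0 + i : ℕ) : ℝ) ^ 2)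
    (h2 : |ya H (H.j0 + i) - 1 / ((H.j0 + i : ℕ) : ℝ)| ≤ D * Real.log (2 + (H.j0 + i : ℕ)) / ((H.j0 + i : ℕ) : ℝ) ^ 2)
    (h3 : ya H (H.j0 + i) ^ 2 ≤ D / ((H.j0 + i : ℕ) : ℝ) ^ 2)
    (h4 : (|xa H (H.j0 + i)| + ya H (H.j0 + i)) * ya H (H.j0 + i) ≤ D / ((H.j0 + i : ℕ) : ℝ) ^ 2)
    (h5 : xa H (H.j0 + i) ^ 2 ≤ D / ((H.j0 + i : ℕ) : ℝ) ^ 2) :
    E4.CritAt H ((2 * K + κ.C) * D) i ∧ ∀ h, H.j0 + i ≤ h → h ≤ hm → E4.CritTor H ((2 * K + κ.C) * D) h i := by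
  have hκC := κ.hC
  have hDD : D ≤ (2 * K + κ.C) * D := by nlinarith
  obtain ⟨r1, r2⟩ := hW.real _ ha hb
  rw [Nat.add_sub_cancel_left] at r1 r2
  set j := H.j0 + i with hj
  have hl : 0 ≤ Real.log (2 + (j : ℝ)) / (j : ℝ) ^ 2 := by
    apply div_nonneg (Real.log_nonneg ?_) (by positivity)
    have : (0 : ℝ) ≤ j := Nat.cast_nonneg _
    linarith
  have hm : D * Real.log (2 + (j : ℝ)) / (j : ℝ) ^ 2 ≤ (2 * K + κ.C) * D * Real.log (2 + (j : ℝ)) / (j : ℝ) ^ 2 := by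
    rw [mul_div_assoc, mul_div_assoc]
    exact mul_le_mul_of_nonneg_right hDD hl
  have hfin : (2 * K + κ.C) * (D / (j : ℝ) ^ 2) = (2 * K + κ.C) * D / (j : ℝ) ^ 2 := by ring
  have hdj : 0 ≤ D / (j : ℝ) ^ 2 := by positivity
  refine ⟨⟨?_, ?_, ?_⟩, ?_⟩
  · rw [r1, norm_real_sub_inv]; exact h1.trans hm
  · rw [r2, norm_real_sub_inv]; exact h2.trans hm
  · have e1 := q_le_ea_oa H i
    have e2 := hW.e_bd _ ha hb
    have e3 := hW.o_bd _ ha hb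
    rw [← hfin]
    rw [mul_assoc] at e3
    nlinarith
  · intro h hh1 hh2
    unfold E4.CritTor
    have e1 := tor_le_Ea_Oa H h i
    have e2 := hW.E_bd _ h ha hb hh1 hh2
    have e3 := hW.O_bd _ h ha hb hh1 hh2
    have hx : ‖H.x xyCritical i‖ = |xa H j| := by rw [r1, Complex.norm_real, Real.norm_eq_abs]
    have e4 := hsys.map.G_bd j h (Nat.le_add_right _ _) hh1 (H.x xyCritical i) (by rw [hx]; exact (hW.x_small _ ha hb).2)
    rw [hx, sq_abs] at e4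
    rw [← hfin]
    rw [mul_assoc] at e3
    nlinarith

theorem ev_pow_le (c : ℝ) (hc : 0 < c) (M : ℕ) : ∀ᶠ k : ℕ in atTop, ((2 ^ M : ℕ) : ℝ) ≤ c * 2 ^ k := by
  have h1 : Tendsto (fun k : ℕ => c * (2 : ℝ) ^ k) atTop atTop :=
    Tendsto.const_mul_atTop hc (tendsto_pow_atTop_atTop_of_one_lt (by norm_num))
  exact h1.eventually_ge_atTop _

/-- **[F] P5.1 = [E] (3.20)** on all windows -/
theorem crit_asym (κ : MapC) : ∃ ρt1 δ1 : ℝ, 0 < ρt1 ∧ 0 < δ1 ∧ ∀ (κe : EntC) (ρe : ℝ) (H : ℕ → Hist) (sk : ℕ → ℕ),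
    Hyp κ κe ρe H → 1 / (κe.P0 : ℝ) ≤ δ1 → Fam κ κe H ρt1 sk →
    ∀ c c' : ℝ, 0 < c → c < c' → c' < 3 → ∃ C : ℝ, ∀ᶠ k : ℕ in atTop, ∀ i : ℕ,
      c * 2 ^ k ≤ (((H (sk k)).j0 + i : ℕ) : ℝ) → (((H (sk k)).j0 + i : ℕ) : ℝ) ≤ c' * 2 ^ k →
        E4.CritAt (H (sk k)) C i ∧ ∀ h, (H (sk k)).j0 + i ≤ h → h ≤ 4 * 2 ^ k → E4.CritTor (H (sk k)) C h i := by
  obtain ⟨K, ρa, hK, hρa, hwin⟩ := win_family κ
  obtain ⟨ρb, δ1, hρb, hδ1, hvan⟩ := vanish κ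
  obtain ⟨Co, hCo, hov⟩ := overlap_at κ K hK
  refine ⟨min ρa ρb, δ1, lt_min hρa hρb, hδ1, ?_⟩
  intro κe ρe H sk hy hP hF c c' hc hcc hc'
  have hFa := hF.mono (min_le_left ρa ρb)
  have hFb := hF.mono (min_le_right ρa ρb)
  have hsys : ∀ k, SysOK κ κe ρe (sk k) (H (sk k)) := fun k => hy.sys _ (hF.sides.adm k)
  have hW1 := win_base (hwin κe ρe H sk hy hFa 1 2 one_pos (by norm_num))
  have hsm := hvan κe ρe H sk hy hP hFb
  obtain ⟨C', hC'0, hC'⟩ := base_asym hK hy hF.sides hW1 (fun ε hε => hsm 1 ε one_pos hε)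
  obtain ⟨D, hD, har⟩ := asym_arith Co C' hCo hC'0
  have hCo0 : 0 < Co := by linarith
  set ε0 : ℝ := 1 / (4 * Co) with hε0
  have hε0pos : 0 < ε0 := by positivity
  have hε0' : Co * (ε0 + ε0) = 1 / 2 := by rw [hε0]; field_simp; norm_num
  -- thresholds for the base windows
  obtain ⟨M0, hM0⟩ := eventually_atTop.1 ((hW1.and hC').and (hsm 1 ε0 one_pos hε0pos))
  refine ⟨(2 * K + κ.C) * D, ?_⟩
  filter_upwards [hwin κe ρe H sk hy hFa c c' hc (by linarith), hsm c ε0 hc hε0pos, ev_pow_le c hc M0] with k hW hS hM i hi1 hi2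
  set j := (H (sk k)).j0 + i with hj
  have ha : ⌈c * 2 ^ k⌉₊ ≤ j := Nat.ceil_le.2 hi1
  have hb : j ≤ ⌊c' * 2 ^ k⌋₊ := Nat.le_floor hi2
  have hjM : 2 ^ M0 ≤ j := by exact_mod_cast hM.trans hi1
  have hj1 : 1 ≤ j := le_trans Nat.one_le_two_pow hjM
  have hj0 : j ≠ 0 := by omega
  set m := Nat.log 2 j with hm
  have hm1 : 2 ^ m ≤ j := Nat.pow_log_le_self 2 hj0
  have hm2 : j < 2 ^ (m + 1) := Nat.lt_pow_succ_log_self (by norm_num) j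
  have hmM : M0 ≤ m := Nat.le_log_of_pow_le (by norm_num) hjM
  obtain ⟨⟨wm, am⟩, sm⟩ := hM0 m hmM
  have hj4 : j ≤ 4 * 2 ^ k := by
    have : (j : ℝ) ≤ ((4 * 2 ^ k : ℕ) : ℝ) := by
      push_cast
      have : (0 : ℝ) < 2 ^ k := by positivity
      nlinarith
    exact_mod_cast this
  obtain ⟨o1, o2⟩ := hov κe ρe (sk k) (sk m) (H (sk k)) (H (sk m)) _ _ _ _ _ _ j (hsys k) (hsys m) hW wm ha hb hm1 hm2.le
  obtain ⟨s1, s2⟩ := small_xy hS j (Nat.le_add_right _ _) ha hj4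
  have e1 : ⌈(1 : ℝ) * 2 ^ m⌉₊ = 2 ^ m := by
    have : (1 : ℝ) * 2 ^ m = ((2 ^ m : ℕ) : ℝ) := by push_cast; ring
    rw [this, Nat.ceil_natCast]
  obtain ⟨s3, s4⟩ := small_xy sm j (wm.ha.trans hm1) (by rw [e1]; exact hm1) (by rw [pow_succ] at hm2; omega)
  have y0 := hW.y_pos j ha hb
  have y1 := wm.y_pos j hm1 hm2.le
  obtain ⟨b1, b2⟩ := am j hm1 hm2
  have t1 : Co * (|xa (H (sk k)) j| + ya (H (sk k)) j) ≤ 1 / 2 := by
    rw [← hε0']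
    apply mul_le_mul_of_nonneg_left _ hCo0.le
    exact add_le_add s1 ((le_abs_self _).trans s2)
  have t2 : Co * (|xa (H (sk m)) j| + ya (H (sk m)) j) ≤ 1 / 2 := by
    rw [← hε0']
    apply mul_le_mul_of_nonneg_left _ hCo0.le
    exact add_le_add s3 ((le_abs_self _).trans s4)
  obtain ⟨f1, f2, f3, f4, f5⟩ := har j _ _ _ _ hj1 y0 y1 o1 o2 t1 t2 b1 b2
  exact crit_at_of hK hD (hsys k) hW i ha hb f1 f2 f3 f4 f5

end

end Claimed.Agent.R285.F5
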