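import Claimed.Agent.R285.F5.TorDefs

/-!
# ROW 285, post BP-F5-L54, file 1: BASE (architect helper57).   Paper-free.   Leaves `L-TOR-B*` (name in each docstring).

General bridges (height variables ↔ image lattice, lifts, null coordinates, the four-piece identity) and the elementary facts on the torus
(linearity of `gX`, translations).  Several leaves share this file: edit ONLY your own theorems (private helpers directly above them), splice on a fresh pull.
-/

set_option autoImplicit false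

namespace Claimed.Agent.R285.L54

open Filter Topology
open scoped Classical

noncomputable section

/-- (= `Free.sq_of_sqrt_le`, proved here to keep the imports small) -/
theorem sq_of_sqrt_le {V A E A₀ : ℝ} (hA : 0 ≤ A) (hE : 0 ≤ E) (hA₀ : A ≤ A₀) (h : Real.sqrt V ≤ Real.sqrt A + Real.sqrt E) :
    V ≤ A + 2 * Real.sqrt (A₀ * E) + E := by
  have h1 : V ≤ Real.sqrt V ^ 2 := by
    rcases le_total 0 V with hV | hV
    · rw [Real.sq_sqrt hV]
    · exact hV.trans (sq_nonneg _)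
  have h2 : Real.sqrt V ^ 2 ≤ (Real.sqrt A + Real.sqrt E) ^ 2 := pow_le_pow_left₀ (Real.sqrt_nonneg _) h 2
  have h3 : Real.sqrt A * Real.sqrt E ≤ Real.sqrt (A₀ * E) := by
    rw [← Real.sqrt_mul hA]
    exact Real.sqrt_le_sqrt (mul_le_mul_of_nonneg_right hA₀ hE)
  have h4 : (Real.sqrt A + Real.sqrt E) ^ 2 = A + 2 * (Real.sqrt A * Real.sqrt E) + E := by
    have := Real.sq_sqrt hA
    have := Real.sq_sqrt hE
    nlinarith
  linarith

/-! ## 1. Height variables and the image lattice -/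

/-- L-TOR-B1.  `hgraph_Zs_eq` for numerator and denominator; `HLaw.Aff.zero = ⟨0, 0, 0⟩` and `(0 : Empty → ℝ) = fun o => o.elim` (`funext`, `Empty.elim`). -/
theorem hgraph_Ex_eq (G : HGraph) (b : ℝ) (P : Set G.V) (F : (G.V → ℝ) → ℝ) :
    G.Ex b P F = (HLaw.plain G P).Ex b (HLaw.Aff.zero (HLaw.plain G P)) F := by
  have e : (⟨0, 0, fun o => o.elim⟩ : (HLaw.plain G P).Aff) = HLaw.Aff.zero (HLaw.plain G P) := by
    unfold HLaw.Aff.zero
    congr 1
    funext o
    exact Empty.elim o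
  unfold HGraph.Ex HLaw.Ex
  rw [hgraph_Zs_eq, hgraph_Zs_eq, e]

/-- L-TOR-B1.  General form of `C2.ex_eq_E0` (several tests at once).  `Free.E0_heights`; `HLaw.Z` at the zero datum: `a.x = 0`, `a.amb b = 0`. -/
theorem ex_eq_E0' {G : HGraph} (H : HLaw G) (hP : H.Proper) (b : ℝ) (F : (G.V → ℝ) → ℝ) (Φ : (H.sys b).L → ℝ)
    (h : ∀ (h : G.V → ℤ) (hh : h ∈ H.Λ), F (fun v => 2 * Real.pi * (h v : ℝ)) = Φ ⟨H.coordA b h, H.coordA_mem b hh⟩) :
    H.Ex b (HLaw.Aff.zero H) F = (H.sys b).E0 Φ := by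
  rw [Free.E0_heights H hP b Φ]
  have hamb : (HLaw.Aff.zero H).amb b = 0 := by
    unfold HLaw.Aff.amb HLaw.Aff.zero
    simp only [map_zero, zero_add]
    refine Prod.ext rfl ?_
    funext o
    show -(0 : ℝ) = 0
    exact neg_zero
  unfold HLaw.Ex HLaw.Z
  congr 1
  · refine tsum_congr fun x => ?_
    rw [hamb, add_zero, ← h x.1 x.2]
    congr 2
    funext v
    simp [HLaw.Aff.zero]
  · refine tsum_congr fun x => ?_
    rw [hamb, add_zero, one_mul]

/-- L-TOR-B2.  In a proper law every row has a lift: `coordA` restricted to `Λ` is an additive bijection onto `L` (`AddEquiv.ofBijective` / `AddMonoidHom.ofInjective`‑style inverse); compose its inverse with `h ↦ ∑ f (2π h)`. -/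
theorem lift_exists {G : HGraph} (H : HLaw G) (hP : H.Proper) (b : ℝ) (f : G.V → ℝ) :
    ∃ X : (H.sys b).L →+ ℝ, H.Lift b f X := by
  have hex : ∀ z : (H.sys b).L, ∃ h : G.V → ℤ, h ∈ H.Λ ∧ H.coord h = z.1 := fun z => by
    obtain ⟨h, hh, he⟩ := AddSubgroup.mem_map.1 z.2
    exact ⟨h, hh, he⟩
  choose g hg hge using hex
  have hinj : ∀ h ∈ H.Λ, ∀ h' ∈ H.Λ, H.coord h = H.coord h' → h = h' := fun h hh h' hh' he => by
    have := hP (h - h') (H.Λ.sub_mem hh hh') (by rw [map_sub, he, sub_self])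
    exact sub_eq_zero.1 this
  refine ⟨{ toFun := fun z => ∑ x, f x * (2 * Real.pi * (g z x : ℝ)), map_zero' := ?_, map_add' := ?_ }, ?_⟩
  · have h0 : g 0 = 0 := hinj _ (hg 0) _ H.Λ.zero_mem (by rw [hge, map_zero]; rfl)
    simp [h0]
  · intro z z'
    have h0 : g (z + z') = g z + g z' :=
      hinj _ (hg _) _ (H.Λ.add_mem (hg z) (hg z')) (by rw [hge, map_add, hge, hge]; rfl)
    simp [h0, mul_add, Finset.sum_add_distrib]
  · intro h hh
    have h0 : g ⟨H.coordA b h, H.coordA_mem b hh⟩ = h := hinj _ (hg _) _ hh (hge _)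
    show ∑ x, f x * (2 * Real.pi * (g ⟨H.coordA b h, H.coordA_mem b hh⟩ x : ℝ)) = _
    rw [h0]

/-- L-TOR-B2.  Every `z ∈ L` is `coordA h`, `h ∈ Λ` (`AddSubgroup.mem_map`). -/
theorem lift_unique {G : HGraph} (H : HLaw G) (b : ℝ) (f : G.V → ℝ) {X X' : (H.sys b).L →+ ℝ}
    (hX : H.Lift b f X) (hX' : H.Lift b f X') : X = X' := by
  ext ⟨z, hz⟩
  obtain ⟨h, hh, rfl⟩ := AddSubgroup.mem_map.1 hz
  exact (hX h hh).trans (hX' h hh).symm

/-- L-TOR-B2.  Summation by parts on any graph: the flow `∇u` is a lift of `gradRow u` (`Finset.sum_comm`, `Finset.sum_ite_eq`). -/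
theorem flow_lift {G : HGraph} (H : HLaw G) (b : ℝ) (u : G.V → ℝ) :
    H.Lift b (HLaw.gradRow u) (C2.flowS (H.sys b) fun e => 2 * Real.pi * (u (G.tgt e) - u (G.src e))) := by
  intro h hh
  show ∑ e : G.E, (2 * Real.pi * (u (G.tgt e) - u (G.src e))) * (((h (G.tgt e) - h (G.src e) : ℤ)) : ℝ)
    = ∑ x, HLaw.gradRow u x * (2 * Real.pi * (h x : ℝ))
  unfold HLaw.gradRow
  simp only [Finset.sum_mul]
  rw [Finset.sum_comm]
  refine Finset.sum_congr rfl fun e _ => ?_
  have h1 : ∀ x, (u (G.tgt e) - u (G.src e)) * ((if G.tgt e = x then 1 else 0) - (if G.src e = x then 1 else 0))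
        * (2 * Real.pi * (h x : ℝ))
      = (u (G.tgt e) - u (G.src e)) * (2 * Real.pi)
        * ((if G.tgt e = x then (h x : ℝ) else 0) - (if G.src e = x then (h x : ℝ) else 0)) := by
    intro x
    split_ifs <;> ring
  simp only [h1]
  rw [← Finset.mul_sum, Finset.sum_sub_distrib, Finset.sum_ite_eq, Finset.sum_ite_eq]
  simp only [Finset.mem_univ, if_true]
  push_cast
  ring

/-! ## 2. Null coordinates -/

theorem tb_null_W {S S' : LSys} (r : LSys.Ref S S')
    (hE : ∀ z ∈ S'.L, ∀ e, e ∉ Set.range r.iE → z.1 e = 0) (hO : ∀ z ∈ S'.L, ∀ o, o ∉ Set.range r.iO → z.2 o = 0)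
    (z : S'.Amb) (hz : z ∈ S'.L) :
    S'.W z = (∏ e ∈ (Finset.univ.map r.iE)ᶜ, bes (S'.b e) 0) * S.W (r.res z) := by
  unfold LSys.W
  have h1 : ∏ e, bes (S'.b e) (z.1 e) =
      (∏ e, bes (S.b e) ((r.res z).1 e)) * ∏ e ∈ (Finset.univ.map r.iE)ᶜ, bes (S'.b e) 0 := by
    rw [← Finset.prod_mul_prod_compl (Finset.univ.map r.iE), Finset.prod_map]
    congr 1
    · exact Finset.prod_congr rfl fun e _ => by rw [r.hb]; rfl
    · refine Finset.prod_congr rfl fun e he => ?_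
      rw [hE z hz e]
      rintro ⟨e0, rfl⟩
      simp at he
  have h2 : ∑ o, z.2 o ^ 2 = ∑ o, (r.res z).2 o ^ 2 := by
    rw [← Finset.sum_add_sum_compl (Finset.univ.map r.iO), Finset.sum_map]
    have : ∑ o ∈ (Finset.univ.map r.iO)ᶜ, z.2 o ^ 2 = 0 := by
      refine Finset.sum_eq_zero fun o ho => ?_
      rw [hO z hz o]
      · simp
      · rintro ⟨o0, rfl⟩
        simp at ho
    rw [this, add_zero]
    rfl
  rw [h1, h2]
  ring

theorem tb_null_Zf {S S' : LSys} (r : LSys.Ref S S') (hbij : Function.Bijective r.psi)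
    (hE : ∀ z ∈ S'.L, ∀ e, e ∉ Set.range r.iE → z.1 e = 0) (hO : ∀ z ∈ S'.L, ∀ o, o ∉ Set.range r.iO → z.2 o = 0)
    (F : S.L → ℝ) :
    S'.Zf 0 (fun z => F (r.psi z)) = (∏ e ∈ (Finset.univ.map r.iE)ᶜ, bes (S'.b e) 0) * S.Zf 0 F := by
  unfold LSys.Zf
  rw [← (Equiv.ofBijective r.psi hbij).tsum_eq, ← tsum_mul_left]
  refine tsum_congr fun z => ?_
  rw [add_zero, add_zero, tb_null_W r hE hO z z.2]
  simp only [Equiv.ofBijective_apply]
  have : ((r.psi z : S.L) : S.Amb) = r.res z := rfl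
  rw [this]
  ring

/-- L-TOR-B3.  **Coordinates which vanish on the lattice can be dropped.**  `S'.W z = c * S.W (r.res z)` for `z ∈ S'.L`, `c = ∏_{e ∉ range iE} bes (S'.b e) 0 > 0` (split the product over `range iE` and its complement:
`Finset.prod_subtype`/`Fintype.prod_equiv` with `Equiv.ofInjective`, `r.hb`; the Gaussian sum likewise, the missing terms are `0`); reindex the two `tsum`s of `E0 = Ev 0 0` by `Equiv.ofBijective r.psi hbij` (`Equiv.tsum_eq`); cancel `c`. -/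
theorem null_E0 {S S' : LSys} (r : LSys.Ref S S') (hb : ∀ e, 0 < S'.b e) (hbij : Function.Bijective r.psi)
    (hE : ∀ z ∈ S'.L, ∀ e, e ∉ Set.range r.iE → z.1 e = 0) (hO : ∀ z ∈ S'.L, ∀ o, o ∉ Set.range r.iO → z.2 o = 0)
    (F : S.L → ℝ) : S'.E0 (fun z => F (r.psi z)) = S.E0 F := by
  have hc : 0 < ∏ e ∈ (Finset.univ.map r.iE)ᶜ, bes (S'.b e) 0 := Finset.prod_pos fun e _ => bes_pos _ (hb e) _
  rw [rd_E0_eq, rd_E0_eq, tb_null_Zf r hbij hE hO F]
  have hw : S'.w 0 = (∏ e ∈ (Finset.univ.map r.iE)ᶜ, bes (S'.b e) 0) * S.w 0 :=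
    tb_null_Zf r hbij hE hO fun _ => 1
  rw [hw, mul_div_mul_left _ _ hc.ne']

/-- L-TOR-B3.  `rd_V0_eq` + `null_E0`. -/
theorem null_V0 {S S' : LSys} (r : LSys.Ref S S') (hb : ∀ e, 0 < S'.b e) (hbij : Function.Bijective r.psi)
    (hE : ∀ z ∈ S'.L, ∀ e, e ∉ Set.range r.iE → z.1 e = 0) (hO : ∀ z ∈ S'.L, ∀ o, o ∉ Set.range r.iO → z.2 o = 0)
    (X : S.L →+ ℝ) : S'.V0 (X.comp r.psi) = S.V0 X := by
  rw [rd_V0_eq, rd_V0_eq]
  exact null_E0 r hb hbij hE hO fun y => X y ^ 2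

/-! ## 3. The four-piece identity -/

/-- L-TOR-B4.  For a quadratic form `Q` and four vectors with sum `s`: `Q s = 4 (∑ Q x_a - ∑ Q (x_a - s/4))`.  Pointwise: `s² = 4 (∑ X_a² - ∑ (X_a - s/4)²)` (`Fintype.sum_prod_type`, `Fintype.sum_bool`, `ring`);
then `rd_V0_eq` and linearity of `E0` (`rd_E0_add`, `rd_E0_smul`, `rd_dom_*`). -/
theorem var_four (S : LSys) (hS : S.Ok) (X : Bool × Bool → S.L →+ ℝ) :
    S.V0 (∑ a, X a) = 4 * (∑ a, S.V0 (X a) - ∑ a, S.V0 (X a - (1 / 4 : ℝ) • ∑ c, X c)) := by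
  have hd1 : ∀ a ∈ (Finset.univ : Finset (Bool × Bool)), S.Dom fun z => X a z ^ 2 :=
    fun a _ => rd_dom_pow (rd_dom_test _) 2
  have hd2 : ∀ a ∈ (Finset.univ : Finset (Bool × Bool)), S.Dom fun z => (X a - (1 / 4 : ℝ) • ∑ c, X c) z ^ 2 :=
    fun a _ => rd_dom_pow (rd_dom_test _) 2
  simp only [rd_V0_eq]
  rw [← Free.frs_E0_sum hS _ _ hd1, ← Free.frs_E0_sum hS _ _ hd2,
    ← Free.frs_E0_sub hS (Free.frs_dom_sum _ _ hd1) (Free.frs_dom_sum _ _ hd2), ← rd_E0_smul]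
  congr 1
  funext z
  simp only [AddMonoidHom.sub_apply, AddMonoidHom.smul_apply, smul_eq_mul,
    Fintype.sum_prod_type, Fintype.sum_bool, AddMonoidHom.add_apply]
  ring

/-! ## 4. The torus -/

theorem tor_tgt (n : ℕ) [NeZero n] (e : (ZMod n × ZMod n) × Bool) : (torus n).tgt e = e.1 + dv n e.2 := by
  obtain ⟨⟨x, y⟩, d⟩ := e
  cases d <;> simp [torus, dv]

theorem tV_eq (b : ℝ) (n : ℕ) [NeZero n] (x : ZMod n × ZMod n → ℝ) : tV b n x = ((C5.torLaw n).sys b).V0 (gX n b x) := by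
  unfold tV
  rw [dif_neg (NeZero.ne n)]

theorem tE_eq (n : ℕ) [NeZero n] (x : ZMod n × ZMod n → ℝ) : tE n x = tEn n x := by
  unfold tE
  rw [dif_neg (NeZero.ne n)]

/-- L-TOR-B5.  Unfold `gX`, `C5.torX`, `C2.flowS`, `tgr`; `Finset.sum_comm`. -/
theorem gX_sum (n : ℕ) [NeZero n] (b : ℝ) {ι : Type} [Fintype ι] (x : ι → ZMod n × ZMod n → ℝ) :
    gX n b (fun v => ∑ a, x a v) = ∑ a, gX n b (x a) := by
  ext z
  rw [AddMonoidHom.finsetSum_apply]
  show ∑ e, 2 * Real.pi * tgr n (fun v => ∑ a, x a v) e * ((z : ((C5.torLaw n).sys b).Amb).1 e : ℝ)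
    = ∑ a, ∑ e, 2 * Real.pi * tgr n (x a) e * ((z : ((C5.torLaw n).sys b).Amb).1 e : ℝ)
  rw [Finset.sum_comm]
  refine Finset.sum_congr rfl fun e _ => ?_
  unfold tgr
  rw [← Finset.sum_sub_distrib, Finset.mul_sum, Finset.sum_mul]

/-- L-TOR-B5. -/
theorem gX_sub_smul (n : ℕ) [NeZero n] (b : ℝ) (c : ℝ) (x y : ZMod n × ZMod n → ℝ) :
    gX n b (fun v => x v - c * y v) = gX n b x - c • gX n b y := by
  ext z
  rw [AddMonoidHom.sub_apply, AddMonoidHom.smul_apply, smul_eq_mul]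
  show ∑ e, 2 * Real.pi * tgr n (fun v => x v - c * y v) e * ((z : ((C5.torLaw n).sys b).Amb).1 e : ℝ)
    = ∑ e, 2 * Real.pi * tgr n x e * ((z : ((C5.torLaw n).sys b).Amb).1 e : ℝ)
      - c * ∑ e, 2 * Real.pi * tgr n y e * ((z : ((C5.torLaw n).sys b).Amb).1 e : ℝ)
  rw [Finset.mul_sum, ← Finset.sum_sub_distrib]
  refine Finset.sum_congr rfl fun e _ => ?_
  unfold tgr
  ring

/-- L-TOR-B5.  The identity of `var_four` for the Dirichlet energy (termwise in the bond). -/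
theorem tEn_four (n : ℕ) [NeZero n] (x : Bool × Bool → ZMod n × ZMod n → ℝ) :
    tEn n (fun v => ∑ a, x a v) = 4 * (∑ a, tEn n (x a) - ∑ a, tEn n fun v => x a v - 1 / 4 * ∑ c, x c v) := by
  unfold tEn
  rw [Finset.sum_comm, Finset.sum_comm (s := (Finset.univ : Finset (Bool × Bool))), ← Finset.sum_sub_distrib,
    Finset.mul_sum]
  refine Finset.sum_congr rfl fun e _ => ?_
  unfold tgr
  simp only [Fintype.sum_prod_type, Fintype.sum_bool]
  ring

/-- L-TOR-B5.  `tgr n (eT n) (v, true) = κ_n (t1C (v.1 + 1) - t1C v.1)`, `C5.t1_torFl_true`, `C5.t1C_add_one`; vertical bonds: both sides vanish (`C5.t1_torFl_false`). -/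
theorem tgr_eT (n : ℕ) [NeZero n] : tgr n (eT n) = C5.torFl n := by
  funext ⟨v, d⟩
  cases d
  · rw [C5.t1_torFl_false]
    simp [tgr, eT, dv]
  · rw [C5.t1_torFl_true]
    have h := C5.t1C_add_one n v.1
    simp only [tgr, eT, dv, if_true, Prod.fst_add, h]
    unfold C5.t1C
    ring

theorem gX_eT (n : ℕ) [NeZero n] (b : ℝ) : gX n b (eT n) = xC n b := by
  unfold gX xC
  rw [tgr_eT]

/-- the translated height, renormalised at the pin -/
def trH (n : ℕ) [NeZero n] (t : ZMod n × ZMod n) (h : (torus n).V → ℤ) : (torus n).V → ℤ :=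
  fun v : ZMod n × ZMod n => h (v - t : ZMod n × ZMod n) - h (-t : ZMod n × ZMod n)

theorem trH_mem (n : ℕ) [NeZero n] (t : ZMod n × ZMod n) (h : (torus n).V → ℤ) : trH n t h ∈ (C5.torLaw n).Λ := by
  intro v hv
  have hv' : v = ((0 : ZMod n), (0 : ZMod n)) := hv
  subst hv'
  show h (((0 : ZMod n), (0 : ZMod n)) - t : ZMod n × ZMod n) - h (-t : ZMod n × ZMod n) = 0
  have : (((0 : ZMod n), (0 : ZMod n)) - t : ZMod n × ZMod n) = -t := by
    ext <;> simp
  rw [this, sub_self]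

theorem tb_coord_trH (n : ℕ) [NeZero n] (s : ZMod n × ZMod n) (h : (torus n).V → ℤ) (e : (ZMod n × ZMod n) × Bool) :
    ((C5.torLaw n).coord (trH n s h)).1 e = ((C5.torLaw n).coord h).1 (e.1 - s, e.2) := by
  show trH n s h ((torus n).tgt e) - trH n s h ((torus n).src e) =
    h ((torus n).tgt (e.1 - s, e.2)) - h ((torus n).src (e.1 - s, e.2))
  rw [tor_tgt, tor_tgt]
  show (h (e.1 + dv n e.2 - s : ZMod n × ZMod n) - h (-s : ZMod n × ZMod n)) - (h (e.1 - s : ZMod n × ZMod n) - h (-s : ZMod n × ZMod n)) =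
    h (e.1 - s + dv n e.2 : ZMod n × ZMod n) - h (e.1 - s : ZMod n × ZMod n)
  rw [add_sub_right_comm]
  ring

theorem tb_shift_mem (n : ℕ) [NeZero n] (b : ℝ) (s : ZMod n × ZMod n) (z : ((C5.torLaw n).sys b).Amb)
    (hz : z ∈ ((C5.torLaw n).sys b).L) :
    ((fun e : (ZMod n × ZMod n) × Bool => z.1 (e.1 - s, e.2), z.2) : ((C5.torLaw n).sys b).Amb) ∈ ((C5.torLaw n).sys b).L := by
  obtain ⟨h, hh, rfl⟩ := AddSubgroup.mem_map.1 hz
  refine AddSubgroup.mem_map.2 ⟨trH n s h, trH_mem n s h, ?_⟩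
  refine Prod.ext (funext fun e => tb_coord_trH n s h e) (funext fun o => Empty.elim o)

/-- translation of the bonds -/
def tbE (n : ℕ) (t : ZMod n × ZMod n) : ((ZMod n × ZMod n) × Bool) ≃ ((ZMod n × ZMod n) × Bool) where
  toFun e := (e.1 + t, e.2)
  invFun e := (e.1 - t, e.2)
  left_inv e := by simp
  right_inv e := by simp

theorem tbE_eqns_cite : True := by
  have := @tbE.eq_1
  trivial

/-- L-TOR-B6.  **Translations.**  `eE e = (e.1 + t, e.2)` or `(e.1 - t, e.2)` (choose the sign which gives the two identities), all signs `+1`, `eO = Equiv.refl Empty`; `mem`: `z = coord h ↦ coord (trH n t h)`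
(the image lattice consists of the gradients of ALL integer functions: subtract the value at the pin). -/
theorem tor_shift (n : ℕ) [NeZero n] (b : ℝ) (t : ZMod n × ZMod n) :
    ∃ i : Free.SIso ((C5.torLaw n).sys b) ((C5.torLaw n).sys b),
      (∀ w : (ZMod n × ZMod n) × Bool → ℝ, (C5.torX n b w).comp i.mapL = C5.torX n b fun e => w (e.1 + t, e.2)) ∧
      ∀ (h : (torus n).V → ℤ) (hh : h ∈ (C5.torLaw n).Λ),
          i.mapL ⟨(C5.torLaw n).coordA b h, (C5.torLaw n).coordA_mem b hh⟩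
            = ⟨(C5.torLaw n).coordA b (trH n t h), (C5.torLaw n).coordA_mem b (trH_mem n t h)⟩ := by
  refine ⟨{ eE := tbE n t, eO := Equiv.refl _, sE := fun _ => 1, sO := fun _ => 1,
            hsE := fun _ => Or.inl rfl, hsO := fun _ => Or.inl rfl, hb := fun _ => rfl, mem := ?_ }, ?_, ?_⟩
  · intro z
    constructor
    · intro hz
      have := tb_shift_mem n b t z hz
      convert this using 1
      refine Prod.ext (funext fun e => ?_) (funext fun o => Empty.elim o)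
      exact one_mul _
    · intro hz
      have := tb_shift_mem n b (-t) _ hz
      convert this using 1
      refine Prod.ext (funext fun e => ?_) (funext fun o => Empty.elim o)
      show z.1 e = 1 * z.1 ((e.1 - -t) - t, e.2)
      rw [one_mul, sub_neg_eq_add, add_sub_cancel_right]
      rfl
  · intro w
    ext z
    show ∑ e : (ZMod n × ZMod n) × Bool, 2 * Real.pi * w e * (((1 * (z : ((C5.torLaw n).sys b).Amb).1 ((tbE n t).symm e) : ℤ)) : ℝ) =
      ∑ e : (ZMod n × ZMod n) × Bool, 2 * Real.pi * w (e.1 + t, e.2) * ((((z : ((C5.torLaw n).sys b).Amb).1 e : ℤ)) : ℝ)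
    refine (Fintype.sum_equiv (tbE n t) _ _ fun e => ?_).symm
    rw [Equiv.symm_apply_apply, one_mul]
    rfl
  · intro h hh
    refine Subtype.ext (Prod.ext (funext fun e => ?_) (funext fun o => Empty.elim o))
    show 1 * ((C5.torLaw n).coord h).1 (e.1 - t, e.2) = ((C5.torLaw n).coord (trH n t h)).1 e
    rw [one_mul]
    exact (tb_coord_trH n t h e).symm

/-- L-TOR-B6.  `Free.siso_V0` with `tor_shift`. -/
theorem tV_shift (b : ℝ) (n : ℕ) (t : ZMod n × ZMod n) (x : ZMod n × ZMod n → ℝ) : tV b n (fun v => x (v + t)) = tV b n x := by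
  by_cases hn : n = 0
  · unfold tV
    rw [dif_pos hn, dif_pos hn]
  · have : NeZero n := ⟨hn⟩
    rw [tV_eq, tV_eq]
    obtain ⟨i, hi, -⟩ := tor_shift n b t
    rw [Free.siso_V0 i (gX n b x)]
    congr 1
    unfold gX
    rw [hi]
    congr 1
    funext e
    unfold tgr
    rw [add_right_comm]

/-- L-TOR-B6.  Reindex the sum over the bonds by `Equiv.addRight t` in the first component. -/
theorem tE_shift (n : ℕ) (t : ZMod n × ZMod n) (x : ZMod n × ZMod n → ℝ) : tE n (fun v => x (v + t)) = tE n x := by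
  by_cases hn : n = 0
  · unfold tE
    rw [dif_pos hn, dif_pos hn]
  · have : NeZero n := ⟨hn⟩
    rw [tE_eq, tE_eq]
    unfold tEn
    refine Fintype.sum_equiv (tbE n t) _ _ fun e => ?_
    unfold tgr
    show (x (e.1 + dv n e.2 + t) - x (e.1 + t)) ^ 2 = (x (e.1 + t + dv n e.2) - x (e.1 + t)) ^ 2
    rw [add_right_comm]

/-- L-TOR-B1.  `torVar`, `hgraph_Ex_eq`, `C5.Vr_eq_V0`, `C5.tor_cos_lift`, `gX_eT` (this also closes `C5.torVar_eq`). -/
theorem torVar_eq_tV (b : ℝ) (n : ℕ) (hn : 2 ≤ n) : torVar b n = tV b n (eT n) := by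
  have : NeZero n := ⟨by omega⟩
  rw [C5.torVar_eq, C5.Vr_eq_V0 (C5.torLaw n) (C5.torLaw_proper n) b (C5.cosRow n) _ (C5.tor_cos_lift n hn b), tV_eq,
    gX_eT]
  rfl

/-! ## 5. The mean phase -/

/-- the uniform mean `\bar h` on the image lattice (a lift exists because the law is proper; `e^{i \bar h}` does not depend on the pin) -/
def xM (n : ℕ) [NeZero n] (b : ℝ) : ((C5.torLaw n).sys b).L →+ ℝ :=
  Classical.choose (lift_exists (C5.torLaw n) (C5.torLaw_proper n) b (meanRow n))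

theorem xM_lift (n : ℕ) [NeZero n] (b : ℝ) : (C5.torLaw n).Lift b (meanRow n) (xM n b) :=
  Classical.choose_spec (lift_exists (C5.torLaw n) (C5.torLaw_proper n) b (meanRow n))

/-- L-TOR-B7.  `torPhase`, `hgraph_Ex_eq`, `ex_eq_E0'` with `Φ z = cos (xM z)` (`xM_lift`; `n⁻² * ∑ h = ∑ meanRow * h`, `Finset.mul_sum`). -/
theorem torPhase_eq (b : ℝ) (n : ℕ) [NeZero n] : torPhase b n = ((C5.torLaw n).sys b).phi (xM n b) := by
  unfold torPhase
  rw [dif_neg (NeZero.ne n), hgraph_Ex_eq]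
  refine ex_eq_E0' (C5.torLaw n) (C5.torLaw_proper n) b _ (fun z => Real.cos (xM n b z)) fun h hh => ?_
  rw [xM_lift n b h hh]
  congr 1
  rw [Finset.mul_sum]
  rfl

/-- L-TOR-B7.  Same with `Φ z = cos (xM z) * exp (w * xC z)` (`xM_lift`, `C5.tor_cos_lift`; `C5.cosRow`). -/
theorem tG_eq (b : ℝ) (n : ℕ) [NeZero n] (hn : 2 ≤ n) (w : ℝ) :
    tG b n w = ((C5.torLaw n).sys b).E0 fun z => Real.cos (xM n b z) * Real.exp (w * xC n b z) := by
  unfold tG
  rw [dif_neg (NeZero.ne n), hgraph_Ex_eq]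
  refine ex_eq_E0' (C5.torLaw n) (C5.torLaw_proper n) b _ (fun z => Real.cos (xM n b z) * Real.exp (w * xC n b z))
    fun h hh => ?_
  have h2 : xC n b ⟨(C5.torLaw n).coordA b h, (C5.torLaw n).coordA_mem b hh⟩ = _ := C5.tor_cos_lift n hn b h hh
  simp only []
  rw [xM_lift n b h hh, h2]
  congr 2
  · rw [Finset.mul_sum]
    rfl
  · congr 1
    rw [Finset.mul_sum]
    refine Finset.sum_congr rfl fun v _ => ?_
    unfold C5.cosRow
    ring

theorem tM_eq (b : ℝ) (n : ℕ) [NeZero n] (s : ℝ) : tM b n s = ((C5.torLaw n).sys b).E0 fun z => Real.exp (s * xC n b z) := by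
  unfold tM
  rw [dif_neg (NeZero.ne n)]

theorem tK_eq (b : ℝ) (n : ℕ) [NeZero n] : tK b n = C2.kap ((C5.torLaw n).sys b) (xC n b) (xC n b) := by
  unfold tK
  rw [dif_neg (NeZero.ne n)]

theorem mixDiag_eq (b : ℝ) (n : ℕ) (hn : n ≠ 0) (w : ℝ) : mixDiag b n w = tG b n w - torPhase b n * Real.exp (w ^ 2 / (2 * Real.pi)) := by
  unfold mixDiag tG
  rw [dif_neg hn, dif_neg hn]

end

end Claimed.Agent.R285.L54
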