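import Claimed.Agent.R285.C5.TorUp
import Claimed.Agent.R285.Read.C3Defs

/-!
# ROW 285, post BP-F5-L54 (architect helper57): DEFINITIONS for the torus diagnostics.   No sorry here.

Exits of the post (files `F5/TorVar.lean`, `F5/TorMix.lean`, `F5/TorPhase.lean`, `F5/TorTop.lean`):
* `Top.torus_limit` ([E]P5.6 last assertion, moving temperature) and its corollary `Flow.tor_crit_var` ([F]L5.4, first line);
* `Flow.tor_crit_mix` ([F]L5.4, second line);  * `Flow.tor_phase_lower` ([F](trj:phase-lower)), `Flow.tor_phase_pos`.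

Vocabulary of `C5/Defs.lean`, `C5/T1.lean` (helper75, helper179) is reused: `C5.torLaw`, `C5.torX`, `C5.torLift`, `C5.torFl`, `C5.kapN`, `C5.cosPot`, `C5.t1C`, `C5.t1Ref`.
A SHIFT on the torus is a function `x : ZMod n × ZMod n → ℝ`; its test is `gX n b x = ∑_e ∇_e x ∇_e (2π h)`.
-/

set_option autoImplicit false

namespace Claimed.Agent.R285.L54

open Filter Topology
open scoped Classical

noncomputable section

/-! ## 1. Shifts on the torus -/

/-- the two unit vectors (`true`: horizontal) -/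
def dv (n : ℕ) (d : Bool) : ZMod n × ZMod n := if d then (1, 0) else (0, 1)

/-- gradient of a shift along a bond of the torus -/
def tgr (n : ℕ) (x : ZMod n × ZMod n → ℝ) (e : (ZMod n × ZMod n) × Bool) : ℝ := x (e.1 + dv n e.2) - x e.1

/-- the gradient test `⟨2π h, A_tor x⟩` -/
def gX (n : ℕ) [NeZero n] (b : ℝ) (x : ZMod n × ZMod n → ℝ) : ((C5.torLaw n).sys b).L →+ ℝ := C5.torX n b (tgr n x)

/-- Dirichlet energy on the torus -/
def tEn (n : ℕ) [NeZero n] (x : ZMod n × ZMod n → ℝ) : ℝ := ∑ e : (ZMod n × ZMod n) × Bool, tgr n x e ^ 2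

/-- variance of the gradient test, total in `n` -/
def tV (b : ℝ) (n : ℕ) (x : ZMod n × ZMod n → ℝ) : ℝ :=
  if hn : n = 0 then 0 else
    haveI : NeZero n := ⟨hn⟩
    ((C5.torLaw n).sys b).V0 (gX n b x)

/-- Dirichlet energy, total in `n` -/
def tE (n : ℕ) (x : ZMod n × ZMod n → ℝ) : ℝ :=
  if hn : n = 0 then 0 else
    haveI : NeZero n := ⟨hn⟩
    tEn n x

/-- discrete `C²` bounds at scale `n` on the torus (with the sup norm: the class is closed under products) -/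
structure TC2 (M : ℝ) (n : ℕ) (x : ZMod n × ZMod n → ℝ) : Prop where
  sup : ∀ v, |x v| ≤ M
  grad : ∀ v d, |x (v + dv n d) - x v| ≤ M / n
  hess : ∀ v d d', |x (v + dv n d + dv n d') - x (v + dv n d) - x (v + dv n d') + x v| ≤ M / (n : ℝ) ^ 2

/-- the periodic extension to `ℤ²` -/
def unw (n : ℕ) (x : ZMod n × ZMod n → ℝ) (v : ℤ × ℤ) : ℝ := x ((v.1 : ZMod n), (v.2 : ZMod n))

/-- the shift vanishes unless both coordinates lie in `[n/7, 6n/7)` (strictly inside the cells `2..13` of the `16 × 16` grid for `n ≥ 56`) -/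
def Inner (n : ℕ) (x : ZMod n × ZMod n → ℝ) : Prop :=
  ∀ v : ZMod n × ZMod n, (7 * v.1.val < n ∨ 6 * n ≤ 7 * v.1.val ∨ 7 * v.2.val < n ∨ 6 * n ≤ 7 * v.2.val) → x v = 0

/-! ## 2. The partition of unity -/

/-- `(x₊)²` -/
def pp (x : ℝ) : ℝ := (max 0 x) ^ 2

/-- the `C^{1,1}` step: `0` on `(-∞,0]`, `2x²` on `[0,1/2]`, `1 - 2(1-x)²` on `[1/2,1]`, `1` on `[1,∞)` -/
def stp (x : ℝ) : ℝ := 2 * pp x - 4 * pp (x - 1 / 2) + 2 * pp (x - 1)

/-- the `1`-periodic cutoff: `0` for `|t| ≤ 1/6`, `1` for `|t - 1/2| ≤ 1/6` (mod 1) -/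
def cutF (t : ℝ) : ℝ := stp (1 / 2 - Real.cos (2 * Real.pi * t))

/-- the two cutoffs on `ZMod n`: `false`: supported away from `0`; `true`: supported away from `n/2` -/
def cut (n : ℕ) (a : Bool) (x : ZMod n) : ℝ := if a then 1 - cutF ((x.val : ℝ) / n) else cutF ((x.val : ℝ) / n)

/-- the potential of the first cosine: `A_tor (eT n) = cosRow n` -/
def eT (n : ℕ) (v : ZMod n × ZMod n) : ℝ := C5.kapN n * C5.t1C n v.1

/-- the four pieces of `eT` -/
def piece (n : ℕ) (a : Bool × Bool) (v : ZMod n × ZMod n) : ℝ := cut n a.1 v.1 * cut n a.2 v.2 * eT n v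

/-- the translation which moves the piece `a` into the chart `[0,n)²` -/
def hv (n : ℕ) (a : Bool × Bool) : ZMod n × ZMod n :=
  (if a.1 then ((n / 2 : ℕ) : ZMod n) else 0, if a.2 then ((n / 2 : ℕ) : ZMod n) else 0)

/-! ## 3. Pinned frames -/

/-- the frame of width `n/16` of the square `[0,n)²` (= the outer ring of the `16 × 16` grid with lines `i n / 16`) -/
def frame (n : ℕ) : Set (ℤ × ℤ) :=
  {v | v.1 < ((n / 16 : ℕ) : ℤ) ∨ ((15 * n / 16 : ℕ) : ℤ) ≤ v.1 ∨ v.2 < ((n / 16 : ℕ) : ℤ) ∨ ((15 * n / 16 : ℕ) : ℤ) ≤ v.2}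

/-- the square with the frame pinned -/
def ringLaw (n : ℕ) : HLaw (C2.sq n).G := HLaw.plain (C2.sq n).G (domSet (D := (C2.sq n).set) (cut := ∅) (frame n))

/-- the gradient test of `u : ℤ² → ℝ` in the law `ringLaw` -/
def ringX (n : ℕ) (b : ℝ) (u : ℤ × ℤ → ℝ) : ((ringLaw n).sys b).L →+ ℝ :=
  C2.flowS ((ringLaw n).sys b) fun e => 2 * Real.pi * C2.gd u (domBond (D := (C2.sq n).set) (cut := ∅) e)

/-- the `16 × 16` geometry: no cut, outer ring pinned -/
def ringG : CGeom 16 16 where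
  T := Finset.univ
  cutF := ∅
  pin := Finset.univ.filter fun κ => κ.1.1 = 0 ∨ κ.1.1 = 15 ∨ κ.2.1 = 0 ∨ κ.2.1 = 15
  nObs := 0
  box := Fin.elim0
  wgt := Fin.elim0

/-- the cells at distance `≥ 2` cells from the boundary -/
def innerA : Finset (Fin 16 × Fin 16) :=
  Finset.univ.filter fun κ => 2 ≤ κ.1.1 ∧ κ.1.1 ≤ 13 ∧ 2 ≤ κ.2.1 ∧ κ.2.1 ≤ 13

/-! ## 4. The two tests of [F]L5.4 and the scalar diagnostics (total in `n`) -/

/-- the uniform row -/
def meanRow (n : ℕ) (_v : ZMod n × ZMod n) : ℝ := (n : ℝ)⁻¹ ^ 2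

/-- the first cosine test `X_n` on the image lattice -/
def xC (n : ℕ) [NeZero n] (b : ℝ) : ((C5.torLaw n).sys b).L →+ ℝ := C5.torX n b (C5.torFl n)

/-- `E e^{s X_n}` -/
def tM (b : ℝ) (n : ℕ) (s : ℝ) : ℝ :=
  if hn : n = 0 then 1 else
    haveI : NeZero n := ⟨hn⟩
    ((C5.torLaw n).sys b).E0 fun z => Real.exp (s * xC n b z)

/-- `κ₄(X_n)` -/
def tK (b : ℝ) (n : ℕ) : ℝ :=
  if hn : n = 0 then 0 else
    haveI : NeZero n := ⟨hn⟩
    C2.kap ((C5.torLaw n).sys b) (xC n b) (xC n b)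

/-- `E[cos \bar h e^{w X_n}]` in height variables: the first term of `Flow.torMix` VERBATIM -/
def tG (b : ℝ) (n : ℕ) (w : ℝ) : ℝ :=
  if hn : n = 0 then 0 else
    haveI : NeZero n := ⟨hn⟩
    (torus n).Ex b {((0 : ZMod n), (0 : ZMod n))} (fun h =>
      Real.cos ((n : ℝ)⁻¹ ^ 2 * ∑ v : ZMod n × ZMod n, h v) *
        Real.exp (w * ((n : ℝ)⁻¹ ^ 2 * ∑ v : ZMod n × ZMod n, h v * Real.cos (2 * Real.pi * (v.1.val : ℝ) / n))))

/-- VERBATIM copy of `Flow.torMix` (`Base/Flow.lean`): `Flow.torMix = L54.mixDiag` by `rfl` -/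
def mixDiag (b : ℝ) (n : ℕ) (w : ℝ) : ℝ :=
  if hn : n = 0 then 0 else
    haveI : NeZero n := ⟨hn⟩
    (torus n).Ex b {((0 : ZMod n), (0 : ZMod n))} (fun h =>
      Real.cos ((n : ℝ)⁻¹ ^ 2 * ∑ v : ZMod n × ZMod n, h v) *
        Real.exp (w * ((n : ℝ)⁻¹ ^ 2 * ∑ v : ZMod n × ZMod n, h v * Real.cos (2 * Real.pi * (v.1.val : ℝ) / n))))
      - torPhase b n * Real.exp (w ^ 2 / (2 * Real.pi))

/-- complex expectation `E[P e^{T + iθ}]` through its real and imaginary parts -/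
def cE (S : LSys) (T θ : S.L →+ ℝ) (P : S.L → ℝ) : ℂ :=
  ⟨S.E0 fun z => P z * Real.exp (T z) * Real.cos (θ z), S.E0 fun z => P z * Real.exp (T z) * Real.sin (θ z)⟩

end

end Claimed.Agent.R285.L54
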