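import Claimed.Agent.R285.F5.TorVar
import Claimed.Agent.R285.Flow.Replica
import Claimed.Agent.R285.Rsd.Master

/-!
# ROW 285, post BP-F5-L54, file 3: FACTORISATION OF THE MEAN PHASE = `Flow.tor_crit_mix` ([F]L5.4, second line)      (architect helper57)

## Route (helper21's ODE route, `Flow/Replica.lean`; no compactness, no entire functions, no chains)
`S` = the torus system, `X = xC` (first cosine), `θ = xM` (mean), `G(w) = E[cos θ e^{wX}]`.
1. `replica_tilt` (abstract, every `LSys`): `|E[χ] E[XYχ] - E[Xχ] E[Yχ] - Cov(X,Y) E[χ]²| ≤ sqrt(κ(X,X,Y,Y)/2 · E e^{2T})`, `χ = e^{T + iθ}`.  DIRECT consequence of the doubling representation `Rsd.ms_DR` (arbitrary `F1`, `F2`),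
   `Rsd.ms_cauchy_schwarz`, `Rsd.ms_amp_sq`.  It contains `C2.replica` (`T = 0`).
2. on EVEN tori the imaginary parts vanish: half translation ∘ inversion fixes `X` and reverses `θ` mod `2π` (`tor_sin_zero`).  So `|G G'' - G'² - Var(X) G²| ≤ sqrt(κ₄/2 · E e^{2wX})` (`mix_ode`).
3. `E e^{sX} ≤ exp(a s²/(16π²)) + o(1)`: on the lattice of the torus `X` is EXACTLY the gradient test of `gN = cosPot - v₁/(2n²)` on the free square (`xC_eq`: a wrapping bond is minus the sum of its row): `lsys_mgf_mono`, `C2.free_laplace`.  No Hölder.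
4. `κ₄(X_n) → 0`: `1 + s² V/2 + s⁴ m₄/24 ≤ E e^{sX}`, step 3, `torus_limit'`, `lsys_cumulant` (`kap_limit`).
5. `B10.replica_real'` if `torPhase ≥ η`, `C2.phase_tilt` if `torPhase ≤ η`; `η → 0` (`mix_abstract`).
Leaves `L-TOR-M*`; theorems marked GLUE are proved.
-/

set_option autoImplicit false

namespace Claimed.Agent.R285.L54

open Filter Topology
open scoped Classical

noncomputable section

/-! ## 1. Abstract systems -/

theorem tm_pair_summable (S : LSys) (hS : S.Ok) {F G : S.L → ℝ} (hF : S.Dom F) (hG : S.Dom G) :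
    Summable fun x : S.L × S.L =>
      S.W ((x.1 : S.Amb) + 0) * S.W ((x.2 : S.Amb) + 0) * (|F (x.1 + x.2)| * |G (x.1 - x.2)|) := by
  obtain ⟨C₁, l₁, h₁⟩ := hF
  obtain ⟨C₂, l₂, h₂⟩ := hG
  have base : ∀ Y Y' : S.L →+ ℝ, Summable fun x : S.L × S.L =>
      S.W ((x.1 : S.Amb) + 0) * S.W ((x.2 : S.Amb) + 0) * (Real.exp (Y (x.1 + x.2)) * Real.exp (Y' (x.1 - x.2))) := by
    intro Y Y'
    have h1 := (Rsd.lsys_summable S hS 0 (Y + Y')).mul_of_nonneg (Rsd.lsys_summable S hS 0 (Y - Y'))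
      (fun z => mul_nonneg (Real.exp_pos _).le (rd_W_pos hS _).le)
      (fun z => mul_nonneg (Real.exp_pos _).le (rd_W_pos hS _).le)
    refine h1.congr fun x => ?_
    have e : Real.exp ((Y + Y') x.1) * Real.exp ((Y - Y') x.2) = Real.exp (Y (x.1 + x.2)) * Real.exp (Y' (x.1 - x.2)) := by
      rw [← Real.exp_add, ← Real.exp_add]
      congr 1
      simp only [map_add, map_sub, AddMonoidHom.add_apply, AddMonoidHom.sub_apply]
      ring
    rw [← e]
    ring
  have step2 : ∀ (Y : S.L →+ ℝ) (l : List (S.L →+ ℝ)), Summable fun x : S.L × S.L =>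
      S.W ((x.1 : S.Amb) + 0) * S.W ((x.2 : S.Amb) + 0) *
        (Real.exp (Y (x.1 + x.2)) * (l.map fun Y' => Real.exp (Y' (x.1 - x.2))).sum) := by
    intro Y l
    induction l with
    | nil => simp
    | cons Y' l ih =>
      simp only [List.map_cons, List.sum_cons, mul_add]
      exact (base Y Y').add ih
  have step1 : ∀ (l : List (S.L →+ ℝ)), Summable fun x : S.L × S.L =>
      S.W ((x.1 : S.Amb) + 0) * S.W ((x.2 : S.Amb) + 0) *
        ((l.map fun Y => Real.exp (Y (x.1 + x.2))).sum * (l₂.map fun Y' => Real.exp (Y' (x.1 - x.2))).sum) := by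
    intro l
    induction l with
    | nil => simp
    | cons Y l ih =>
      simp only [List.map_cons, List.sum_cons, add_mul, mul_add]
      exact (step2 Y l₂).add ih
  refine Summable.of_nonneg_of_le (fun x => ?_) (fun x => ?_) ((step1 l₁).mul_left (C₁ * C₂))
  · exact mul_nonneg (mul_nonneg (rd_W_pos hS _).le (rd_W_pos hS _).le) (mul_nonneg (abs_nonneg _) (abs_nonneg _))
  · have h3 := mul_le_mul (h₁ (x.1 + x.2)) (h₂ (x.1 - x.2)) (abs_nonneg _) ((abs_nonneg _).trans (h₁ (x.1 + x.2)))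
    have h4 : 0 ≤ S.W ((x.1 : S.Amb) + 0) * S.W ((x.2 : S.Amb) + 0) := mul_nonneg (rd_W_pos hS _).le (rd_W_pos hS _).le
    calc _ ≤ _ := mul_le_mul_of_nonneg_left h3 h4
      _ = _ := by ring
theorem tm_prod_hasSum (S : LSys) {A B : S.L → ℂ} {a b : ℂ}
    (hA : HasSum (fun z : S.L => A z * (S.W ((z : S.Amb) + 0) : ℂ)) a ∧ Summable fun z : S.L => ‖A z * (S.W ((z : S.Amb) + 0) : ℂ)‖)
    (hB : HasSum (fun z : S.L => B z * (S.W ((z : S.Amb) + 0) : ℂ)) b ∧ Summable fun z : S.L => ‖B z * (S.W ((z : S.Amb) + 0) : ℂ)‖) :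
    HasSum (fun x : S.L × S.L => ((S.W ((x.1 : S.Amb) + 0) * S.W ((x.2 : S.Amb) + 0) : ℝ) : ℂ) * (A x.1 * B x.2)) (a * b) := by
  have h := Rsd.ms_hasSum_prod_family (fun z : S.L => A z * (S.W ((z : S.Amb) + 0) : ℂ)) (fun z : S.L => B z * (S.W ((z : S.Amb) + 0) : ℂ))
    (hA.2.mul_of_nonneg hB.2 (fun _ => norm_nonneg _) (fun _ => norm_nonneg _))
  rw [hA.1.tsum_eq, hB.1.tsum_eq] at h
  refine Rsd.ms_hasSum_congr h fun x => ?_
  push_cast
  ring
theorem tm_hasSum_chi (S : LSys) (hS : S.Ok) (T θ : S.L →+ ℝ) {P : S.L → ℝ} (hP : S.Dom P) :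
    HasSum (fun z : S.L => ((P z : ℂ) * Rsd.chi T θ z) * (S.W ((z : S.Amb) + 0) : ℂ)) ((S.w 0 : ℂ) * cE S T θ P) ∧
    Summable fun z : S.L => ‖((P z : ℂ) * Rsd.chi T θ z) * (S.W ((z : S.Amb) + 0) : ℂ)‖ := by
  have hw := (rd_w_pos hS 0).ne'
  constructor
  · rw [Complex.hasSum_iff]
    constructor
    · have hd : S.Dom fun z => P z * Real.exp (T z) * Real.cos (θ z) := rd_dom_mul (rd_dom_mul hP (rd_dom_exp T)) (rd_dom_cos _)
      have h1 := (rd_dom_summable hS hd 0).hasSum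
      have e1 : ((S.w 0 : ℂ) * cE S T θ P).re = ∑' z : S.L, P z * Real.exp (T z) * Real.cos (θ z) * S.W ((z : S.Amb) + 0) := by
        rw [Complex.re_ofReal_mul]
        show S.w 0 * S.E0 (fun z => P z * Real.exp (T z) * Real.cos (θ z)) = _
        rw [rd_E0_eq, mul_div_cancel₀ _ hw]
        rfl
      rw [e1]
      refine Rsd.ms_hasSum_congr h1 fun z => ?_
      rw [Complex.re_mul_ofReal, Complex.re_ofReal_mul]
      unfold Rsd.chi
      rw [Complex.exp_re]
      have e2 : ((T z : ℂ) + Complex.I * (θ z : ℂ)).re = T z := by simp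
      have e3 : ((T z : ℂ) + Complex.I * (θ z : ℂ)).im = θ z := by simp
      rw [e2, e3]
      ring
    · have hd : S.Dom fun z => P z * Real.exp (T z) * Real.sin (θ z) :=
        rd_dom_mul (rd_dom_mul hP (rd_dom_exp T)) (rd_dom_bdd 1 fun z => Real.abs_sin_le_one _)
      have h1 := (rd_dom_summable hS hd 0).hasSum
      have e1 : ((S.w 0 : ℂ) * cE S T θ P).im = ∑' z : S.L, P z * Real.exp (T z) * Real.sin (θ z) * S.W ((z : S.Amb) + 0) := by
        rw [Complex.im_ofReal_mul]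
        show S.w 0 * S.E0 (fun z => P z * Real.exp (T z) * Real.sin (θ z)) = _
        rw [rd_E0_eq, mul_div_cancel₀ _ hw]
        rfl
      rw [e1]
      refine Rsd.ms_hasSum_congr h1 fun z => ?_
      rw [Complex.im_mul_ofReal, Complex.im_ofReal_mul]
      unfold Rsd.chi
      rw [Complex.exp_im]
      have e2 : ((T z : ℂ) + Complex.I * (θ z : ℂ)).re = T z := by simp
      have e3 : ((T z : ℂ) + Complex.I * (θ z : ℂ)).im = θ z := by simp
      rw [e2, e3]
      ring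
  · have hd : S.Dom fun z => |P z| * Real.exp (T z) := rd_dom_mul (rd_dom_abs hP) (rd_dom_exp T)
    refine (rd_dom_summable hS hd 0).congr fun z => ?_
    rw [norm_mul, norm_mul, Rsd.chi_norm, Complex.norm_real, Complex.norm_real, Real.norm_eq_abs, Real.norm_eq_abs,
      abs_of_pos (rd_W_pos hS _)]
theorem tm_hasSum_real (S : LSys) (hS : S.Ok) {P : S.L → ℝ} (hP : S.Dom P) :
    HasSum (fun z : S.L => (P z : ℂ) * (S.W ((z : S.Amb) + 0) : ℂ)) ((S.w 0 * S.E0 P : ℝ) : ℂ) ∧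
    Summable fun z : S.L => ‖(P z : ℂ) * (S.W ((z : S.Amb) + 0) : ℂ)‖ := by
  have hw := (rd_w_pos hS 0).ne'
  constructor
  · have h1 := (rd_dom_summable hS hP 0).hasSum
    have e1 : S.w 0 * S.E0 P = ∑' z : S.L, P z * S.W ((z : S.Amb) + 0) := by
      rw [rd_E0_eq, mul_div_cancel₀ _ hw]
      rfl
    rw [e1]
    have h2 := Complex.hasSum_ofReal.2 h1
    refine Rsd.ms_hasSum_congr h2 fun z => ?_
    push_cast
    rfl
  · refine (rd_dom_summable hS (rd_dom_abs hP) 0).congr fun z => ?_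
    rw [norm_mul, Complex.norm_real, Complex.norm_real, Real.norm_eq_abs, Real.norm_eq_abs, abs_of_pos (rd_W_pos hS _)]

/-- L-TOR-M1.  **Replica inequality with a real tilt.**  Notation `Z[P] = ∑_z P z χ z W z` (`χ = Rsd.chi T θ`), `c = 2 Cov(X,Y)`, `F2 p = X p * Y p - c`.
(a) `∑_{(u,v)} W u W v χ(u+v) F2(u-v) = 2 (Z[1] Z[XY] - Z[X] Z[Y]) - c Z[1]²`   (`χ(u+v) = χ u χ v`, `X(u-v) Y(u-v)` expanded, `tsum_mul_tsum_of_summable_norm`);
(b) by `Rsd.ms_DR S hS.1 0 0 χ F2` the left side is `∑_i lam_i amp_i(χ) amp_i(F2)`;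
(c) `Rsd.ms_amp_sq`: `∑ lam ‖amp χ‖² = wT 0 (2T) · w 0 · φ(2θ) ≤ wT 0 (2T) · w 0`;
(d) `Rsd.ms_DR` with `F1 = F2`: `∑ lam (amp F2)² = ∑_{(u,v)} W W F2(u+v) F2(u-v) = w0² (2 E X²Y² - 2 EX² EY² - c²) = 2 w0² κ`   (`X(u+v)X(u-v) = X u² - X v²`; `E X = 0`, `E[X(u±v)Y(u±v)] = c`; `amp F2` is real: `amp_conj`);
(e) `Rsd.ms_cauchy_schwarz`, divide by `2 w0²`.   Summability: `rd_dom_summable` for polynomials times exponentials, products over `L × L` by `Summable.mul_of_nonneg`.  `cE` = `Z[P]/w0` (`Complex.ext`, `Complex.re_tsum`…). -/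
theorem replica_tilt (S : LSys) (hS : S.Ok) (X Y θ T : S.L →+ ℝ) :
    ‖cE S T θ (fun _ => 1) * cE S T θ (fun z => X z * Y z) - cE S T θ (fun z => X z) * cE S T θ (fun z => Y z)
        - (S.Cv 0 0 X Y : ℂ) * cE S T θ (fun _ => 1) ^ 2‖
      ≤ Real.sqrt (C2.kap S X Y / 2 * S.E0 fun z => Real.exp (2 * T z)) := by
  have hw := rd_w_pos hS 0
  obtain ⟨c, hc⟩ : ∃ c : ℝ, c = 2 * S.Cv 0 0 X Y := ⟨_, rfl⟩
  obtain ⟨F2, hF2⟩ : ∃ F2 : S.L → ℂ, F2 = fun p => ((X p * Y p - c : ℝ) : ℂ) := ⟨_, rfl⟩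
  have dX : S.Dom fun z => X z := rd_dom_test X
  have dY : S.Dom fun z => Y z := rd_dom_test Y
  have d1 : S.Dom fun _ => (1 : ℝ) := rd_dom_const 1
  have dXY : S.Dom fun z => X z * Y z := rd_dom_mul dX dY
  have dF2 : S.Dom fun p => X p * Y p - c := rd_dom_sub dXY (rd_dom_const c)
  -- (a), (b)
  have hs1 : Summable fun x : S.L × S.L => S.W ((x.1 : S.Amb) + 0) * S.W ((x.2 : S.Amb) + 0)
      * (‖Rsd.chi T θ (x.1 + x.2)‖ * ‖F2 (x.1 - x.2)‖) := by
    refine (tm_pair_summable S hS (rd_dom_exp T) dF2).congr fun x => ?_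
    rw [Rsd.chi_norm, hF2, Complex.norm_real, Real.norm_eq_abs, abs_of_pos (Real.exp_pos _)]
  have hP := Rsd.ms_DR S hS.1 0 0 (Rsd.chi T θ) F2 hs1
  have a1 := tm_hasSum_chi S hS T θ d1
  have aX := tm_hasSum_chi S hS T θ dX
  have aY := tm_hasSum_chi S hS T θ dY
  have aXY := tm_hasSum_chi S hS T θ dXY
  obtain ⟨D, hD⟩ : ∃ D : ℂ, D = cE S T θ (fun _ => 1) * cE S T θ (fun z => X z * Y z) - cE S T θ (fun z => X z) * cE S T θ (fun z => Y z)
        - (S.Cv 0 0 X Y : ℂ) * cE S T θ (fun _ => 1) ^ 2 := ⟨_, rfl⟩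
  have hval1 : HasSum (fun x : S.L × S.L => ((S.W ((x.1 : S.Amb) + 0) * S.W ((x.2 : S.Amb) + 0) : ℝ) : ℂ)
      * (Rsd.chi T θ (x.1 + x.2) * F2 (x.1 - x.2))) (((2 * S.w 0 ^ 2 : ℝ) : ℂ) * D) := by
    have h := ((((tm_prod_hasSum S aXY a1).sub (tm_prod_hasSum S aX aY)).sub (tm_prod_hasSum S aY aX)).add
      (tm_prod_hasSum S a1 aXY)).sub ((tm_prod_hasSum S a1 a1).mul_left (c : ℂ))
    convert h using 1
    · rfl
    · funext x
      have e : Rsd.chi T θ (x.1 + x.2) = Rsd.chi T θ x.1 * Rsd.chi T θ x.2 := by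
        unfold Rsd.chi
        rw [← Complex.exp_add]
        congr 1
        simp only [map_add]
        push_cast
        ring
      rw [e, hF2]
      simp only [map_sub]
      push_cast
      ring
    · rw [hD, hc]
      push_cast
      ring
  rw [hval1.tsum_eq, add_zero, sub_zero] at hP
  -- (c)
  have hA := Rsd.ms_amp_sq hS 0 T θ
  -- (d)
  have hs2 : Summable fun x : S.L × S.L => S.W ((x.1 : S.Amb) + 0) * S.W ((x.2 : S.Amb) + 0)
      * (‖F2 (x.1 + x.2)‖ * ‖F2 (x.1 - x.2)‖) := by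
    refine (tm_pair_summable S hS dF2 dF2).congr fun x => ?_
    rw [hF2, Complex.norm_real, Complex.norm_real, Real.norm_eq_abs, Real.norm_eq_abs]
  have hQ := Rsd.ms_DR S hS.1 0 0 F2 F2 hs2
  have dX2 : S.Dom fun z => X z ^ 2 := rd_dom_pow dX 2
  have dY2 : S.Dom fun z => Y z ^ 2 := rd_dom_pow dY 2
  have b1 := tm_hasSum_real S hS d1
  have bXY := tm_hasSum_real S hS dXY
  have bX2 := tm_hasSum_real S hS dX2
  have bY2 := tm_hasSum_real S hS dY2
  have bX2Y2 := tm_hasSum_real S hS (rd_dom_mul dX2 dY2)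
  have hval2 : HasSum (fun x : S.L × S.L => ((S.W ((x.1 : S.Amb) + 0) * S.W ((x.2 : S.Amb) + 0) : ℝ) : ℂ)
      * (F2 (x.1 + x.2) * F2 (x.1 - x.2))) ((2 * S.w 0 ^ 2 * C2.kap S X Y : ℝ) : ℂ) := by
    have h := ((((((tm_prod_hasSum S bX2Y2 b1).sub (tm_prod_hasSum S bX2 bY2)).sub (tm_prod_hasSum S bY2 bX2)).add
      (tm_prod_hasSum S b1 bX2Y2)).sub ((tm_prod_hasSum S bXY b1).mul_left (2 * c : ℂ))).sub
      ((tm_prod_hasSum S b1 bXY).mul_left (2 * c : ℂ))).add ((tm_prod_hasSum S b1 b1).mul_left (c ^ 2 : ℂ))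
    convert h using 1
    · rfl
    · funext x
      rw [hF2]
      simp only [map_sub, map_add]
      push_cast
      ring
    · unfold C2.kap
      rw [rd_E0_const hS 1, rd_V0_eq, rd_V0_eq, ← rd_Cv0_eq, hc]
      push_cast
      ring
  rw [hval2.tsum_eq, add_zero, sub_zero] at hQ
  have hB : HasSum (fun i : (S.E → ℕ) × Rsd.Par S => Rsd.lam S i.1 * ‖Rsd.amp S i 0 F2‖ ^ 2) (2 * S.w 0 ^ 2 * C2.kap S X Y) := by
    rw [← Complex.hasSum_ofReal]
    refine Rsd.ms_hasSum_congr hQ fun i => ?_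
    have e : Rsd.amp S i 0 F2 = (starRingEnd ℂ) (Rsd.amp S i 0 F2) := by
      rw [Rsd.amp_conj]
      congr 1
      funext p
      rw [hF2, Complex.conj_ofReal]
    rw [mul_assoc]
    nth_rewrite 2 [e]
    rw [Complex.mul_conj, Complex.normSq_eq_norm_sq]
    push_cast
    rfl
  -- (e)
  have hCS := Rsd.ms_cauchy_schwarz (fun i : (S.E → ℕ) × Rsd.Par S => Rsd.lam S i.1) (fun i => (Rsd.lam_pos S hS.1 _).le)
    (fun i => Rsd.amp S i 0 (Rsd.chi T θ)) (fun i => Rsd.amp S i 0 F2) hP hA hB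
  have hκ : 0 ≤ C2.kap S X Y := by
    have h1 : 0 ≤ 2 * S.w 0 ^ 2 * C2.kap S X Y := hB.nonneg fun i => mul_nonneg (Rsd.lam_pos S hS.1 _).le (sq_nonneg _)
    have h2 : 0 < 2 * S.w 0 ^ 2 := by positivity
    exact nonneg_of_mul_nonneg_right h1 h2
  have hφ0 := Rsd.ms_phi_nonneg hS (θ + θ)
  have hφ1 := rd_phi_le_one hS (θ + θ)
  have hM : S.E0 (fun z => Real.exp (2 * T z)) = S.wT 0 (T + T) / S.w 0 := by
    rw [← rd_E0_exp]
    congr 1
    funext z
    rw [AddMonoidHom.add_apply, two_mul]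
  have hM' : S.wT 0 (T + T) = S.w 0 * S.E0 (fun z => Real.exp (2 * T z)) := by
    rw [hM, mul_div_cancel₀ _ hw.ne']
  have hM0 : 0 ≤ S.E0 (fun z => Real.exp (2 * T z)) := by
    rw [hM]
    exact div_nonneg (Rsd.lsys_pos S hS 0 _).le hw.le
  rw [← hD]
  apply Real.le_sqrt_of_sq_le
  rw [norm_mul, Complex.norm_real, Real.norm_eq_abs, abs_of_pos (by positivity), hM'] at hCS
  obtain ⟨M, hMd⟩ : ∃ M : ℝ, M = S.E0 (fun z => Real.exp (2 * T z)) := ⟨_, rfl⟩
  rw [← hMd] at hCS hM0 ⊢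
  have h4 : 0 < S.w 0 ^ 4 := by positivity
  have h5 : S.w 0 ^ 4 * (4 * ‖D‖ ^ 2) ≤ S.w 0 ^ 4 * (2 * (M * S.phi (θ + θ) * C2.kap S X Y)) := by
    calc _ = (2 * S.w 0 ^ 2 * ‖D‖) ^ 2 := by ring
      _ ≤ _ := hCS
      _ = _ := by ring
  have h6 := le_of_mul_le_mul_left h5 h4
  have h7 : M * S.phi (θ + θ) * C2.kap S X Y ≤ M * 1 * C2.kap S X Y :=
    mul_le_mul_of_nonneg_right (mul_le_mul_of_nonneg_left hφ1 hM0) hκ
  nlinarith

/-- L-TOR-M2.  Differentiation under the sum: `rd_taylor2_E0` with `P' z = P z * exp (w * X z)` (`rd_dom_mul`, `rd_dom_exp`) gives `|f (w+s) - f w - s f₁| ≤ K' s²` for `|s| ≤ 1`: `hasDerivAt_iff_isLittleO` / `HasDerivAt.of_...` by the squeeze. -/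
theorem E0_hasDerivAt (S : LSys) (hS : S.Ok) {P : S.L → ℝ} (hP : S.Dom P) (X : S.L →+ ℝ) (w : ℝ) :
    HasDerivAt (fun w : ℝ => S.E0 fun z => P z * Real.exp (w * X z)) (S.E0 fun z => P z * X z * Real.exp (w * X z)) w := by
  have hP' : S.Dom fun z => P z * Real.exp (w * X z) := rd_dom_mul hP (rd_dom_exp (w • X))
  obtain ⟨K, hK0, hK⟩ := rd_taylor2_E0 hS hP' X
  obtain ⟨A, hA⟩ : ∃ A : ℝ, A = S.E0 fun z => P z * Real.exp (w * X z) * X z ^ 2 := ⟨_, rfl⟩
  have e1 : (S.E0 fun z => P z * X z * Real.exp (w * X z)) = S.E0 fun z => P z * Real.exp (w * X z) * X z := by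
    congr 1
    funext z
    ring
  rw [e1, hasDerivAt_iff_isLittleO]
  have hbig : (fun x' : ℝ => (S.E0 fun z => P z * Real.exp (x' * X z)) - (S.E0 fun z => P z * Real.exp (w * X z)) -
      (x' - w) • S.E0 fun z => P z * Real.exp (w * X z) * X z) =O[𝓝 w] fun x' => (x' - w) ^ 2 := by
    refine Asymptotics.IsBigO.of_bound (|A| / 2 + K) ?_
    have hnear : ∀ᶠ x' in 𝓝 w, |x' - w| ≤ 1 := by
      have : Tendsto (fun x' : ℝ => |x' - w|) (𝓝 w) (𝓝 |w - w|) := ((continuous_id.sub continuous_const).abs).tendsto w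
      rw [sub_self, abs_zero] at this
      exact (this.eventually (gt_mem_nhds zero_lt_one)).mono fun _ h => le_of_lt h
    filter_upwards [hnear] with x' hx'
    have h := hK (x' - w) hx'
    have e2 : S.Zf 0 (fun z => P z * Real.exp (w * X z) * Real.exp ((x' - w) * X z)) / S.w 0 =
        S.E0 fun z => P z * Real.exp (x' * X z) := by
      rw [← rd_E0_eq]
      congr 1
      funext z
      rw [mul_assoc, ← Real.exp_add]
      congr 2
      ring
    rw [e2, ← hA] at h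
    rw [Real.norm_eq_abs, Real.norm_eq_abs, smul_eq_mul, abs_of_nonneg (sq_nonneg (x' - w))]
    obtain ⟨t, ht⟩ : ∃ t, t = x' - w := ⟨_, rfl⟩
    rw [← ht] at h hx' ⊢
    have h3 : |t| ^ 3 ≤ t ^ 2 := by
      have : |t| ^ 3 = |t| * t ^ 2 := by rw [← sq_abs t]; ring
      rw [this]
      exact mul_le_of_le_one_left (sq_nonneg t) hx'
    have h4 : |t ^ 2 / 2 * A| = |A| / 2 * t ^ 2 := by
      rw [abs_mul, abs_of_nonneg (by positivity : (0 : ℝ) ≤ t ^ 2 / 2)]
      ring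
    calc |(S.E0 fun z => P z * Real.exp (x' * X z)) - (S.E0 fun z => P z * Real.exp (w * X z)) -
          t * S.E0 fun z => P z * Real.exp (w * X z) * X z|
        = |((S.E0 fun z => P z * Real.exp (x' * X z)) - ((S.E0 fun z => P z * Real.exp (w * X z)) +
          t * (S.E0 fun z => P z * Real.exp (w * X z) * X z) + t ^ 2 / 2 * A)) + t ^ 2 / 2 * A| := by
          congr 1
          ring
      _ ≤ K * |t| ^ 3 + |t ^ 2 / 2 * A| := (abs_add_le _ _).trans (add_le_add_left h _)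
      _ ≤ K * t ^ 2 + |A| / 2 * t ^ 2 := by
          rw [h4]
          exact add_le_add_left (mul_le_mul_of_nonneg_left h3 hK0) _
      _ = (|A| / 2 + K) * t ^ 2 := by ring
  refine hbig.trans_isLittleO ?_
  have h5 : (fun x' : ℝ => ‖x' - w‖ ^ 2) =o[𝓝 w] fun x' => ‖x' - w‖ ^ 1 :=
    Asymptotics.isLittleO_pow_sub_pow_sub w (by norm_num : 1 < 2)
  have h6 : (fun x' : ℝ => ‖x' - w‖ ^ 2) = fun x' => (x' - w) ^ 2 := by
    funext x'
    rw [Real.norm_eq_abs, sq_abs]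
  rw [h6] at h5
  simp only [pow_one] at h5
  exact h5.of_norm_right

theorem tm_cosh_quartic (x : ℝ) : 1 + x ^ 2 / 2 + x ^ 4 / 24 ≤ Real.cosh x := by
  -- `cosh x = ∑ x^(2n)/(2n)!`
  have h := Real.hasSum_cosh x
  have h2 := sum_le_hasSum (Finset.range 3) (fun n _ => by
    have : 0 ≤ x ^ (2 * n) := by rw [pow_mul]; positivity
    positivity) h
  simp only [Finset.sum_range_succ, Finset.sum_range_zero, Nat.factorial] at h2
  norm_num at h2
  linarith

/-- L-TOR-M3.  `E e^{sX} = E cosh (sX)` (`rd_E0_inv`), `cosh x ≥ 1 + x²/2 + x⁴/24` (series, or twice `rd_cosh_lower`-style integration), `rd_E0_mono`, `rd_E0_add`, `rd_V0_eq`. -/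
theorem quartic_lower (S : LSys) (hS : S.Ok) (X : S.L →+ ℝ) (s : ℝ) :
    1 + s ^ 2 * S.V0 X / 2 + s ^ 4 * S.E0 (fun z => X z ^ 4) / 24 ≤ S.E0 fun z => Real.exp (s * X z) := by
  have hd1 : S.Dom fun z => Real.exp (s * X z) := rd_dom_exp (s • X)
  have hd2 : S.Dom fun z => Real.exp (-(s * X z)) := by
    have := rd_dom_exp ((-s) • X)
    simpa using this
  have hinv : S.E0 (fun z => Real.exp (-(s * X z))) = S.E0 fun z => Real.exp (s * X z) := by
    have := rd_E0_inv (S := S) fun z => Real.exp (s * X z)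
    rw [← this]
    congr 1
    funext z
    rw [map_neg, mul_neg]
  have hcosh : S.E0 (fun z => Real.exp (s * X z)) = S.E0 fun z => Real.cosh (s * X z) := by
    have h1 : (fun z : S.L => Real.cosh (s * X z)) = fun z => (1 / 2 : ℝ) * (Real.exp (s * X z) + Real.exp (-(s * X z))) := by
      funext z
      rw [Real.cosh_eq]
      ring
    rw [h1, rd_E0_smul, rd_E0_add hS hd1 hd2, hinv]
    ring
  have hX2 : S.Dom fun z => X z ^ 2 := rd_dom_pow (rd_dom_test X) 2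
  have hX4 : S.Dom fun z => X z ^ 4 := rd_dom_pow (rd_dom_test X) 4
  have hlow : S.E0 (fun z => 1 + (s ^ 2 / 2 * X z ^ 2 + s ^ 4 / 24 * X z ^ 4)) ≤ S.E0 fun z => Real.cosh (s * X z) := by
    refine rd_E0_mono hS (rd_dom_add (rd_dom_const 1) (rd_dom_add (rd_dom_smul _ hX2) (rd_dom_smul _ hX4))) ?_ fun z => ?_
    · have h1 : (fun z : S.L => Real.cosh (s * X z)) = fun z => (1 / 2 : ℝ) * (Real.exp (s * X z) + Real.exp (-(s * X z))) := by
        funext z
        rw [Real.cosh_eq]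
        ring
      rw [h1]
      exact rd_dom_smul _ (rd_dom_add hd1 hd2)
    · have := tm_cosh_quartic (s * X z)
      nlinarith
  rw [hcosh]
  refine le_trans (le_of_eq ?_) hlow
  rw [rd_E0_add hS (rd_dom_const 1) (rd_dom_add (rd_dom_smul _ hX2) (rd_dom_smul _ hX4)),
    rd_E0_add hS (rd_dom_smul _ hX2) (rd_dom_smul _ hX4), rd_E0_const hS, rd_E0_smul, rd_E0_smul, rd_V0_eq]
  ring

/-- L-TOR-M3.  Unfold `C2.kap`; `X² X² = X⁴`; `Cv 0 0 X X = V0 X` by definition. -/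
theorem kap_self (S : LSys) (X : S.L →+ ℝ) : C2.kap S X X = S.E0 (fun z => X z ^ 4) - 3 * S.V0 X ^ 2 := by
  unfold C2.kap
  have h1 : (fun z : S.L => X z ^ 2 * X z ^ 2) = fun z => X z ^ 4 := by
    funext z
    ring
  rw [h1]
  show _ - S.V0 X * S.V0 X - 2 * S.V0 X ^ 2 = _
  ring

/-- L-TOR-M3.  `e^{t} ≤ e^{T} + e^{-T}` for `|t| ≤ T`; inversion symmetry. -/
theorem mgf_le_two (S : LSys) (hS : S.Ok) (X : S.L →+ ℝ) {s s' : ℝ} (h : |s| ≤ s') :
    S.E0 (fun z => Real.exp (s * X z)) ≤ 2 * S.E0 fun z => Real.exp (s' * X z) := by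
  have hd0 : S.Dom fun z => Real.exp (s * X z) := rd_dom_exp (s • X)
  have hd1 : S.Dom fun z => Real.exp (s' * X z) := rd_dom_exp (s' • X)
  have hd2 : S.Dom fun z => Real.exp (-(s' * X z)) := by
    have := rd_dom_exp ((-s') • X)
    simpa using this
  have hinv : S.E0 (fun z => Real.exp (-(s' * X z))) = S.E0 fun z => Real.exp (s' * X z) := by
    have := rd_E0_inv (S := S) fun z => Real.exp (s' * X z)
    rw [← this]
    congr 1
    funext z
    rw [map_neg, mul_neg]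
  have h1 : S.E0 (fun z => Real.exp (s * X z)) ≤ S.E0 fun z => Real.exp (s' * X z) + Real.exp (-(s' * X z)) := by
    refine rd_E0_mono hS hd0 (rd_dom_add hd1 hd2) fun z => ?_
    have h2 : s * X z ≤ |s' * X z| := by
      calc s * X z ≤ |s * X z| := le_abs_self _
        _ = |s| * |X z| := abs_mul _ _
        _ ≤ s' * |X z| := mul_le_mul_of_nonneg_right h (abs_nonneg _)
        _ = |s' * X z| := by rw [abs_mul, abs_of_nonneg ((abs_nonneg s).trans h)]
    exact (Real.exp_le_exp.2 h2).trans (rd_exp_abs_le _)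
  rw [rd_E0_add hS hd1 hd2, hinv] at h1
  linarith

/-- L-TOR-M4 (Mathlib only).  Given `δ > 0` choose `s > 0` with `σ³ s² e^{σ s²/2} / 2 ≤ δ/4` (`y = σ s²/2`, `e^y ≤ 1 + y + y²/2 + y³ e^y / 6` for `y ≥ 0`); then `m4 ≤ 24 (Mg - 1 - s² V/2)/s⁴ ≤ 3σ² + δ/2` eventually, `3 V² → 3 σ²`. -/
theorem kap_limit {V m4 : ℕ → ℝ} {Mg : ℝ → ℕ → ℝ} {σ : ℝ} (hσ : 0 ≤ σ) (hV : Tendsto V atTop (𝓝 σ))
    (h0 : ∀ᶠ k in atTop, 0 ≤ m4 k - 3 * V k ^ 2)
    (hq : ∀ s : ℝ, ∀ᶠ k in atTop, 1 + s ^ 2 * V k / 2 + s ^ 4 * m4 k / 24 ≤ Mg s k)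
    (hM : ∀ s ε : ℝ, 0 < ε → ∀ᶠ k in atTop, Mg s k ≤ Real.exp (σ * s ^ 2 / 2) + ε) :
    Tendsto (fun k => m4 k - 3 * V k ^ 2) atTop (𝓝 0) := by
  refine tendsto_order.2 ⟨fun c hc => ?_, fun δ hδ => ?_⟩
  · filter_upwards [h0] with k hk
    linarith
  obtain ⟨r, hr⟩ : ∃ r : ℝ, r = min (2 / (σ + 1)) (δ / (12 * (σ ^ 3 + 1))) := ⟨_, rfl⟩
  have hσ3 : 0 ≤ σ ^ 3 := by positivity
  have hr0 : 0 < r := by
    rw [hr]
    exact lt_min (by positivity) (by positivity)
  have hr1 : r * (σ + 1) ≤ 2 := by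
    have : r ≤ 2 / (σ + 1) := hr ▸ min_le_left _ _
    rwa [le_div_iff₀ (by positivity)] at this
  have hr2 : r * (12 * (σ ^ 3 + 1)) ≤ δ := by
    have : r ≤ δ / (12 * (σ ^ 3 + 1)) := hr ▸ min_le_right _ _
    rwa [le_div_iff₀ (by positivity)] at this
  have hs2 : Real.sqrt r ^ 2 = r := Real.sq_sqrt hr0.le
  have hs4 : Real.sqrt r ^ 4 = r ^ 2 := by
    have : Real.sqrt r ^ 4 = (Real.sqrt r ^ 2) ^ 2 := by ring
    rw [this, hs2]
  -- Taylor
  have hy0 : 0 ≤ σ * r / 2 := by positivity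
  have hy1 : σ * r / 2 ≤ 1 := by nlinarith
  have hexp : Real.exp (σ * r / 2) ≤ 1 + σ * r / 2 + (σ * r / 2) ^ 2 / 2 + (σ * r / 2) ^ 3 := by
    have h := Real.exp_bound' hy0 hy1 (n := 3) (by norm_num)
    simp only [Finset.sum_range_succ, Finset.sum_range_zero, Nat.factorial] at h
    have h3 : 0 ≤ (σ * r / 2) ^ 3 := by positivity
    norm_num at h
    linarith
  have hQ : Tendsto (fun k => 12 * (σ - V k) / r + 3 * (σ ^ 2 - V k ^ 2)) atTop (𝓝 0) := by
    have h1 : Tendsto (fun k => 12 * (σ - V k) / r + 3 * (σ ^ 2 - V k ^ 2)) atTop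
        (𝓝 (12 * (σ - σ) / r + 3 * (σ ^ 2 - σ ^ 2))) :=
      (((tendsto_const_nhds.sub hV).const_mul 12).div_const r).add ((tendsto_const_nhds.sub (hV.pow 2)).const_mul 3)
    simpa using h1
  have hQ' := (tendsto_order.1 hQ).2 (δ / 4) (by positivity)
  filter_upwards [hQ', hq (Real.sqrt r), hM (Real.sqrt r) (δ * r ^ 2 / 96) (by positivity)] with k h1 h2 h3
  rw [hs2, hs4] at h2
  rw [hs2] at h3
  have e1 : r * (σ - V k) / 2 + r ^ 2 * (σ ^ 2 - V k ^ 2) / 8 =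
      r ^ 2 / 24 * (12 * (σ - V k) / r + 3 * (σ ^ 2 - V k ^ 2)) := by
    field_simp
    ring
  have h4 : r ^ 2 / 24 * (12 * (σ - V k) / r + 3 * (σ ^ 2 - V k ^ 2)) < r ^ 2 / 24 * (δ / 4) :=
    mul_lt_mul_of_pos_left h1 (by positivity)
  have h5 : r ^ 2 / 24 * (3 * σ ^ 3 * r) ≤ r ^ 2 / 24 * (δ / 4) := by
    refine mul_le_mul_of_nonneg_left ?_ (by positivity)
    nlinarith
  have h6 : r ^ 2 / 24 * (m4 k - 3 * V k ^ 2) < r ^ 2 / 24 * δ := by
    nlinarith
  exact lt_of_mul_lt_mul_left h6 (by positivity)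

/-! ## 2. The exponential moments of the first cosine -/

/-- the exact potential of `X_n` on the free square -/
def gN (n : ℕ) (v : ℤ × ℤ) : ℝ := C5.cosPot n v - (v.1 : ℝ) / (2 * (n : ℝ) ^ 2)

theorem tm_cut_ref (n : ℕ) [NeZero n] (b : ℝ) (w : Bond → ℝ) :
    ((C2.sq n).flowX b w).comp (C5.t1Ref n b).psi = C5.torX n b fun e => if C5.torLift n e ∈ (C2.sq n).bd then w (C5.torLift n e) else 0 := by
  ext z
  obtain ⟨ζ, hζ⟩ : ∃ ζ : (ZMod n × ZMod n) × Bool → ℤ, ζ = (z : ((C5.torLaw n).sys b).Amb).1 := ⟨_, rfl⟩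
  have hL : ((C2.sq n).flowX b w).comp (C5.t1Ref n b).psi z =
      ∑ e : {e : Bond // e ∈ (C2.sq n).bd}, 2 * Real.pi * w e.1 * (ζ (C5.t1iE n e.1) : ℝ) := by
    rw [hζ]
    rfl
  have hR : C5.torX n b (fun e => if C5.torLift n e ∈ (C2.sq n).bd then w (C5.torLift n e) else 0) z =
      ∑ e : (ZMod n × ZMod n) × Bool,
        2 * Real.pi * (if C5.torLift n e ∈ (C2.sq n).bd then w (C5.torLift n e) else 0) * (ζ e : ℝ) := by
    rw [hζ]
    rfl
  rw [hL, hR, Finset.sum_coe_sort (C2.sq n).bd (fun e => 2 * Real.pi * w e * (ζ (C5.t1iE n e) : ℝ))]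
  have hR2 : ∀ e : (ZMod n × ZMod n) × Bool,
      2 * Real.pi * (if C5.torLift n e ∈ (C2.sq n).bd then w (C5.torLift n e) else 0) * (ζ e : ℝ) =
      if C5.torLift n e ∈ (C2.sq n).bd then 2 * Real.pi * w (C5.torLift n e) * (ζ e : ℝ) else 0 := by
    intro e
    split_ifs <;> simp
  rw [Finset.sum_congr rfl fun e _ => hR2 e, ← Finset.sum_filter]
  refine Finset.sum_nbij' (C5.t1iE n) (C5.torLift n) ?_ ?_ ?_ ?_ ?_
  · intro e he
    rw [Finset.mem_filter, C5.t1_lift_iE (Free.mem_bd.1 he).1]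
    exact ⟨Finset.mem_univ _, he⟩
  · intro e he
    exact (Finset.mem_filter.1 he).2
  · intro e he
    exact C5.t1_lift_iE (Free.mem_bd.1 he).1
  · intro e _
    exact C5.t1_iE_lift e
  · intro e he
    rw [C5.t1_lift_iE (Free.mem_bd.1 he).1]
theorem tm_row_zero (n : ℕ) [NeZero n] (b c : ℝ) : C5.torX n b (fun e => if e.2 then c else 0) = 0 := by
  ext z
  obtain ⟨z, hz⟩ := z
  obtain ⟨h, hh, rfl⟩ := AddSubgroup.mem_map.1 hz
  have hL : C5.torX n b (fun e => if e.2 then c else 0) ⟨(C5.torLaw n).coordA b h, hz⟩ =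
      ∑ e : (ZMod n × ZMod n) × Bool, 2 * Real.pi * (if e.2 then c else 0) *
        ((h ((torus n).tgt e) : ℝ) - (h ((torus n).src e) : ℝ)) := by
    simp only [C5.torX, C2.flowS, AddMonoidHom.coe_mk, ZeroHom.coe_mk]
    refine Finset.sum_congr rfl fun e _ => ?_
    have : ((C5.torLaw n).coordA b h).1 e = h ((torus n).tgt e) - h ((torus n).src e) := rfl
    rw [this]
    push_cast
    rfl
  show C5.torX n b (fun e => if e.2 then c else 0) ⟨(C5.torLaw n).coordA b h, hz⟩ = 0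
  rw [hL, Fintype.sum_prod_type]
  simp only [Fintype.sum_bool, if_true, Bool.false_eq_true, if_false, mul_zero, zero_mul, add_zero]
  have hT : ∀ v : ZMod n × ZMod n, 2 * Real.pi * c *
      ((h ((torus n).tgt (v, true)) : ℝ) - (h ((torus n).src (v, true)) : ℝ)) =
      2 * Real.pi * c * (((h (v.1 + 1, v.2) : ℝ) - (h (v.1, v.2) : ℝ))) := by
    intro v
    simp only [torus, if_true]
  rw [Finset.sum_congr rfl fun v _ => hT v, ← Finset.mul_sum, Fintype.sum_prod_type_right]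
  have hP : ∀ y : ZMod n, ∑ x : ZMod n, ((h (x + 1, y) : ℝ) - (h (x, y) : ℝ)) = 0 := by
    intro y
    rw [Finset.sum_sub_distrib]
    have := Equiv.sum_comp (Equiv.addRight (1 : ZMod n)) (fun x => (h (x, y) : ℝ))
    simp only [Equiv.coe_addRight] at this
    rw [this, sub_self]
  rw [Finset.sum_congr rfl fun y _ => hP y]
  simp

/-- L-TOR-M5.  For `z = coord h` on the torus: the bonds with `torLift ∉ bd` which carry flow are the horizontal wrapping bonds `((-1,y),true)`, `F_e = n⁻²/2` (`C5.t1_seam_val`), and `z_e = h(0,y) - h(-1,y) = - ∑_{x<n-1} z_{((x,y),true)}` (telescoping);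
so `xC z = ∑_{e ∈ bd} 2π (gd cosPot e - [e horizontal] n⁻²/2) z_e`, and `gd (v ↦ v.1/(2n²)) e = [e horizontal]/(2n²)`.  Use `C5.tor_cut_ref`'s computation (`r = C5.t1Ref n b`). -/
theorem xC_eq (n : ℕ) [NeZero n] (hn : 2 ≤ n) (b : ℝ) : xC n b = ((C2.sq n).gradX b (gN n)).comp (C5.t1Ref n b).psi := by
  have h1 : ((C2.sq n).gradX b (gN n)).comp (C5.t1Ref n b).psi = _ := tm_cut_ref n b (C2.gd (gN n))
  rw [h1]
  have hn' : (n : ℝ) ≠ 0 := Nat.cast_ne_zero.2 (NeZero.ne n)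
  have h2 : C5.torFl n = fun e => (if C5.torLift n e ∈ (C2.sq n).bd then C2.gd (gN n) (C5.torLift n e) else 0)
      + (if e.2 then 1 / (2 * (n : ℝ) ^ 2) else 0) := by
    funext e
    obtain ⟨v, d⟩ := e
    cases d
    · rw [C5.t1_torFl_false]
      have : C2.gd (gN n) (C5.torLift n (v, false)) = 0 := by
        simp [C2.gd, gN, Bond.snd, C5.cosPot, C5.torLift]
      simp [this]
    · simp only [if_true]
      by_cases hv : C5.torLift n (v, true) ∈ (C2.sq n).bd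
      · rw [if_pos hv]
        simp only [C5.torFl, C2.gd, gN, Bond.snd, C5.torLift, if_true]
        push_cast
        ring
      · rw [if_neg hv, zero_add]
        rw [C5.t1_lift_true_mem_bd] at hv
        have := ZMod.val_lt v.1
        rw [C5.t1_seam_val hn (v := v) (by omega)]
        field_simp
  unfold xC
  rw [h2, C5.torX_add, tm_row_zero, add_zero]

theorem tm_gd_gN_false (n : ℕ) (v : ℤ × ℤ) : C2.gd (gN n) (v, false) = 0 := by
  simp [C2.gd, gN, Bond.snd, C5.cosPot]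
theorem tm_gd_gN_true (n : ℕ) (v : ℤ × ℤ) : C2.gd (gN n) (v, true) =
    C5.kapN n * (Real.cos (2 * Real.pi / n * v.1 + 2 * Real.pi / n) - Real.cos (2 * Real.pi / n * v.1)) - 1 / (2 * (n : ℝ) ^ 2) := by
  simp only [C2.gd, gN, Bond.snd, C5.cosPot, if_true]
  have a1 : 2 * Real.pi * (((v.1 + 1 : ℤ) : ℝ) / n) = 2 * Real.pi / n * v.1 + 2 * Real.pi / n := by
    push_cast; ring
  have a2 : 2 * Real.pi * ((v.1 : ℝ) / n) = 2 * Real.pi / n * v.1 := by ring
  rw [a1, a2]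
  push_cast
  ring
theorem tm_cos_second (t s : ℝ) : |Real.cos (t + s + s) - Real.cos (t + s) - (Real.cos (t + s) - Real.cos t)| ≤ s ^ 2 := by
  have e : Real.cos (t + s + s) - Real.cos (t + s) - (Real.cos (t + s) - Real.cos t) = 2 * Real.cos (t + s) * (Real.cos s - 1) := by
    have h1 : Real.cos (t + s + s) = Real.cos (t + s) * Real.cos s - Real.sin (t + s) * Real.sin s := Real.cos_add _ _
    have h2 : Real.cos t = Real.cos (t + s) * Real.cos s + Real.sin (t + s) * Real.sin s := by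
      rw [← Real.cos_sub]; congr 1; ring
    obtain ⟨c, hc⟩ : ∃ c : ℝ, c = Real.cos t := ⟨_, rfl⟩
    rw [← hc] at h2 ⊢
    rw [h1, h2]
    ring
  rw [e, abs_mul, abs_mul]
  have h1 := Real.abs_cos_le_one (t + s)
  have h2 := Real.one_sub_sq_div_two_le_cos (x := s)
  have h3 := Real.cos_le_one s
  have h4 : |Real.cos s - 1| ≤ s ^ 2 / 2 := by
    rw [abs_le]; constructor <;> nlinarith [sq_nonneg s]
  have h5 : |(2 : ℝ)| = 2 := abs_of_pos (by norm_num)
  rw [h5]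
  have h6 := abs_nonneg (Real.cos s - 1)
  have h7 := abs_nonneg (Real.cos (t + s))
  nlinarith

/-- L-TOR-M6.  `unw_c2bd (eT_tc2 …)`-type bound for `cosPot` (or directly `cos_bounds`), the linear part has gradient `1/(2n²) ≤ 1/n` and no second difference. -/
theorem gN_c2bd : ∃ M : ℝ, ∀ n : ℕ, 1 ≤ n → C2.C2bd M n (C2.sq n) (gN n) := by
  obtain ⟨K, hK⟩ := C5.kapN_tendsto.bddAbove_range
  have hK' : ∀ n, C5.kapN n ≤ K := fun n => hK ⟨n, rfl⟩
  have hK0 : 0 ≤ K := (C5.kapN_nonneg 0).trans (hK' 0)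
  have hpi := Real.pi_gt_three
  refine ⟨K * (2 * Real.pi) ^ 2 + 1, fun n hn => ?_⟩
  have hn1 : (1 : ℝ) ≤ n := by exact_mod_cast hn
  have hn0 : (0 : ℝ) < n := by linarith
  have hk0 := C5.kapN_nonneg n
  have hk1 := hK' n
  constructor
  · rintro ⟨v, d⟩ -
    cases d
    · rw [tm_gd_gN_false, abs_zero]
      positivity
    · rw [tm_gd_gN_true]
      have h1 := Real.abs_cos_sub_cos_le (2 * Real.pi / n * v.1 + 2 * Real.pi / n) (2 * Real.pi / n * v.1)
      rw [add_sub_cancel_left, abs_of_pos (show 0 < 2 * Real.pi / (n : ℝ) by positivity)] at h1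
      have h2 : |C5.kapN n * (Real.cos (2 * Real.pi / n * v.1 + 2 * Real.pi / n) - Real.cos (2 * Real.pi / n * v.1))| ≤ K * (2 * Real.pi / n) := by
        rw [abs_mul, abs_of_nonneg hk0]
        exact mul_le_mul hk1 h1 (abs_nonneg _) hK0
      have h3 : |1 / (2 * (n : ℝ) ^ 2)| ≤ 1 / (n : ℝ) := by
        rw [abs_of_pos (by positivity)]
        rw [div_le_div_iff₀ (by positivity) hn0]
        nlinarith
      have h4 : K * (2 * Real.pi / n) ≤ K * (2 * Real.pi) ^ 2 / n := by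
        rw [← mul_div_assoc]
        apply div_le_div_of_nonneg_right _ hn0.le
        apply mul_le_mul_of_nonneg_left _ hK0
        nlinarith
      calc _ ≤ |C5.kapN n * (Real.cos (2 * Real.pi / n * v.1 + 2 * Real.pi / n) - Real.cos (2 * Real.pi / n * v.1))| + |1 / (2 * (n : ℝ) ^ 2)| := abs_sub _ _
        _ ≤ K * (2 * Real.pi) ^ 2 / n + 1 / n := by linarith
        _ = _ := by ring
  · rintro ⟨v, d⟩ - u hu -
    cases d
    · simp only [tm_gd_gN_false, sub_self, abs_zero]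
      positivity
    · simp only [tm_gd_gN_true]
      rcases hu with rfl | rfl
      · have e1 : 2 * Real.pi / n * ((v + ((1 : ℤ), (0 : ℤ))).1 : ℝ) = 2 * Real.pi / n * v.1 + 2 * Real.pi / n := by
          simp only [Prod.fst_add]
          push_cast
          ring
        rw [e1]
        have h1 := tm_cos_second (2 * Real.pi / n * v.1) (2 * Real.pi / n)
        have e2 : C5.kapN n * (Real.cos (2 * Real.pi / n * v.1 + 2 * Real.pi / n + 2 * Real.pi / n) - Real.cos (2 * Real.pi / n * v.1 + 2 * Real.pi / n)) - 1 / (2 * (n : ℝ) ^ 2)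
            - (C5.kapN n * (Real.cos (2 * Real.pi / n * v.1 + 2 * Real.pi / n) - Real.cos (2 * Real.pi / n * v.1)) - 1 / (2 * (n : ℝ) ^ 2))
            = C5.kapN n * (Real.cos (2 * Real.pi / n * v.1 + 2 * Real.pi / n + 2 * Real.pi / n) - Real.cos (2 * Real.pi / n * v.1 + 2 * Real.pi / n)
              - (Real.cos (2 * Real.pi / n * v.1 + 2 * Real.pi / n) - Real.cos (2 * Real.pi / n * v.1))) := by ring
        rw [e2, abs_mul, abs_of_nonneg hk0]
        calc _ ≤ K * (2 * Real.pi / n) ^ 2 := mul_le_mul hk1 h1 (abs_nonneg _) hK0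
          _ = K * (2 * Real.pi) ^ 2 / (n : ℝ) ^ 2 := by rw [div_pow]; ring
          _ ≤ _ := by
            apply div_le_div_of_nonneg_right _ (by positivity)
            linarith
      · have e1 : ((v + ((0 : ℤ), (1 : ℤ))).1 : ℝ) = v.1 := by simp
        rw [e1, sub_self, abs_zero]
        positivity

/-- L-TOR-M6.  Minkowski (`Free.sqrt_cost_add_le`): `√dir gN ≤ √(κ_n/2) + √(n (n-1)/(4 n⁴))` (`C5.cosPot_dir_le`, `C5.kapN_tendsto`). -/
theorem gN_dir_le (ε : ℝ) (hε : 0 < ε) : ∀ᶠ n : ℕ in atTop, (C2.sq n).dir (gN n) ≤ (8 * Real.pi ^ 2)⁻¹ + ε := by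
  have hlim : Tendsto (fun n : ℕ => (Real.sqrt (C5.kapN n / 2) + Real.sqrt (1 / 2 * ((n : ℝ)⁻¹) ^ 2)) ^ 2) atTop (𝓝 ((8 * Real.pi ^ 2)⁻¹)) := by
    have h1 : Tendsto (fun n : ℕ => Real.sqrt (C5.kapN n / 2)) atTop (𝓝 (Real.sqrt ((4 * Real.pi ^ 2)⁻¹ / 2))) :=
      (Real.continuous_sqrt.tendsto _).comp (C5.kapN_tendsto.div_const 2)
    have h2 : Tendsto (fun n : ℕ => Real.sqrt (1 / 2 * ((n : ℝ)⁻¹) ^ 2)) atTop (𝓝 (Real.sqrt (1 / 2 * (0 : ℝ) ^ 2))) :=
      (Real.continuous_sqrt.tendsto _).comp ((tendsto_inv_atTop_nhds_zero_nat.pow 2).const_mul _)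
    have h3 := (h1.add h2).pow 2
    have e : (Real.sqrt ((4 * Real.pi ^ 2)⁻¹ / 2) + Real.sqrt (1 / 2 * (0 : ℝ) ^ 2)) ^ 2 = (8 * Real.pi ^ 2)⁻¹ := by
      have : (1 / 2 * (0 : ℝ) ^ 2) = 0 := by ring
      rw [this, Real.sqrt_zero, add_zero, Real.sq_sqrt (by positivity)]
      have := Real.pi_ne_zero
      field_simp
      ring
    rw [e] at h3
    exact h3
  have hev := hlim.eventually (gt_mem_nhds (show (8 * Real.pi ^ 2)⁻¹ < (8 * Real.pi ^ 2)⁻¹ + ε by linarith))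
  filter_upwards [hev, eventually_ge_atTop 3] with n h1 hn
  refine le_trans ?_ h1.le
  have hn3 : (3 : ℝ) ≤ n := by exact_mod_cast hn
  have hn0 : (0 : ℝ) < n := by linarith
  have e1 : (C2.sq n).dir (gN n) = (C2.sq n).cost fun e => C2.gd (C5.cosPot n) e + (- C2.gd (fun v => (v.1 : ℝ) / (2 * (n : ℝ) ^ 2)) e) := by
    unfold C2.Rc.dir
    congr 1
    funext e
    simp only [C2.gd, gN]
    ring
  have h2 := Free.sqrt_cost_add_le (C2.sq n) (C2.gd (C5.cosPot n)) (fun e => - C2.gd (fun v => (v.1 : ℝ) / (2 * (n : ℝ) ^ 2)) e)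
  rw [← e1] at h2
  have h3 : Real.sqrt ((C2.sq n).cost (C2.gd (C5.cosPot n))) ≤ Real.sqrt (C5.kapN n / 2) := Real.sqrt_le_sqrt (C5.cosPot_dir_le n hn)
  have h4 : (C2.sq n).cost (fun e => - C2.gd (fun v => (v.1 : ℝ) / (2 * (n : ℝ) ^ 2)) e) ≤ 1 / 2 * ((n : ℝ)⁻¹) ^ 2 := by
    unfold C2.Rc.cost
    have hb : ∀ e : Bond, (- C2.gd (fun v => (v.1 : ℝ) / (2 * (n : ℝ) ^ 2)) e) ^ 2 ≤ (1 / (2 * (n : ℝ) ^ 2)) ^ 2 := by
      rintro ⟨v, d⟩
      cases d
      · simp only [C2.gd, Bond.snd, Bool.false_eq_true, if_false, sub_self, neg_zero]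
        have : (0 : ℝ) ^ 2 = 0 := by norm_num
        rw [this]
        positivity
      · simp only [C2.gd, Bond.snd, if_true]
        apply le_of_eq
        push_cast
        ring
    calc ∑ e ∈ (C2.sq n).bd, (- C2.gd (fun v => (v.1 : ℝ) / (2 * (n : ℝ) ^ 2)) e) ^ 2
        ≤ ∑ e ∈ (C2.sq n).set ×ˢ (Finset.univ : Finset Bool), (- C2.gd (fun v => (v.1 : ℝ) / (2 * (n : ℝ) ^ 2)) e) ^ 2 :=
          Finset.sum_le_sum_of_subset_of_nonneg
            (fun e he => Finset.mem_product.2 ⟨(Free.mem_bd.1 he).1, Finset.mem_univ _⟩) fun _ _ _ => sq_nonneg _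
      _ ≤ ∑ e ∈ (C2.sq n).set ×ˢ (Finset.univ : Finset Bool), (1 / (2 * (n : ℝ) ^ 2)) ^ 2 := Finset.sum_le_sum fun e _ => hb e
      _ = 1 / 2 * ((n : ℝ)⁻¹) ^ 2 := by
          have hset : (C2.sq n).set = Finset.Ico (0 : ℤ) n ×ˢ Finset.Ico (0 : ℤ) n := by
            simp [C2.sq, C2.Rc.set]
          rw [Finset.sum_const, Finset.card_product, hset, Finset.card_product]
          simp only [Int.card_Ico, sub_zero, Int.toNat_natCast, Finset.card_univ, Fintype.card_bool, nsmul_eq_mul]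
          push_cast
          field_simp
  have h5 : Real.sqrt ((C2.sq n).dir (gN n)) ≤ Real.sqrt (C5.kapN n / 2) + Real.sqrt (1 / 2 * ((n : ℝ)⁻¹) ^ 2) :=
    h2.trans (add_le_add h3 (Real.sqrt_le_sqrt h4))
  have h6 : 0 ≤ (C2.sq n).dir (gN n) := Finset.sum_nonneg fun e _ => sq_nonneg _
  calc (C2.sq n).dir (gN n) = Real.sqrt ((C2.sq n).dir (gN n)) ^ 2 := (Real.sq_sqrt h6).symm
    _ ≤ _ := pow_le_pow_left₀ (Real.sqrt_nonneg _) h5 2

theorem E0_exp_pos (S : LSys) (hS : S.Ok) (X : S.L →+ ℝ) : 0 < S.E0 fun z => Real.exp (X z) := by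
  rw [rd_E0_exp]
  exact div_pos (lsys_pos S hS 0 X) (rd_w_pos hS 0)

theorem torVar_eq_V0 (b : ℝ) (n : ℕ) [NeZero n] (hn : 2 ≤ n) : torVar b n = ((C5.torLaw n).sys b).V0 (xC n b) := by
  rw [torVar_eq_tV b n hn, tV_eq, gX_eT]

/-- GLUE.  Step 3. -/
theorem tor_mgf_upper {b : ℕ → ℝ} {n : ℕ → ℕ} {a : ℝ} (hS : C2.ScaleCoef b n a) (s ε : ℝ) (hε : 0 < ε) :
    ∀ᶠ k in atTop, tM (b k) (n k) s ≤ Real.exp (a * (1 / (8 * Real.pi ^ 2)) * s ^ 2 / 2) + ε := by
  have ha : 0 ≤ a := C2.scaleCoef_nonneg hS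
  obtain ⟨⟨β₀, β₁, hβ₀, hβ⟩, hn, -⟩ := id hS
  obtain ⟨M, hM⟩ := gN_c2bd
  have hAdm : C2.Adm n fun k => C2.sq (n k) := by
    refine ⟨1, fun k => ?_⟩
    simp [C2.sq]
  have hC : ∀ k, C2.C2bd M (n k) (C2.sq (n k)) (gN (n k)) := by
    intro k
    rcases Nat.eq_zero_or_pos (n k) with h0 | h0
    · have hemp : ∀ e : Bond, e ∉ (C2.sq (n k)).bd := by
        intro e he
        have := (Free.mem_bd.1 he).1
        rw [h0] at this
        simp [C2.sq, C2.Rc.set] at this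
      exact ⟨fun e he => absurd he (hemp e), fun e he => absurd he (hemp e)⟩
    · exact hM _ h0
  have hReg : C2.Reg n (fun k => C2.sq (n k)) fun k v => s * gN (n k) v :=
    C2.reg_smul (C2.reg_c2 _ M hC) (fun _ => s) |s| fun _ => le_rfl
  have hlap := C2.free_laplace hS hAdm hReg
  set c : ℝ := a * (1 / (8 * Real.pi ^ 2)) * s ^ 2 / 2 with hc
  set δ : ℝ := Real.log (1 + ε / Real.exp c) with hδ
  have hδ0 : 0 < δ := Real.log_pos (by have := Real.exp_pos c; have : 0 < ε / Real.exp c := by positivity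
                                       linarith)
  have hexp : Real.exp (c + δ) = Real.exp c + ε := by
    rw [Real.exp_add, hδ, Real.exp_log (by have := Real.exp_pos c; positivity)]
    have := (Real.exp_pos c).ne'
    field_simp
  have hd := (gN_dir_le (δ / (a * s ^ 2 + 1)) (by positivity))
  filter_upwards [hlap.eventually (gt_mem_nhds (half_pos hδ0)), hn.eventually hd, hn.eventually_ge_atTop 2] with k h1 h2 h3
  have : NeZero (n k) := ⟨by omega⟩
  have hb : 0 < b k := hβ₀.trans_le (hβ k).1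
  have hokT := C5.torLaw_ok (n k) (b k) hb
  have hokS := C2.rc_ok (C2.sq (n k)) (b k) hb
  have hgd : C2.gd (fun v => s * gN (n k) v) = fun e => s * C2.gd (gN (n k)) e := by
    funext e
    simp only [C2.gd]
    ring
  have hX : ∀ z, s * xC (n k) (b k) z = ((C2.sq (n k)).gradX (b k) (fun v => s * gN (n k) v)) ((C5.t1Ref (n k) (b k)).psi z) := by
    intro z
    rw [xC_eq (n k) h3 (b k)]
    unfold C2.Rc.gradX
    rw [hgd, Free.flowX_smul]
    rfl
  have h4 : tM (b k) (n k) s ≤ ((C2.sq (n k)).sys (b k)).E0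
      fun z => Real.exp ((C2.sq (n k)).gradX (b k) (fun v => s * gN (n k) v) z) := by
    rw [tM_eq]
    simp only [hX]
    exact lsys_mgf_mono (C5.t1Ref (n k) (b k)) hokS hokT _
  have h5 : ((C2.sq (n k)).sys (b k)).E0 (fun z => Real.exp ((C2.sq (n k)).gradX (b k) (fun v => s * gN (n k) v) z))
      = Real.exp ((C2.sq (n k)).lmgf (b k) (C2.gd fun v => s * gN (n k) v)) := by
    unfold C2.Rc.lmgf
    rw [Real.exp_log (E0_exp_pos _ hokS _)]
    rfl
  have h6 : (C2.sq (n k)).dir (fun v => s * gN (n k) v) = s ^ 2 * (C2.sq (n k)).dir (gN (n k)) := by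
    unfold C2.Rc.dir C2.Rc.cost
    rw [hgd, Finset.mul_sum]
    exact Finset.sum_congr rfl fun e _ => by ring
  rw [h6] at h1
  have h7 : a / 2 * (s ^ 2 * (C2.sq (n k)).dir (gN (n k))) ≤ c + δ / 2 := by
    have h8 : a / 2 * (s ^ 2 * (C2.sq (n k)).dir (gN (n k))) ≤ a / 2 * (s ^ 2 * ((8 * Real.pi ^ 2)⁻¹ + δ / (a * s ^ 2 + 1))) := by
      gcongr
    have h9 : a * s ^ 2 * (δ / (a * s ^ 2 + 1)) ≤ δ := by
      have h10 : 0 ≤ a * s ^ 2 := by positivity
      rw [mul_div_assoc', div_le_iff₀ (by positivity)]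
      nlinarith
    have h11 : a / 2 * (s ^ 2 * ((8 * Real.pi ^ 2)⁻¹ + δ / (a * s ^ 2 + 1))) = c + a * s ^ 2 * (δ / (a * s ^ 2 + 1)) / 2 := by
      rw [hc, one_div]
      ring
    linarith
  calc tM (b k) (n k) s ≤ Real.exp ((C2.sq (n k)).lmgf (b k) (C2.gd fun v => s * gN (n k) v)) := h4.trans h5.le
    _ ≤ Real.exp (c + δ) := Real.exp_le_exp.2 (by linarith)
    _ = Real.exp c + ε := hexp

/-- GLUE.  Step 4. -/
theorem tor_kap {b : ℕ → ℝ} {n : ℕ → ℕ} {a : ℝ} (hS : C2.ScaleCoef b n a) : Tendsto (fun k => tK (b k) (n k)) atTop (𝓝 0) := by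
  have ha : 0 ≤ a := C2.scaleCoef_nonneg hS
  obtain ⟨⟨β₀, β₁, hβ₀, hβ⟩, hn, -⟩ := id hS
  have h := kap_limit (V := fun k => torVar (b k) (n k)) (m4 := fun k => tK (b k) (n k) + 3 * torVar (b k) (n k) ^ 2)
    (Mg := fun s k => tM (b k) (n k) s) (σ := a * (1 / (8 * Real.pi ^ 2))) (by positivity) (torus_limit' hS)
    (by
      filter_upwards [hn.eventually_ge_atTop 2] with k hk
      have : NeZero (n k) := ⟨by omega⟩
      have := lsys_cumulant _ (C5.torLaw_ok (n k) (b k) (hβ₀.trans_le (hβ k).1)) (xC (n k) (b k)) (xC (n k) (b k))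
      rw [tK_eq]
      unfold C2.kap
      linarith)
    (by
      intro s
      filter_upwards [hn.eventually_ge_atTop 2] with k hk
      have : NeZero (n k) := ⟨by omega⟩
      have h1 := quartic_lower _ (C5.torLaw_ok (n k) (b k) (hβ₀.trans_le (hβ k).1)) (xC (n k) (b k)) s
      rw [tK_eq, kap_self, torVar_eq_V0 _ _ hk, tM_eq]
      have e : ((C5.torLaw (n k)).sys (b k)).E0 (fun z => xC (n k) (b k) z ^ 4) - 3 * ((C5.torLaw (n k)).sys (b k)).V0 (xC (n k) (b k)) ^ 2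
          + 3 * ((C5.torLaw (n k)).sys (b k)).V0 (xC (n k) (b k)) ^ 2 = ((C5.torLaw (n k)).sys (b k)).E0 (fun z => xC (n k) (b k) z ^ 4) := by ring
      rw [e]
      exact h1)
    (fun s ε hε => tor_mgf_upper hS s ε hε)
  simpa using h

/-! ## 3. Even tori -/

theorem tm_t1C_half (m : ℕ) [NeZero (2 * m)] (x : ZMod (2 * m)) :
    C5.t1C (2 * m) (x + (m : ZMod (2 * m))) = - C5.t1C (2 * m) x := by
  have hm : (m : ℝ) ≠ 0 := by
    have := NeZero.ne (2 * m)
    have : m ≠ 0 := by omega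
    exact_mod_cast this
  have h := C5.t1C_intCast (2 * m) ((x.val : ℤ) + m)
  push_cast at h
  rw [ZMod.natCast_zmod_val] at h
  rw [h]
  unfold C5.t1C
  have e : 2 * Real.pi * (((x.val : ℝ) + m) / (2 * m)) = 2 * Real.pi * ((x.val : ℝ) / ((2 * m : ℕ) : ℝ)) + Real.pi := by
    push_cast
    field_simp
  rw [e, Real.cos_add_pi]
theorem tm_torFl_half (m : ℕ) [NeZero (2 * m)] (e : (ZMod (2 * m) × ZMod (2 * m)) × Bool) :
    C5.torFl (2 * m) (e.1 + ((m : ZMod (2 * m)), 0), e.2) = - C5.torFl (2 * m) e := by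
  obtain ⟨v, d⟩ := e
  cases d
  · simp only [C5.t1_torFl_false, neg_zero]
  · simp only []
    rw [C5.t1_torFl_true, C5.t1_torFl_true, ← C5.t1C_add_one, ← C5.t1C_add_one]
    have h1 : Real.cos (2 * Real.pi * (((v + ((m : ZMod (2 * m)), (0 : ZMod (2 * m)))).1.val : ℝ) / ((2 * m : ℕ) : ℝ))) = C5.t1C (2 * m) (v.1 + m) := rfl
    have h2 : Real.cos (2 * Real.pi * ((v.1.val : ℝ) / ((2 * m : ℕ) : ℝ))) = C5.t1C (2 * m) v.1 := rfl
    rw [h1, h2]
    have h3 : (v + ((m : ZMod (2 * m)), (0 : ZMod (2 * m)))).1 + 1 = (v.1 + 1) + m := by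
      simp only [Prod.fst_add]
      ring
    rw [h3, tm_t1C_half, tm_t1C_half]
    ring

/-- L-TOR-M7.  **The imaginary parts vanish.**  `i` = `tor_shift` with `t = (↑m, 0)`.  `xC ∘ i.mapL = - xC` (`C5.torFl (e.1 + t, e.2) = - C5.torFl e`: `cos (x + π) = - cos x`, `C5.t1C_intCast`-type periodicity, `2m` even);
`xM (i.mapL z) = xM z - 2π h(-t)` for `z = coord h` (`xM_lift`, `trH`, reindex `∑_v h (v - t) = ∑_v h v`, `∑_v n⁻² = 1`), so `sin (xM (i.mapL z)) = sin (xM z)` (`Real.sin_sub_int_mul_two_pi`).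
Then `E0 Φ = E0 (Φ ∘ i.mapL)` (`Free.siso_E0`) `= E0 (Φ ∘ i.mapL ∘ neg)` (`rd_E0_inv`) and `Φ (i.mapL (-z)) = F (xC z) * sin (- xM z) = - Φ z`. -/
theorem tor_sin_zero (m : ℕ) [NeZero (2 * m)] (b : ℝ) (F : ℝ → ℝ) :
    ((C5.torLaw (2 * m)).sys b).E0 (fun z => F (xC (2 * m) b z) * Real.sin (xM (2 * m) b z)) = 0 := by
  obtain ⟨i, hi1, hi2⟩ := tor_shift (2 * m) b ((m : ZMod (2 * m)), 0)
  have hX : ∀ z, xC (2 * m) b (i.mapL z) = - xC (2 * m) b z := by
    intro z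
    have h := DFunLike.congr_fun (hi1 (C5.torFl (2 * m))) z
    have h2 : (fun e : (ZMod (2 * m) × ZMod (2 * m)) × Bool => C5.torFl (2 * m) (e.1 + ((m : ZMod (2 * m)), 0), e.2))
        = fun e => - C5.torFl (2 * m) e := funext fun e => tm_torFl_half m e
    rw [h2] at h
    have h3 : C5.torX (2 * m) b (fun e => - C5.torFl (2 * m) e) z = - C5.torX (2 * m) b (C5.torFl (2 * m)) z := by
      simp only [C5.torX, C2.flowS, AddMonoidHom.coe_mk, ZeroHom.coe_mk]
      rw [← Finset.sum_neg_distrib]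
      exact Finset.sum_congr rfl fun e _ => by ring
    rw [h3] at h
    exact h
  have hM : ∀ z, Real.sin (xM (2 * m) b (i.mapL z)) = Real.sin (xM (2 * m) b z) := by
    intro z
    obtain ⟨z, hz⟩ := z
    obtain ⟨h, hh, rfl⟩ := AddSubgroup.mem_map.1 hz
    have e1 := hi2 h hh
    have e2 := xM_lift (2 * m) b h hh
    have e3 := xM_lift (2 * m) b _ (trH_mem (2 * m) ((m : ZMod (2 * m)), 0) h)
    have e4 : xM (2 * m) b (i.mapL ⟨(C5.torLaw (2 * m)).coordA b h, hz⟩) = xM (2 * m) b ⟨(C5.torLaw (2 * m)).coordA b h, hz⟩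
        - (h (-((m : ZMod (2 * m)), 0) : ZMod (2 * m) × ZMod (2 * m)) : ℝ) * (2 * Real.pi) := by
      rw [e1, e2, e3]
      have hn : ((2 * m : ℕ) : ℝ) ≠ 0 := Nat.cast_ne_zero.2 (NeZero.ne (2 * m))
      have s1 : ∑ x : (torus (2 * m)).V, meanRow (2 * m) x * (2 * Real.pi * ((trH (2 * m) ((m : ZMod (2 * m)), 0) h x : ℤ) : ℝ))
          = ∑ x : ZMod (2 * m) × ZMod (2 * m), (meanRow (2 * m) x * (2 * Real.pi * (h (x - ((m : ZMod (2 * m)), 0) : ZMod (2 * m) × ZMod (2 * m)) : ℝ))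
            - ((2 * m : ℕ) : ℝ)⁻¹ ^ 2 * (2 * Real.pi * (h (-((m : ZMod (2 * m)), 0) : ZMod (2 * m) × ZMod (2 * m)) : ℝ))) := by
        refine Finset.sum_congr rfl fun (x : ZMod (2 * m) × ZMod (2 * m)) _ => ?_
        have e5 : ((trH (2 * m) ((m : ZMod (2 * m)), 0) h x : ℤ) : ℝ) = (h (x - ((m : ZMod (2 * m)), 0) : ZMod (2 * m) × ZMod (2 * m)) : ℝ)
            - (h (-((m : ZMod (2 * m)), 0) : ZMod (2 * m) × ZMod (2 * m)) : ℝ) := by
          unfold trH
          push_cast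
          rfl
        rw [e5]
        have e6 : meanRow (2 * m) x = ((2 * m : ℕ) : ℝ)⁻¹ ^ 2 := rfl
        rw [e6]
        ring
      rw [s1, Finset.sum_sub_distrib]
      have s2 := Equiv.sum_comp (Equiv.subRight (((m : ZMod (2 * m)), 0) : ZMod (2 * m) × ZMod (2 * m)))
        (fun x => meanRow (2 * m) x * (2 * Real.pi * (h x : ℝ)))
      simp only [Equiv.subRight_apply] at s2
      have s3 : ∀ x : ZMod (2 * m) × ZMod (2 * m), meanRow (2 * m) (x - ((m : ZMod (2 * m)), 0)) = meanRow (2 * m) x := fun _ => rfl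
      simp only [s3] at s2
      rw [Finset.sum_const, Finset.card_univ, Fintype.card_prod, ZMod.card]
      have s4 : ∑ x : (torus (2 * m)).V, meanRow (2 * m) x * (2 * Real.pi * (h x : ℝ)) = ∑ x : ZMod (2 * m) × ZMod (2 * m), meanRow (2 * m) x * (2 * Real.pi * (h x : ℝ)) := rfl
      rw [s4, ← s2, nsmul_eq_mul]
      congr 1
      obtain ⟨N, hN⟩ : ∃ N : ℝ, N = ((2 * m : ℕ) : ℝ) := ⟨_, rfl⟩
      rw [Nat.cast_mul, ← hN]
      rw [← hN] at hn
      field_simp
    show Real.sin (xM (2 * m) b (i.mapL ⟨(C5.torLaw (2 * m)).coordA b h, hz⟩)) = Real.sin (xM (2 * m) b ⟨(C5.torLaw (2 * m)).coordA b h, hz⟩)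
    rw [e4, Real.sin_sub_int_mul_two_pi]
  have h1 := Free.siso_E0 i (fun z => F (xC (2 * m) b z) * Real.sin (xM (2 * m) b z))
  simp only [hX, hM] at h1
  have h2 := rd_E0_inv (S := (C5.torLaw (2 * m)).sys b) (fun z => F (- xC (2 * m) b z) * Real.sin (xM (2 * m) b z))
  simp only [map_neg, neg_neg, Real.sin_neg, mul_neg] at h2
  have h3 := rd_E0_smul (S := (C5.torLaw (2 * m)).sys b) (-1) (fun z => F (xC (2 * m) b z) * Real.sin (xM (2 * m) b z))
  simp only [neg_one_mul] at h3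
  linarith

/-- GLUE.  Step 2: the replica ODE. -/
theorem mix_ode (m : ℕ) [NeZero (2 * m)] (b : ℝ) (hb : 0 < b) (w : ℝ) :
    |((C5.torLaw (2 * m)).sys b).E0 (fun z => Real.cos (xM (2 * m) b z) * Real.exp (w * xC (2 * m) b z))
        * ((C5.torLaw (2 * m)).sys b).E0 (fun z => Real.cos (xM (2 * m) b z) * xC (2 * m) b z * xC (2 * m) b z * Real.exp (w * xC (2 * m) b z))
      - ((C5.torLaw (2 * m)).sys b).E0 (fun z => Real.cos (xM (2 * m) b z) * xC (2 * m) b z * Real.exp (w * xC (2 * m) b z)) ^ 2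
      - ((C5.torLaw (2 * m)).sys b).V0 (xC (2 * m) b)
        * ((C5.torLaw (2 * m)).sys b).E0 (fun z => Real.cos (xM (2 * m) b z) * Real.exp (w * xC (2 * m) b z)) ^ 2|
      ≤ Real.sqrt (tK b (2 * m) / 2 * tM b (2 * m) (2 * w)) := by
  set S := (C5.torLaw (2 * m)).sys b with hS
  set X := xC (2 * m) b with hX
  set θ := xM (2 * m) b with hθ
  have hok : S.Ok := C5.torLaw_ok (2 * m) b hb
  have h := replica_tilt S hok X X θ (w • X)
  have hT : ∀ z, (w • X) z = w * X z := fun z => rfl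
  -- the three complex expectations are real
  have hc : ∀ (p : ℝ → ℝ), cE S (w • X) θ (fun z => p (X z))
      = ((S.E0 fun z => Real.cos (θ z) * p (X z) * Real.exp (w * X z) : ℝ) : ℂ) := by
    intro p
    apply Complex.ext
    · simp only [cE, Complex.ofReal_re, hT]
      congr 1
      funext z
      ring
    · simp only [cE, Complex.ofReal_im, hT]
      exact tor_sin_zero m b (fun x => p x * Real.exp (w * x))
  have h1 := hc (fun _ => 1)
  have h2 := hc (fun x => x * x)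
  have h3 := hc (fun x => x)
  beta_reduce at h1 h2 h3
  rw [h1, h2, h3] at h
  have e1 : (fun z => Real.cos (θ z) * 1 * Real.exp (w * X z)) = fun z => Real.cos (θ z) * Real.exp (w * X z) := by
    funext z; ring
  have e2 : (fun z => Real.cos (θ z) * (X z * X z) * Real.exp (w * X z)) = fun z => Real.cos (θ z) * X z * X z * Real.exp (w * X z) := by
    funext z; ring
  rw [e1, e2] at h
  have e3 : (S.E0 fun z => Real.exp (2 * (w • X) z)) = tM b (2 * m) (2 * w) := by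
    rw [tM_eq]
    congr 1
    funext z
    rw [hT, mul_assoc]
  rw [e3, ← tK_eq] at h
  have e4 : S.Cv 0 0 X X = S.V0 X := rfl
  rw [e4] at h
  rw [← Real.norm_eq_abs, ← Complex.norm_real]
  refine le_of_eq_of_le ?_ h
  congr 1
  push_cast
  ring

/-- GLUE (`lsys_phi_lower`, `lsys_phi_le_one`): also `Flow.tor_phase_pos`. -/
theorem torPhase_mem (b : ℝ) (hb : 0 < b) (n : ℕ) (hn : 1 ≤ n) : 0 < torPhase b n ∧ torPhase b n ≤ 1 := by
  have : NeZero n := ⟨by omega⟩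
  rw [torPhase_eq]
  have hok := C5.torLaw_ok n b hb
  exact ⟨lt_of_lt_of_le (Real.exp_pos _) (lsys_phi_lower _ hok _), lsys_phi_le_one _ hok _⟩

/-- GLUE.  The finite estimate: `B10.replica_real'` on `[0, W]`. -/
theorem mix_fixed (m : ℕ) (hm : 1 ≤ m) (b : ℝ) (hb : 0 < b) (W : ℝ) (hW : 0 ≤ W)
    (hsm : 4 * Real.sqrt (tK b (2 * m) * tM b (2 * m) (2 * W)) * W ^ 2 ≤ torPhase b (2 * m) ^ 2) :
    |tG b (2 * m) W - torPhase b (2 * m) * Real.exp (torVar b (2 * m) * W ^ 2 / 2)|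
      ≤ torPhase b (2 * m) * Real.exp (torVar b (2 * m) * W ^ 2 / 2)
        * (4 * Real.sqrt (tK b (2 * m) * tM b (2 * m) (2 * W)) * W ^ 2 / torPhase b (2 * m) ^ 2) := by
  have : NeZero (2 * m) := ⟨by omega⟩
  have hn : 2 ≤ 2 * m := by omega
  have hok := C5.torLaw_ok (2 * m) b hb
  set S := (C5.torLaw (2 * m)).sys b with hS
  set X := xC (2 * m) b with hX
  set θ := xM (2 * m) b with hθ
  have hK : 0 ≤ tK b (2 * m) := by
    have := lsys_cumulant _ hok X X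
    rw [tK_eq]
    unfold C2.kap
    linarith
  have hd1 : S.Dom fun z => Real.cos (θ z) := rd_dom_cos _
  have hd2 : S.Dom fun z => Real.cos (θ z) * X z := rd_dom_mul hd1 (rd_dom_test X)
  have h := B10.replica_real' (G := fun w => S.E0 fun z => Real.cos (θ z) * Real.exp (w * X z))
    (G' := fun w => S.E0 fun z => Real.cos (θ z) * X z * Real.exp (w * X z))
    (G'' := fun w => S.E0 fun z => Real.cos (θ z) * X z * X z * Real.exp (w * X z))
    (a := torPhase b (2 * m)) (v := torVar b (2 * m)) (ε := Real.sqrt (tK b (2 * m) * tM b (2 * m) (2 * W))) (W := W)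
    hW (torPhase_mem b hb _ (by omega)).1
    (by rw [torVar_eq_V0 b _ hn]; exact rd_V0_nonneg hok _) (Real.sqrt_nonneg _)
    (fun w _ => E0_hasDerivAt S hok hd1 X w) (fun w _ => E0_hasDerivAt S hok hd2 X w)
    (by
      rw [torPhase_eq]
      simp only [zero_mul, Real.exp_zero, mul_one]
      rfl)
    (by
      simp only [zero_mul, Real.exp_zero, mul_one]
      exact rd_E0_odd _ fun z => by rw [map_neg, map_neg, Real.cos_neg]; ring)
    (by
      intro w hw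
      have h1 := mix_ode m b hb w
      rw [torVar_eq_V0 b _ hn]
      refine h1.trans (Real.sqrt_le_sqrt ?_)
      have h2 : tM b (2 * m) (2 * w) ≤ 2 * tM b (2 * m) (2 * W) := by
        rw [tM_eq, tM_eq]
        refine mgf_le_two S hok X ?_
        rw [abs_of_nonneg (by linarith [hw.1])]
        linarith [hw.2]
      calc tK b (2 * m) / 2 * tM b (2 * m) (2 * w) ≤ tK b (2 * m) / 2 * (2 * tM b (2 * m) (2 * W)) :=
            mul_le_mul_of_nonneg_left h2 (by positivity)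
        _ = tK b (2 * m) * tM b (2 * m) (2 * W) := by ring)
    hsm W ⟨hW, le_rfl⟩
  rw [tG_eq b _ hn]
  exact h

/-- GLUE (`C2.phase_tilt`). -/
theorem tG_abs_le (b : ℝ) (hb : 0 < b) (n : ℕ) (hn : 2 ≤ n) (w : ℝ) : |tG b n w| ≤ tM b n w * torPhase b n := by
  have : NeZero n := ⟨by omega⟩
  rw [tG_eq b n hn, tM_eq, torPhase_eq]
  have h := C2.phase_tilt _ (C5.torLaw_ok n b hb) (xM n b) (w • xC n b)
  have e : (fun z => Real.exp ((w • xC n b) z) * Real.cos (xM n b z)) = fun z => Real.cos (xM n b z) * Real.exp (w * xC n b z) := by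
    funext z
    rw [mul_comm]
    rfl
  rw [e] at h
  exact h

/-- GLUE (inversion). -/
theorem tG_neg (b : ℝ) (n : ℕ) (hn : 2 ≤ n) (w : ℝ) : tG b n (-w) = tG b n w := by
  have : NeZero n := ⟨by omega⟩
  rw [tG_eq b n hn, tG_eq b n hn]
  rw [← rd_E0_inv]
  congr 1
  funext z
  rw [map_neg, map_neg, Real.cos_neg]
  congr 2
  ring

/-! ## 4. The limit -/

/-- GLUE (real sequences): step 5. -/
theorem mix_abstract {G p V ε Mw : ℕ → ℝ} {σ W C : ℝ} (hp : ∀ᶠ k in atTop, 0 < p k ∧ p k ≤ 1) (hV : Tendsto V atTop (𝓝 σ))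
    (hε : Tendsto ε atTop (𝓝 0)) (hε0 : ∀ᶠ k in atTop, 0 ≤ ε k) (h1 : ∀ᶠ k in atTop, |G k| ≤ Mw k * p k) (hMw : ∀ᶠ k in atTop, Mw k ≤ C)
    (h2 : ∀ᶠ k in atTop, 4 * ε k * W ^ 2 ≤ p k ^ 2 →
      |G k - p k * Real.exp (V k * W ^ 2 / 2)| ≤ p k * Real.exp (V k * W ^ 2 / 2) * (4 * ε k * W ^ 2 / p k ^ 2)) :
    Tendsto (fun k => G k - p k * Real.exp (σ * W ^ 2 / 2)) atTop (𝓝 0) := by
  rw [Metric.tendsto_atTop']
  intro δ hδ
  set E : ℝ := Real.exp (σ * W ^ 2 / 2) with hE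
  have hE0 : 0 < E := Real.exp_pos _
  set η : ℝ := δ / (2 * (|C| + E + 1)) with hη
  have hη0 : 0 < η := by positivity
  have hA : Tendsto (fun k => Real.exp (V k * W ^ 2 / 2)) atTop (𝓝 E) :=
    (Real.continuous_exp.tendsto _).comp ((hV.mul_const _).div_const _)
  have hB : Tendsto (fun k => Real.exp (V k * W ^ 2 / 2) * (4 * ε k * W ^ 2 / η)) atTop (𝓝 (E * (4 * 0 * W ^ 2 / η))) :=
    hA.mul (((hε.const_mul 4).mul_const _).div_const _)
  have hB' : E * (4 * 0 * W ^ 2 / η) = 0 := by ring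
  rw [hB'] at hB
  have hD : Tendsto (fun k => 4 * ε k * W ^ 2) atTop (𝓝 (4 * 0 * W ^ 2)) := (hε.const_mul 4).mul_const _
  have hD' : 4 * 0 * W ^ 2 = (0 : ℝ) := by ring
  rw [hD'] at hD
  have hA2 : Tendsto (fun k => Real.exp (V k * W ^ 2 / 2) - E) atTop (𝓝 0) := by
    have := hA.sub_const E
    rwa [sub_self] at this
  have ev := hp.and (hε0.and (h1.and (hMw.and (h2.and ((hB.eventually (gt_mem_nhds (by positivity : (0 : ℝ) < δ / 4))).and
    ((hD.eventually (gt_mem_nhds (by positivity : (0 : ℝ) < η ^ 2))).and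
      (hA2.eventually (Metric.ball_mem_nhds 0 (by positivity : (0 : ℝ) < δ / 4)))))))))
  obtain ⟨N, hN⟩ := eventually_atTop.1 ev
  refine ⟨N, fun k hk => ?_⟩
  obtain ⟨⟨hp0, hp1⟩, he0, hG, hM, hode, hBk, hDk, hAk⟩ := hN k hk.le
  rw [Real.dist_eq, sub_zero]
  rw [Real.dist_eq, sub_zero] at hAk
  rcases le_or_gt (p k) η with hc | hc
  · -- small phase
    have h3 : |G k| ≤ |C| * η := by
      calc |G k| ≤ Mw k * p k := hG
        _ ≤ |C| * p k := mul_le_mul_of_nonneg_right (hM.trans (le_abs_self C)) hp0.le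
        _ ≤ |C| * η := mul_le_mul_of_nonneg_left hc (abs_nonneg _)
    have h4 : |p k * E| ≤ E * η := by
      rw [abs_of_pos (mul_pos hp0 hE0), mul_comm]
      exact mul_le_mul_of_nonneg_left hc hE0.le
    have h5 : (|C| + E) * η < δ := by
      rw [hη, mul_div_assoc', div_lt_iff₀ (by positivity)]
      nlinarith [abs_nonneg C]
    calc |G k - p k * E| ≤ |G k| + |p k * E| := abs_sub _ _
      _ ≤ |C| * η + E * η := add_le_add h3 h4
      _ = (|C| + E) * η := by ring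
      _ < δ := h5
  · -- large phase
    have h3 : 4 * ε k * W ^ 2 ≤ p k ^ 2 := by
      have : η ^ 2 ≤ p k ^ 2 := pow_le_pow_left₀ hη0.le hc.le 2
      linarith
    have h4 := hode h3
    set A := Real.exp (V k * W ^ 2 / 2) with hAdef
    have hA0 : 0 < A := Real.exp_pos _
    have h5 : p k * A * (4 * ε k * W ^ 2 / p k ^ 2) ≤ A * (4 * ε k * W ^ 2 / η) := by
      have e : p k * A * (4 * ε k * W ^ 2 / p k ^ 2) = A * (4 * ε k * W ^ 2 / p k) := by
        field_simp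
      rw [e]
      refine mul_le_mul_of_nonneg_left ?_ hA0.le
      exact div_le_div_of_nonneg_left (by positivity) hη0 hc.le
    have h6 : |p k * A - p k * E| ≤ |A - E| := by
      rw [← mul_sub, abs_mul, abs_of_pos hp0]
      exact mul_le_of_le_one_left (abs_nonneg _) hp1
    calc |G k - p k * E| = |(G k - p k * A) + (p k * A - p k * E)| := by ring_nf
      _ ≤ |G k - p k * A| + |p k * A - p k * E| := abs_add_le _ _
      _ ≤ A * (4 * ε k * W ^ 2 / η) + |A - E| := add_le_add (h4.trans h5) h6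
      _ < δ := by linarith

/-- GLUE.  **[F]L5.4, second assertion**, moving temperature, even tori. -/
theorem tor_mix {b : ℕ → ℝ} {m : ℕ → ℕ} {a : ℝ} (hS : C2.ScaleCoef b (fun k => 2 * m k) a) (w : ℝ) :
    Tendsto (fun k => tG (b k) (2 * m k) w - torPhase (b k) (2 * m k) * Real.exp (a * (1 / (8 * Real.pi ^ 2)) * w ^ 2 / 2)) atTop (𝓝 0) := by
  obtain ⟨⟨β₀, β₁, hβ₀, hβ⟩, hn, -⟩ := id hS
  have hb : ∀ k, 0 < b k := fun k => hβ₀.trans_le (hβ k).1
  set σ : ℝ := a * (1 / (8 * Real.pi ^ 2)) with hσ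
  have hm1 : ∀ᶠ k in atTop, 1 ≤ m k := by
    filter_upwards [hn.eventually_ge_atTop 2] with k hk
    omega
  -- the error sequence
  have hM2 := tor_mgf_upper hS (2 * |w|) 1 one_pos
  have hK := tor_kap hS
  have hK0 : ∀ᶠ k in atTop, 0 ≤ tK (b k) (2 * m k) := by
    filter_upwards [hm1] with k hk
    have : NeZero (2 * m k) := ⟨by omega⟩
    have := lsys_cumulant _ (C5.torLaw_ok (2 * m k) (b k) (hb k)) (xC (2 * m k) (b k)) (xC (2 * m k) (b k))
    rw [tK_eq]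
    unfold C2.kap
    linarith
  have hM0 : ∀ᶠ k in atTop, 0 ≤ tM (b k) (2 * m k) (2 * |w|) := by
    filter_upwards [hm1] with k hk
    have : NeZero (2 * m k) := ⟨by omega⟩
    rw [tM_eq, rd_E0_eq]
    exact div_nonneg (rd_Zf_nonneg (C5.torLaw_ok (2 * m k) (b k) (hb k)) 0 fun z => (Real.exp_pos _).le)
      (rd_w_pos (C5.torLaw_ok (2 * m k) (b k) (hb k)) 0).le
  have hprod : Tendsto (fun k => tK (b k) (2 * m k) * tM (b k) (2 * m k) (2 * |w|)) atTop (𝓝 0) := by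
    have hup : Tendsto (fun k => tK (b k) (2 * m k) * (Real.exp (σ * (2 * |w|) ^ 2 / 2) + 1)) atTop (𝓝 (0 * (Real.exp (σ * (2 * |w|) ^ 2 / 2) + 1))) :=
      hK.mul_const _
    rw [zero_mul] at hup
    refine tendsto_of_tendsto_of_tendsto_of_le_of_le' tendsto_const_nhds hup ?_ ?_
    · filter_upwards [hK0, hM0] with k h1 h2
      exact mul_nonneg h1 h2
    · filter_upwards [hK0, hM2] with k h1 h2
      exact mul_le_mul_of_nonneg_left h2 h1
  have hε : Tendsto (fun k => Real.sqrt (tK (b k) (2 * m k) * tM (b k) (2 * m k) (2 * |w|))) atTop (𝓝 0) := by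
    have := hprod.sqrt
    rwa [Real.sqrt_zero] at this
  have h := mix_abstract (G := fun k => tG (b k) (2 * m k) |w|) (p := fun k => torPhase (b k) (2 * m k))
    (V := fun k => torVar (b k) (2 * m k)) (ε := fun k => Real.sqrt (tK (b k) (2 * m k) * tM (b k) (2 * m k) (2 * |w|)))
    (Mw := fun k => tM (b k) (2 * m k) |w|) (σ := σ) (W := |w|) (C := Real.exp (σ * |w| ^ 2 / 2) + 1)
    (by
      filter_upwards [hm1] with k hk
      exact torPhase_mem (b k) (hb k) _ (by omega))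
    (torus_limit' hS) hε (Eventually.of_forall fun k => Real.sqrt_nonneg _)
    (by
      filter_upwards [hm1] with k hk
      exact tG_abs_le (b k) (hb k) _ (by omega) _)
    (tor_mgf_upper hS |w| 1 one_pos)
    (by
      filter_upwards [hm1] with k hk hsm
      exact mix_fixed (m k) hk (b k) (hb k) |w| (abs_nonneg w) hsm)
  rw [sq_abs] at h
  refine h.congr' ?_
  filter_upwards [hm1] with k hk
  rcases abs_cases w with ⟨h1, _⟩ | ⟨h1, _⟩
  · rw [h1]
  · rw [h1, tG_neg _ _ (by omega)]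

end

end Claimed.Agent.R285.L54
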