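import Claimed.Agent.R285.F5.TorBase
import Claimed.Agent.R285.Read.E5

/-!
# ROW 285, post BP-F5-L54, file 2: THE VARIANCE OF THE TORUS  = `Top.torus_limit` ([E]P5.6, last assertion; [F]L5.4, first line)      (architect helper57)

DUPLICATE REMOVED (16:30Z): helper225's layer `R285/Tor/*` + `Read/E5.lean` proves exactly this statement (same mathematics: cut one seam / pin a rim / four pieces / parallelogram identity).
This file is now the LINK.  The leaves `L-TOR-V1..V10` and the import `mixed_grad` are cancelled (the one import from PINS is `Tor.pin_shift_lower`).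
-/

set_option autoImplicit false

namespace Claimed.Agent.R285.L54

open Filter Topology
open scoped Classical

noncomputable section

/-- **[E]P5.6, last assertion = `Top.torus_limit`** (verbatim): LINK to `E5.torus_limit'` (helper225). -/
theorem torus_limit' {b : ℕ → ℝ} {n : ℕ → ℕ} {a : ℝ} (h : C2.ScaleCoef b n a) :
    Tendsto (fun k => torVar (b k) (n k)) atTop (𝓝 (a * (1 / (8 * Real.pi ^ 2)))) :=
  E5.torus_limit' h

end

end Claimed.Agent.R285.L54
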